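/-
Row 258, block [S4a] (architect helper78).  FILE Lat = leaf P-S4a-LAT: elementary facts on the lattice `ι → ℤ`.  Mathlib only, no paper.

PLANS.
* `s4a_lat_box_finite/card`: `{n | ∀ i, |u i - n i| ≤ K} ⊆ Fintype.piFinset (fun i => Finset.Icc ⌈u i - K⌉ ⌊u i + K⌋)`; `Int.card_Icc`;
  `⌊u+K⌋ - ⌈u-K⌉ + 1 ≤ 2K + 1`; `Fintype.card_piFinset`, `Finset.prod_le_pow_card`-type bound.
* `s4a_lat_sum_le`: the support of `f` is finite: `summable_of_finite_support`/`tsum_eq_sum`; `norm_sum_le`.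
* `s4a_lat_summable`, `s4a_lat_tsum_le`: `(1+‖ℓ‖)^(2d) ≥ ∏_i (1+|ℓ i|)^2` (each factor `≤ (1+‖ℓ‖)^2`, `norm_le_pi_norm`); for every finite set `s` of `ℓ`'s, `s ⊆ piFinset (Icc (-N) N)` and
  `∑_{piFinset} ∏_i f(ℓ i) = ∏_i ∑_{Icc} f` (`Finset.prod_univ_sum`), `∑_{j ∈ Icc (-N) N} (1+|j|)^(-2) ≤ 4` (e.g. `1/(1+j)^2 ≤ 1/j - 1/(j+1)` telescoping: total `≤ 1 + 2·1 = 3`).
  Then `summable_of_sum_le`, `tsum_le_of_sum_le`-type lemmas (`Real.tsum_le_of_sum_le`).  For `card ι = 0` the type `ι → ℤ` is a singleton.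
* `s4a_lat_weighted`: from `‖a ℓ‖ (1+‖ℓ‖)^(M+2d) ≤ X`: `‖a ℓ‖ (1+‖ℓ‖)^M ≤ X (1+‖ℓ‖)^(-2d)`; compare.
* `s4a_lat_tail`: for `‖ℓ‖ ≥ T`: `‖a ℓ‖ ≤ ‖a ℓ‖ (1+‖ℓ‖)^M / T^M` ... ; sum over the subtype or with indicator.
* `s4a_lat_ball_card`: `{ℓ | ‖ℓ‖ ≤ T}` is `piFinset (Icc (-⌊T⌋) ⌊T⌋)`.
-/
import Claimed.Agent.R258.Pack012

set_option autoImplicit false
open MeasureTheory

namespace Claimed.Agent.R258

variable {ι : Type} [Fintype ι]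

open Classical in
/-- the lattice points of the box as a Finset -/
noncomputable def s4a_lat_boxF (K : ℝ) (u : ι → ℝ) : Finset (ι → ℤ) :=
  Fintype.piFinset fun i => Finset.Icc ⌈u i - K⌉ ⌊u i + K⌋

theorem s4a_lat_boxF_mem (K : ℝ) (u : ι → ℝ) (n : ι → ℤ) : n ∈ s4a_lat_boxF K u ↔ ∀ i, |u i - (n i : ℝ)| ≤ K := by
  classical
  unfold s4a_lat_boxF
  rw [Fintype.mem_piFinset]
  refine forall_congr' fun i => ?_
  rw [Finset.mem_Icc, Int.ceil_le, Int.le_floor, abs_le]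
  constructor
  · rintro ⟨h1, h2⟩; constructor <;> linarith
  · rintro ⟨h1, h2⟩; constructor <;> linarith

theorem s4a_lat_boxF_coe (K : ℝ) (u : ι → ℝ) :
    ((s4a_lat_boxF K u : Finset (ι → ℤ)) : Set (ι → ℤ)) = {n : ι → ℤ | ∀ i, |u i - (n i : ℝ)| ≤ K} := by
  ext n
  simp [s4a_lat_boxF_mem]

theorem s4a_lat_boxF_card (K : ℝ) (hK : 0 ≤ K) (u : ι → ℝ) :
    ((s4a_lat_boxF K u).card : ℝ) ≤ (2 * K + 1) ^ Fintype.card ι := by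
  classical
  unfold s4a_lat_boxF
  rw [Fintype.card_piFinset]
  push_cast
  have h : ∀ i ∈ (Finset.univ : Finset ι), ((Finset.Icc ⌈u i - K⌉ ⌊u i + K⌋).card : ℝ) ≤ 2 * K + 1 := by
    intro i _
    rw [Int.card_Icc]
    have h1 : ((⌊u i + K⌋ + 1 - ⌈u i - K⌉ : ℤ) : ℝ) ≤ 2 * K + 1 := by
      push_cast
      linarith [Int.floor_le (u i + K), Int.le_ceil (u i - K)]
    rcases le_total 0 (⌊u i + K⌋ + 1 - ⌈u i - K⌉) with h0 | h0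
    · have : (((⌊u i + K⌋ + 1 - ⌈u i - K⌉).toNat : ℤ) : ℝ) = ((⌊u i + K⌋ + 1 - ⌈u i - K⌉ : ℤ) : ℝ) := by
        rw [Int.toNat_of_nonneg h0]
      calc (((⌊u i + K⌋ + 1 - ⌈u i - K⌉).toNat : ℕ) : ℝ) = (((⌊u i + K⌋ + 1 - ⌈u i - K⌉).toNat : ℤ) : ℝ) := by
            push_cast; rfl
        _ = _ := this
        _ ≤ _ := h1
    · rw [Int.toNat_of_nonpos h0]
      simp only [Nat.cast_zero]
      linarith
  calc ∏ i, ((Finset.Icc ⌈u i - K⌉ ⌊u i + K⌋).card : ℝ) ≤ ∏ _i : ι, (2 * K + 1) :=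
        Finset.prod_le_prod (fun i _ => Nat.cast_nonneg _) h
    _ = _ := by rw [Finset.prod_const, Finset.card_univ]

theorem s4a_lat_box_finite (K : ℝ) (u : ι → ℝ) : {n : ι → ℤ | ∀ i, |u i - (n i : ℝ)| ≤ K}.Finite := by
  rw [← s4a_lat_boxF_coe]
  exact Finset.finite_toSet _

theorem s4a_lat_box_card (K : ℝ) (hK : 0 ≤ K) (u : ι → ℝ) :
    (Set.ncard {n : ι → ℤ | ∀ i, |u i - (n i : ℝ)| ≤ K} : ℝ) ≤ (2 * K + 1) ^ Fintype.card ι := by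
  rw [← s4a_lat_boxF_coe, Set.ncard_coe_finset]
  exact s4a_lat_boxF_card K hK u

/-- sums over lattice points in a box -/
theorem s4a_lat_sum_le {E : Type*} [NormedAddCommGroup E] (K X : ℝ) (hK : 0 ≤ K) (hX : 0 ≤ X) (u : ι → ℝ)
    (f : (ι → ℤ) → E) (hs : ∀ n, f n ≠ 0 → ∀ i, |u i - (n i : ℝ)| ≤ K) (hb : ∀ n, ‖f n‖ ≤ X) :
    Summable f ∧ ‖∑' n, f n‖ ≤ (2 * K + 1) ^ Fintype.card ι * X := by
  have hz : ∀ n ∉ s4a_lat_boxF K u, f n = 0 := by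
    intro n hn
    by_contra hne
    exact hn ((s4a_lat_boxF_mem K u n).2 (hs n hne))
  refine ⟨summable_of_ne_finset_zero hz, ?_⟩
  rw [tsum_eq_sum hz]
  calc ‖∑ n ∈ s4a_lat_boxF K u, f n‖ ≤ ∑ n ∈ s4a_lat_boxF K u, ‖f n‖ := norm_sum_le _ _
    _ ≤ ∑ _n ∈ s4a_lat_boxF K u, X := Finset.sum_le_sum fun n _ => hb n
    _ = ((s4a_lat_boxF K u).card : ℝ) * X := by rw [Finset.sum_const, nsmul_eq_mul]
    _ ≤ _ := mul_le_mul_of_nonneg_right (s4a_lat_boxF_card K hK u) hX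

theorem s4a_lat_nat_partial (N : ℕ) : ∑ n ∈ Finset.range (N + 1), (((1 : ℝ) + n) ^ 2)⁻¹ ≤ 2 - 1 / ((N : ℝ) + 1) := by
  induction N with
  | zero => norm_num
  | succ N ih =>
    rw [Finset.sum_range_succ]
    have hN : (0 : ℝ) ≤ N := Nat.cast_nonneg N
    have h1 : (((1 : ℝ) + ((N + 1 : ℕ) : ℝ)) ^ 2)⁻¹ ≤ 1 / ((N : ℝ) + 1) - 1 / (((N + 1 : ℕ) : ℝ) + 1) := by
      push_cast
      rw [div_sub_div _ _ (by positivity) (by positivity), ← one_div, div_le_div_iff₀ (by positivity) (by positivity)]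
      nlinarith
    linarith

theorem s4a_lat_nat_le (N : ℕ) : ∑ n ∈ Finset.range N, (((1 : ℝ) + n) ^ 2)⁻¹ ≤ 2 := by
  rcases N with _ | N
  · simp
  · have := s4a_lat_nat_partial N
    have h2 : (0 : ℝ) ≤ 1 / ((N : ℝ) + 1) := by positivity
    linarith

theorem s4a_lat_nat_le' (N : ℕ) : ∑ n ∈ Finset.range N, (((1 : ℝ) + ((n : ℝ) + 1)) ^ 2)⁻¹ ≤ 1 := by
  have h := s4a_lat_nat_le (N + 1)
  rw [Finset.sum_range_succ'] at h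
  simp only [Nat.cast_zero, add_zero, one_pow, inv_one, Nat.cast_add, Nat.cast_one] at h
  linarith

/-- the one-dimensional sum -/
theorem s4a_lat_int : Summable (fun k : ℤ => (((1 : ℝ) + |(k : ℝ)|) ^ 2)⁻¹) ∧
    ∑' k : ℤ, (((1 : ℝ) + |(k : ℝ)|) ^ 2)⁻¹ ≤ 3 := by
  set f : ℤ → ℝ := fun k : ℤ => (((1 : ℝ) + |(k : ℝ)|) ^ 2)⁻¹ with hf
  have e1 : ∀ n : ℕ, f (n : ℤ) = (((1 : ℝ) + n) ^ 2)⁻¹ := by
    intro n
    simp only [hf, Int.cast_natCast, Nat.abs_cast]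
  have e2 : ∀ n : ℕ, f (-((n : ℤ) + 1)) = (((1 : ℝ) + ((n : ℝ) + 1)) ^ 2)⁻¹ := by
    intro n
    have : |((-((n : ℤ) + 1) : ℤ) : ℝ)| = (n : ℝ) + 1 := by
      push_cast
      rw [abs_neg, abs_of_nonneg (by positivity)]
    simp only [hf, this]
  have s1 : Summable (fun n : ℕ => f (n : ℤ)) := by
    simp only [e1]; exact summable_of_sum_range_le (fun n => by positivity) s4a_lat_nat_le
  have s2 : Summable (fun n : ℕ => f (-((n : ℤ) + 1))) := by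
    simp only [e2]; exact summable_of_sum_range_le (fun n => by positivity) s4a_lat_nat_le'
  refine ⟨Summable.of_nat_of_neg_add_one s1 s2, ?_⟩
  rw [tsum_of_nat_of_neg_add_one s1 s2]
  simp only [e1, e2]
  have t1 := Real.tsum_le_of_sum_range_le (fun n => by positivity) s4a_lat_nat_le
  have t2 := Real.tsum_le_of_sum_range_le (fun n => by positivity) s4a_lat_nat_le'
  linarith

theorem s4a_lat_term_le (ℓ : ι → ℤ) :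
    ((1 + ‖ℓ‖) ^ (2 * Fintype.card ι))⁻¹ ≤ ∏ i, (((1 : ℝ) + |(ℓ i : ℝ)|) ^ 2)⁻¹ := by
  rw [Finset.prod_inv_distrib]
  apply inv_anti₀ (Finset.prod_pos fun i _ => by positivity)
  calc ∏ i, ((1 : ℝ) + |(ℓ i : ℝ)|) ^ 2 ≤ ∏ _i : ι, (1 + ‖ℓ‖) ^ 2 := by
        apply Finset.prod_le_prod (fun i _ => by positivity)
        intro i _
        apply pow_le_pow_left₀ (by positivity)
        have := norm_le_pi_norm ℓ i
        rw [Int.norm_eq_abs] at this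
        linarith
    _ = _ := by rw [Finset.prod_const, Finset.card_univ, ← pow_mul]

theorem s4a_lat_fin_le (s : Finset (ι → ℤ)) :
    ∑ ℓ ∈ s, ((1 + ‖ℓ‖) ^ (2 * Fintype.card ι))⁻¹ ≤ 4 ^ Fintype.card ι := by
  classical
  obtain ⟨hs, ht⟩ := s4a_lat_int
  calc ∑ ℓ ∈ s, ((1 + ‖ℓ‖) ^ (2 * Fintype.card ι))⁻¹
      ≤ ∑ ℓ ∈ s, ∏ i, (((1 : ℝ) + |(ℓ i : ℝ)|) ^ 2)⁻¹ := Finset.sum_le_sum fun ℓ _ => s4a_lat_term_le ℓ
    _ ≤ ∑ ℓ ∈ Fintype.piFinset (fun i => s.image (fun ℓ : ι → ℤ => ℓ i)),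
          ∏ i, (((1 : ℝ) + |((ℓ i : ℤ) : ℝ)|) ^ 2)⁻¹ := by
        apply Finset.sum_le_sum_of_subset_of_nonneg
        · intro ℓ hℓ
          rw [Fintype.mem_piFinset]
          exact fun i => Finset.mem_image_of_mem _ hℓ
        · intro ℓ _ _
          exact Finset.prod_nonneg fun i _ => by positivity
    _ = ∏ i, ∑ k ∈ s.image (fun ℓ : ι → ℤ => ℓ i), (((1 : ℝ) + |((k : ℤ) : ℝ)|) ^ 2)⁻¹ :=
        (Finset.prod_univ_sum (fun i => s.image (fun ℓ : ι → ℤ => ℓ i))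
          (fun _ (k : ℤ) => (((1 : ℝ) + |(k : ℝ)|) ^ 2)⁻¹)).symm
    _ ≤ ∏ _i : ι, (4 : ℝ) := by
        apply Finset.prod_le_prod (fun i _ => Finset.sum_nonneg fun k _ => by positivity)
        intro i _
        have := hs.sum_le_tsum (s.image (fun ℓ : ι → ℤ => ℓ i)) (fun k _ => by positivity)
        linarith
    _ = _ := by rw [Finset.prod_const, Finset.card_univ]

theorem s4a_lat_summable : Summable fun ℓ : ι → ℤ => ((1 + ‖ℓ‖) ^ (2 * Fintype.card ι))⁻¹ := by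
  exact summable_of_sum_le (fun ℓ => by positivity) s4a_lat_fin_le

theorem s4a_lat_tsum_le : ∑' ℓ : ι → ℤ, ((1 + ‖ℓ‖) ^ (2 * Fintype.card ι))⁻¹ ≤ 4 ^ Fintype.card ι := by
  exact Real.tsum_le_of_sum_le (fun ℓ => by positivity) s4a_lat_fin_le

/-- pointwise decay of order `M + 2d` gives a weighted `ℓ¹` bound of order `M` -/
theorem s4a_lat_weighted (a : (ι → ℤ) → ℂ) (M : ℕ) (X : ℝ) (hX : 0 ≤ X)
    (h : ∀ ℓ, ‖a ℓ‖ * (1 + ‖ℓ‖) ^ (M + 2 * Fintype.card ι) ≤ X) :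
    Summable (fun ℓ => ‖a ℓ‖ * (1 + ‖ℓ‖) ^ M) ∧ ∑' ℓ, ‖a ℓ‖ * (1 + ‖ℓ‖) ^ M ≤ 4 ^ Fintype.card ι * X := by
  have hle : ∀ ℓ : ι → ℤ, ‖a ℓ‖ * (1 + ‖ℓ‖) ^ M ≤ X * ((1 + ‖ℓ‖) ^ (2 * Fintype.card ι))⁻¹ := by
    intro ℓ
    have hp : (0 : ℝ) < (1 + ‖ℓ‖) ^ (2 * Fintype.card ι) := by positivity
    rw [← div_eq_mul_inv, le_div_iff₀ hp, mul_assoc, ← pow_add]
    exact h ℓ
  have hs : Summable fun ℓ : ι → ℤ => X * ((1 + ‖ℓ‖) ^ (2 * Fintype.card ι))⁻¹ := s4a_lat_summable.mul_left X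
  have hs' : Summable (fun ℓ => ‖a ℓ‖ * (1 + ‖ℓ‖) ^ M) :=
    Summable.of_nonneg_of_le (fun ℓ => by positivity) hle hs
  refine ⟨hs', ?_⟩
  calc ∑' ℓ, ‖a ℓ‖ * (1 + ‖ℓ‖) ^ M ≤ ∑' ℓ : ι → ℤ, X * ((1 + ‖ℓ‖) ^ (2 * Fintype.card ι))⁻¹ :=
        hs'.tsum_le_tsum hle hs
    _ = X * ∑' ℓ : ι → ℤ, ((1 + ‖ℓ‖) ^ (2 * Fintype.card ι))⁻¹ := tsum_mul_left
    _ ≤ X * 4 ^ Fintype.card ι := mul_le_mul_of_nonneg_left s4a_lat_tsum_le hX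
    _ = _ := mul_comm _ _

theorem s4a_lat_tail_aux (a : (ι → ℤ) → ℂ) (M : ℕ) (T : ℝ) (hT : 0 < T)
    (hs : Summable fun ℓ => ‖a ℓ‖ * (1 + ‖ℓ‖) ^ M) :
    Summable (fun ℓ : ι → ℤ => if T ≤ ‖ℓ‖ then ‖a ℓ‖ else 0) ∧
      ∀ ℓ : ι → ℤ, (if T ≤ ‖ℓ‖ then ‖a ℓ‖ else 0) ≤ (‖a ℓ‖ * (1 + ‖ℓ‖) ^ M) / T ^ M := by
  have hle : ∀ ℓ : ι → ℤ, (if T ≤ ‖ℓ‖ then ‖a ℓ‖ else 0) ≤ (‖a ℓ‖ * (1 + ‖ℓ‖) ^ M) / T ^ M := by
    intro ℓ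
    split_ifs with hc
    · rw [le_div_iff₀ (by positivity)]
      apply mul_le_mul_of_nonneg_left _ (norm_nonneg _)
      exact pow_le_pow_left₀ hT.le (by linarith) M
    · positivity
  refine ⟨Summable.of_nonneg_of_le (fun ℓ => ?_) hle (hs.div_const _), hle⟩
  split_ifs <;> positivity

/-- tails -/
theorem s4a_lat_tail (a : (ι → ℤ) → ℂ) (M : ℕ) (Y T : ℝ) (hT : 0 < T)
    (hs : Summable fun ℓ => ‖a ℓ‖ * (1 + ‖ℓ‖) ^ M) (h : ∑' ℓ, ‖a ℓ‖ * (1 + ‖ℓ‖) ^ M ≤ Y) :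
    ∑' ℓ : ι → ℤ, (if T ≤ ‖ℓ‖ then ‖a ℓ‖ else 0) ≤ Y / T ^ M := by
  obtain ⟨h1, h2⟩ := s4a_lat_tail_aux a M T hT hs
  calc ∑' ℓ : ι → ℤ, (if T ≤ ‖ℓ‖ then ‖a ℓ‖ else 0) ≤ ∑' ℓ : ι → ℤ, (‖a ℓ‖ * (1 + ‖ℓ‖) ^ M) / T ^ M :=
        h1.tsum_le_tsum h2 (hs.div_const _)
    _ = (∑' ℓ : ι → ℤ, ‖a ℓ‖ * (1 + ‖ℓ‖) ^ M) / T ^ M := tsum_div_const
    _ ≤ _ := div_le_div_of_nonneg_right h (by positivity)

theorem s4a_lat_ball_finite (T : ℝ) : {ℓ : ι → ℤ | ‖ℓ‖ < T}.Finite := by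
  apply (s4a_lat_box_finite T (0 : ι → ℝ)).subset
  intro ℓ hℓ i
  have h1 := norm_le_pi_norm ℓ i
  rw [Int.norm_eq_abs] at h1
  simp only [Pi.zero_apply, zero_sub, abs_neg]
  exact h1.trans (le_of_lt hℓ)

theorem s4a_lat_ball_card (T : ℝ) (hT : 0 ≤ T) :
    (Set.ncard {ℓ : ι → ℤ | ‖ℓ‖ < T} : ℝ) ≤ (2 * T + 1) ^ Fintype.card ι := by
  refine le_trans ?_ (s4a_lat_box_card T hT (0 : ι → ℝ))
  have : Set.ncard {ℓ : ι → ℤ | ‖ℓ‖ < T} ≤ Set.ncard {n : ι → ℤ | ∀ i, |(0 : ι → ℝ) i - (n i : ℝ)| ≤ T} := by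
    apply Set.ncard_le_ncard _ (s4a_lat_box_finite T (0 : ι → ℝ))
    intro ℓ hℓ i
    have h1 := norm_le_pi_norm ℓ i
    rw [Int.norm_eq_abs] at h1
    simp only [Pi.zero_apply, zero_sub, abs_neg]
    exact h1.trans (le_of_lt hℓ)
  exact_mod_cast this

/-- truncation of an absolutely convergent expansion with unimodular terms: the finite sum over `‖ℓ‖ < T` approximates the total up to
`Y / T^M` -/
theorem s4a_lat_truncate (a : (ι → ℤ) → ℂ) (e : (ι → ℤ) → ℂ) (he : ∀ ℓ, ‖e ℓ‖ ≤ 1) (M : ℕ) (Y T : ℝ) (hT : 0 < T)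
    (hs : Summable fun ℓ => ‖a ℓ‖ * (1 + ‖ℓ‖) ^ M) (h : ∑' ℓ, ‖a ℓ‖ * (1 + ‖ℓ‖) ^ M ≤ Y) (z : ℂ)
    (hz : HasSum (fun ℓ => a ℓ * e ℓ) z) :
    ‖z - ∑ ℓ ∈ (s4a_lat_ball_finite (ι := ι) T).toFinset, a ℓ * e ℓ‖ ≤ Y / T ^ M := by
  classical
  obtain ⟨h1, _⟩ := s4a_lat_tail_aux a M T hT hs
  set F := (s4a_lat_ball_finite (ι := ι) T).toFinset with hFdef
  have hmem : ∀ ℓ : ι → ℤ, ℓ ∈ F ↔ ‖ℓ‖ < T := by
    intro ℓ
    simp [hFdef]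
  have hF : HasSum (fun ℓ : ι → ℤ => if ℓ ∈ F then a ℓ * e ℓ else 0) (∑ ℓ ∈ F, a ℓ * e ℓ) := by
    have h0 : HasSum (fun ℓ : ι → ℤ => if ℓ ∈ F then a ℓ * e ℓ else 0)
        (∑ ℓ ∈ F, if ℓ ∈ F then a ℓ * e ℓ else 0) :=
      hasSum_sum_of_ne_finset_zero (fun ℓ hℓ => by simp only [if_neg hℓ])
    have e0 : (∑ ℓ ∈ F, if ℓ ∈ F then a ℓ * e ℓ else 0) = ∑ ℓ ∈ F, a ℓ * e ℓ :=
      Finset.sum_congr rfl fun ℓ hℓ => by simp only [if_pos hℓ]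
    rw [e0] at h0
    exact h0
  have hd := hz.sub hF
  refine (hd.norm_le_of_bounded h1.hasSum (fun ℓ => ?_)).trans (s4a_lat_tail a M Y T hT hs h)
  by_cases hc : ℓ ∈ F
  · have hc' : ¬ T ≤ ‖ℓ‖ := not_le.mpr ((hmem ℓ).1 hc)
    simp only [if_pos hc, if_neg hc', sub_self, norm_zero, le_refl]
  · have hc' : T ≤ ‖ℓ‖ := not_lt.mp (fun hlt => hc ((hmem ℓ).2 hlt))
    simp only [if_neg hc, if_pos hc', sub_zero, norm_mul]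
    exact mul_le_of_le_one_right (norm_nonneg _) (he ℓ)

end Claimed.Agent.R258
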