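/-
Row 258, block [S4a] (architect helper78).  FILE Periodic = leaf P-S4a-PERIODIC: decay of the Fourier coefficients of a smooth periodic function by the
TRANSLATION TRICK (no integration by parts), and the resulting absolutely convergent Fourier expansion (`s4a_periodic_fourier`).
Uses the STATEMENTS of Fourier.lean and Lat.lean.  No paper.

PLANS.
* `s4a_diff v G x = G x - G (x + v)`.
* `s4a_diff_deriv_le`: `D^n (s4a_diff v G)(x) = D^n G(x) - D^n G(x+v)` (`iteratedFDeriv_sub`-type lemma + `iteratedFDeriv_comp_add_right`), and the mean value inequality on the segment `[x, x+v]` for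
  the function `D^n G` whose derivative has norm `‖D^(n+1) G‖` (`norm_fderiv_iteratedFDeriv`; `Convex.norm_image_sub_le_of_norm_fderiv_le` on `Set.univ`).
* `s4a_diff_iter_le`: induction on `m`, generalizing `G`, proving the statement: if `‖D^(n+m) G‖ ≤ X` everywhere then `‖D^n ((s4a_diff v)^[m] G)‖ ≤ ‖v‖^m X` everywhere; take `n = 0` (`norm_iteratedFDeriv_zero`).
* `s4a_fc_diff`: `s4a_fc_sub` + `s4a_fc_translate`.
* `s4a_fc_decay`: for `ℓ ≠ 0` choose `j` with `|ℓ j| = ‖ℓ‖ ≥ 1` (`Pi.exists_norm_eq`-type / `Finset.exists_mem_eq_sup'`); `v = Pi.single j (1/(2 ℓ j))`, so `∑ ℓ_i v_i = 1/2`, `ee (1/2) = -1`,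
  `s4a_fc (s4a_diff v G) ℓ = 2 s4a_fc G ℓ`; iterate (`s4a_diff` preserves continuity, smoothness, periodicity): `2^m |fc G ℓ| = |fc (diff^m G) ℓ| ≤ sup |diff^m G| ≤ ‖v‖^m X = (2‖ℓ‖)^(-m) X`.
  Hence `|fc G ℓ| (4‖ℓ‖)^m ≤ X` and `1 + ‖ℓ‖ ≤ 4‖ℓ‖`.  For `ℓ = 0`: `s4a_fc_norm_le`.
* `s4a_periodic_fourier`: `a = s4a_fc G`; summable by comparison with `X (1+‖ℓ‖)^(-2 card κ)` (`s4a_lat_summable`, `m ≥ 2 card κ`, `1 ≤ 1+‖ℓ‖`); `s4a_fc_hasSum`.
-/
import Claimed.Agent.R258.S4a.Fourier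
import Claimed.Agent.R258.S4a.Lat

set_option autoImplicit false
open MeasureTheory
open scoped ENNReal ContDiff ComplexConjugate

namespace Claimed.Agent.R258

/-- backward difference `G x - G (x + v)` -/
def s4a_diff {E : Type*} [Add E] (v : E) (G : E → ℂ) : E → ℂ := fun x => G x - G (x + v)

section
variable {E : Type*} [NormedAddCommGroup E] [NormedSpace ℝ E]

theorem s4a_diff_contDiff (v : E) {G : E → ℂ} (hG : ContDiff ℝ ∞ G) : ContDiff ℝ ∞ (s4a_diff v G) :=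
  hG.sub (hG.comp (contDiff_id.add contDiff_const))

theorem s4a_diff_deriv_le (v : E) {G : E → ℂ} (hG : ContDiff ℝ ∞ G) (n : ℕ) (X : ℝ)
    (hX : ∀ x, ‖iteratedFDeriv ℝ (n + 1) G x‖ ≤ X) (x : E) : ‖iteratedFDeriv ℝ n (s4a_diff v G) x‖ ≤ ‖v‖ * X := by
  have hGn : ContDiff ℝ n G := hG.of_le (by exact_mod_cast le_top)
  have hG2 : ContDiff ℝ n fun z => G (z + v) := hGn.comp (contDiff_id.add contDiff_const)
  have e : iteratedFDeriv ℝ n (s4a_diff v G) x = iteratedFDeriv ℝ n G x - iteratedFDeriv ℝ n G (x + v) := by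
    have h1 : s4a_diff v G = G - fun z => G (z + v) := rfl
    rw [h1, iteratedFDeriv_sub_apply hGn.contDiffAt hG2.contDiffAt, iteratedFDeriv_comp_add_right]
  rw [e]
  have hd : Differentiable ℝ fun y => iteratedFDeriv ℝ n G y :=
    hG.differentiable_iteratedFDeriv (by exact_mod_cast WithTop.coe_lt_top _)
  have h2 := Convex.norm_image_sub_le_of_norm_fderiv_le (𝕜 := ℝ) (f := fun y => iteratedFDeriv ℝ n G y)
    (s := Set.univ) (C := X) (x := x + v) (y := x) (fun y _ => hd y)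
    (fun y _ => by rw [norm_fderiv_iteratedFDeriv]; exact hX y) convex_univ (Set.mem_univ _) (Set.mem_univ _)
  have h3 : ‖x - (x + v)‖ = ‖v‖ := by
    rw [sub_add_cancel_left, norm_neg]
  rw [h3, mul_comm] at h2
  exact h2

theorem s4a_diff_iter_contDiff (v : E) {G : E → ℂ} (hG : ContDiff ℝ ∞ G) (m : ℕ) :
    ContDiff ℝ ∞ ((s4a_diff v)^[m] G) := by
  induction m with
  | zero => exact hG
  | succ m ih =>
    rw [Function.iterate_succ_apply']
    exact s4a_diff_contDiff v ih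

theorem s4a_diff_iter_deriv_le (v : E) {G : E → ℂ} (hG : ContDiff ℝ ∞ G) (X : ℝ) (m : ℕ) :
    ∀ n : ℕ, (∀ x, ‖iteratedFDeriv ℝ (n + m) G x‖ ≤ X) →
      ∀ x, ‖iteratedFDeriv ℝ n ((s4a_diff v)^[m] G) x‖ ≤ ‖v‖ ^ m * X := by
  induction m with
  | zero =>
    intro n hX x
    rw [pow_zero, one_mul]
    exact hX x
  | succ m ih =>
    intro n hX x
    rw [Function.iterate_succ_apply', pow_succ', mul_assoc]
    refine s4a_diff_deriv_le v (s4a_diff_iter_contDiff v hG m) n _ (ih (n + 1) fun y => ?_) x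
    have e : n + 1 + m = n + (m + 1) := by omega
    rw [e]
    exact hX y

theorem s4a_diff_iter_le (v : E) {G : E → ℂ} (hG : ContDiff ℝ ∞ G) (m : ℕ) (X : ℝ)
    (hX : ∀ x, ‖iteratedFDeriv ℝ m G x‖ ≤ X) (x : E) : ‖(s4a_diff v)^[m] G x‖ ≤ ‖v‖ ^ m * X := by
  have h := s4a_diff_iter_deriv_le v hG X m 0 (fun y => by rw [zero_add]; exact hX y) x
  rwa [norm_iteratedFDeriv_zero] at h

end

variable {κ : Type} [Fintype κ]

theorem s4a_diff_per (v : κ → ℝ) {G : (κ → ℝ) → ℂ} (hG : s4a_Per G) : s4a_Per (s4a_diff v G) := by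
  intro x n
  unfold s4a_diff
  have e : (fun i => x i + (n i : ℝ)) + v = fun i => (x + v) i + (n i : ℝ) := by
    funext i
    simp only [Pi.add_apply]
    ring
  rw [e, hG x n, hG (x + v) n]

theorem s4a_diff_iter_per (v : κ → ℝ) {G : (κ → ℝ) → ℂ} (hG : s4a_Per G) (m : ℕ) : s4a_Per ((s4a_diff v)^[m] G) := by
  induction m with
  | zero => exact hG
  | succ m ih =>
    rw [Function.iterate_succ_apply']
    exact s4a_diff_per v ih

theorem s4a_fc_diff (v : κ → ℝ) {G : (κ → ℝ) → ℂ} (hc : Continuous G) (hper : s4a_Per G) (ℓ : κ → ℤ) :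
    s4a_fc (s4a_diff v G) ℓ = (1 - ee (∑ i, (ℓ i : ℝ) * v i)) * s4a_fc G ℓ := by
  have h1 : s4a_diff v G = fun x => G x - (fun y : κ → ℝ => G (fun i => y i + v i)) x := rfl
  have hc' : Continuous fun y : κ → ℝ => G (fun i => y i + v i) := hc.comp (by fun_prop)
  rw [h1, s4a_fc_sub G _ hc hc', s4a_fc_translate G hc hper v ℓ]
  ring

theorem s4a_fc_diff_iter (v : κ → ℝ) {G : (κ → ℝ) → ℂ} (hG : ContDiff ℝ ∞ G) (hper : s4a_Per G) (ℓ : κ → ℤ) (m : ℕ) :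
    s4a_fc ((s4a_diff v)^[m] G) ℓ = (1 - ee (∑ i, (ℓ i : ℝ) * v i)) ^ m * s4a_fc G ℓ := by
  induction m with
  | zero => rw [pow_zero, one_mul]; rfl
  | succ m ih =>
    rw [Function.iterate_succ_apply', s4a_fc_diff v (s4a_diff_iter_contDiff v hG m).continuous
      (s4a_diff_iter_per v hper m), ih, pow_succ']
    ring

/-- decay of the Fourier coefficients -/
theorem s4a_fc_decay {G : (κ → ℝ) → ℂ} (hG : ContDiff ℝ ∞ G) (hper : s4a_Per G) (m : ℕ) (X : ℝ)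
    (h0 : ∀ x, ‖G x‖ ≤ X) (hX : ∀ x, ‖iteratedFDeriv ℝ m G x‖ ≤ X) (ℓ : κ → ℤ) :
    ‖s4a_fc G ℓ‖ * (1 + ‖ℓ‖) ^ m ≤ X := by
  classical
  by_cases hℓ : ℓ = 0
  · subst hℓ
    rw [norm_zero, add_zero, one_pow, mul_one]
    exact s4a_fc_norm_le G X h0 0
  have hX0 : 0 ≤ X := (norm_nonneg _).trans (h0 0)
  obtain ⟨i₀, hi₀⟩ := Function.ne_iff.1 hℓ
  have : Nonempty κ := ⟨i₀⟩
  obtain ⟨j, hj⟩ := Finite.exists_max fun i => ‖ℓ i‖
  have hL : ‖ℓ‖ = ‖ℓ j‖ :=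
    le_antisymm ((pi_norm_le_iff_of_nonneg (norm_nonneg _)).2 hj) (norm_le_pi_norm ℓ j)
  have hj0 : ℓ j ≠ 0 := by
    intro h
    apply hi₀
    have h1 := hj i₀
    rw [h, norm_zero] at h1
    exact norm_le_zero_iff.1 h1
  have hjR : (ℓ j : ℝ) ≠ 0 := Int.cast_ne_zero.2 hj0
  have hL' : ‖ℓ‖ = |(ℓ j : ℝ)| := by rw [hL, Int.norm_eq_abs]
  have hL1 : 1 ≤ ‖ℓ‖ := by
    rw [hL', ← Int.cast_abs]
    exact_mod_cast Int.one_le_abs hj0
  set v : κ → ℝ := Pi.single j (1 / (2 * (ℓ j : ℝ))) with hv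
  have hsum : ∑ i, (ℓ i : ℝ) * v i = 1 / 2 := by
    rw [Finset.sum_eq_single j]
    · rw [hv, Pi.single_eq_same]
      field_simp
    · intro i _ hi
      rw [hv, Pi.single_eq_of_ne hi, mul_zero]
    · intro h
      exact absurd (Finset.mem_univ j) h
  have hee : ee (1 / 2) = -1 := by
    unfold ee
    rw [← Complex.exp_pi_mul_I]
    congr 1
    push_cast
    ring
  have hvn : ‖v‖ ≤ 1 / (2 * ‖ℓ‖) := by
    refine (pi_norm_le_iff_of_nonneg (by positivity)).2 fun i => ?_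
    by_cases hi : i = j
    · subst hi
      rw [hv, Pi.single_eq_same, Real.norm_eq_abs, abs_div, abs_one, abs_mul, hL']
      norm_num
    · rw [hv, Pi.single_eq_of_ne hi, norm_zero]
      positivity
  have h1 := s4a_fc_diff_iter v hG hper ℓ m
  rw [hsum, hee] at h1
  have h2 : ‖s4a_fc ((s4a_diff v)^[m] G) ℓ‖ ≤ ‖v‖ ^ m * X :=
    s4a_fc_norm_le _ _ (s4a_diff_iter_le v hG m X hX) ℓ
  rw [h1, norm_mul, norm_pow] at h2
  have h3 : ‖(1 : ℂ) - -1‖ = 2 := by norm_num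
  rw [h3] at h2
  have h4 : ‖v‖ ^ m * X ≤ (1 / (2 * ‖ℓ‖)) ^ m * X :=
    mul_le_mul_of_nonneg_right (pow_le_pow_left₀ (norm_nonneg _) hvn m) hX0
  have h5 : (1 + ‖ℓ‖) ^ m ≤ (2 * (2 * ‖ℓ‖)) ^ m := pow_le_pow_left₀ (by positivity) (by linarith) m
  calc ‖s4a_fc G ℓ‖ * (1 + ‖ℓ‖) ^ m ≤ ‖s4a_fc G ℓ‖ * (2 * (2 * ‖ℓ‖)) ^ m :=
        mul_le_mul_of_nonneg_left h5 (norm_nonneg _)
    _ = (2 ^ m * ‖s4a_fc G ℓ‖) * (2 * ‖ℓ‖) ^ m := by rw [mul_pow]; ring
    _ ≤ ((1 / (2 * ‖ℓ‖)) ^ m * X) * (2 * ‖ℓ‖) ^ m :=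
        mul_le_mul_of_nonneg_right (h2.trans h4) (by positivity)
    _ = X := by
        rw [mul_right_comm, ← mul_pow, one_div, inv_mul_cancel₀ (by positivity), one_pow, one_mul]

/-- **Fourier expansion of a smooth periodic function.** -/
theorem s4a_periodic_fourier {G : (κ → ℝ) → ℂ} (hG : ContDiff ℝ ∞ G) (hper : s4a_Per G) (m : ℕ)
    (hm : 2 * Fintype.card κ ≤ m) (X : ℝ) (h0 : ∀ x, ‖G x‖ ≤ X) (hX : ∀ x, ‖iteratedFDeriv ℝ m G x‖ ≤ X) :
    (∀ ℓ, ‖s4a_fc G ℓ‖ * (1 + ‖ℓ‖) ^ m ≤ X) ∧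
      ∀ x, HasSum (fun ℓ : κ → ℤ => s4a_fc G ℓ * ee (∑ i, (ℓ i : ℝ) * x i)) (G x) := by
  have hdec := s4a_fc_decay hG hper m X h0 hX
  have hX0 : 0 ≤ X := (norm_nonneg _).trans (h0 0)
  refine ⟨hdec, s4a_fc_hasSum G hG.continuous hper ?_⟩
  refine Summable.of_norm_bounded ((s4a_lat_summable (ι := κ)).mul_left X) fun ℓ => ?_
  have h1 : (0 : ℝ) < (1 + ‖ℓ‖) ^ (2 * Fintype.card κ) := by positivity
  rw [← div_eq_mul_inv, le_div_iff₀ h1]
  refine le_trans (mul_le_mul_of_nonneg_left ?_ (norm_nonneg _)) (hdec ℓ)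
  exact pow_le_pow_right₀ (by linarith [norm_nonneg ℓ]) hm

end Claimed.Agent.R258
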