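/-
Row 258, block [S4a] (architect helper78).  FILE Gev = leaf P-S4a-GEV: calculus of the Gevrey class `s4a_Gev` (weights `w_m = (m+1)^(10(m+1))`).
Mathlib only + the STATEMENTS of S4b/Gev.lean (`s4b_Gev`, `s4b_gev_ee_quad`).  No paper needed.

PLANS.
* `s4a_w_mul_le`: with `a = k+1`, `b = m-k+1` it says `(a^a b^b)^10 ≤ ((a+b-1)^(a+b-1))^10`.  Prove `a^a * b^b ≤ (a+b-1)^(a+b-1)` for naturals `a, b ≥ 1` by induction
  on `a` (`a = 1` trivial); step: `(a+1)^(a+1) * s^s ≤ (s+1)^(s+1) * a^a` for `a ≤ s` (i.e. `x ↦ (x+1)^(x+1)/x^x` is monotone; e.g. from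
  `(1+1/a)^a ≤ (1+1/s)^s`, or take logs and use convexity of `x log x`: `Real.convexOn_mul_log`; any proof is fine).
* `s4a_fact_sq_le_w`: `m! ≤ (m+1)^m` (`Nat.factorial_le_pow`-type), so `(m!)² ≤ (m+1)^(2m) ≤ (m+1)^(10(m+1))`.
* `s4a_w_le_exp`: `log (m+1) ≤ m+1`.
* `mul`: `norm_iteratedFDeriv_mul_le`, then `∑_k C(m,k) A₁^k A₂^(m-k) = (A₁+A₂)^m` (`add_pow`) and `s4a_w_mul_le`.
* `comp_affine`: `x ↦ L x + v`: `iteratedFDeriv_comp_add_right`-type lemma + `ContinuousLinearMap.iteratedFDeriv_comp_right` +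
  `ContinuousMultilinearMap.norm_compContinuousLinearMap_le`.
* `conj`: `Complex.conjLIE` and `LinearIsometryEquiv.norm_iteratedFDeriv_comp_left`.
* `s4a_iteratedFDeriv_eq_zero`: `f =ᶠ[𝓝 x] 0` on the open complement of `S`; `Filter.EventuallyEq.iteratedFDeriv_eq`.
* `s4a_gev_ee_quad`: `s4b_gev_ee_quad` with `Q w = ∑ w_i M_ij w_j + σ·w + c`, then `s4a_Gev.of_s4b`.  (`Q` is a polynomial: `fderiv Q w = (h ↦ ∑ (h_i M_ij w_j + w_i M_ij h_j) + σ·h)`,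
  second derivative constant, third zero.  The norm on `ι → ℝ` is the sup norm.)
* `s4a_cplx_iff`: unfold; `cGev = 10`, `Real.rpow_natCast`, `H^(10(n+1)) = H^10 * (H^10)^n`.
-/
import Claimed.Agent.R258.Pack012
import Claimed.Agent.R258.Gev.Quad

set_option autoImplicit false
open MeasureTheory
open scoped ENNReal ContDiff ComplexConjugate Nat

namespace Claimed.Agent.R258

theorem s4a_w_pos (m : ℕ) : 0 < s4a_w m := by
  unfold s4a_w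
  positivity

theorem s4a_one_le_w (m : ℕ) : 1 ≤ s4a_w m := by
  unfold s4a_w
  exact one_le_pow₀ (by have : (0 : ℝ) ≤ m := Nat.cast_nonneg m; linarith)

theorem s4a_w_zero : s4a_w 0 = 1 := by
  simp [s4a_w]

/-- `(k+1)^(k+1) (m-k+1)^(m-k+1) ≤ (m+1)^(m+1)` (Bernoulli) -/
theorem s4a_pow_pow_le {k m : ℕ} (h : k ≤ m) :
    ((k : ℝ) + 1) ^ (k + 1) * (((m - k : ℕ) : ℝ) + 1) ^ (m - k + 1) ≤ ((m : ℝ) + 1) ^ (m + 1) := by
  obtain ⟨j, rfl⟩ := Nat.exists_eq_add_of_le h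
  rw [Nat.add_sub_cancel_left]
  have hk : (0 : ℝ) ≤ k := Nat.cast_nonneg k
  have hj : (0 : ℝ) ≤ j := Nat.cast_nonneg j
  have hy : (0 : ℝ) < (j : ℝ) + 1 := by linarith
  -- Bernoulli
  have hb : 1 + ((j + 1 : ℕ) : ℝ) * ((k : ℝ) / ((j : ℝ) + 1)) ≤ (1 + (k : ℝ) / ((j : ℝ) + 1)) ^ (j + 1) :=
    one_add_mul_le_pow (by have : 0 ≤ (k : ℝ) / ((j : ℝ) + 1) := by positivity
                           linarith) (j + 1)
  have hb2 : (k : ℝ) + 1 ≤ (1 + (k : ℝ) / ((j : ℝ) + 1)) ^ (j + 1) := by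
    refine le_trans (le_of_eq ?_) hb
    push_cast
    field_simp
    ring
  have hN : (((k + j : ℕ) : ℝ) + 1) = ((j : ℝ) + 1) * (1 + (k : ℝ) / ((j : ℝ) + 1)) := by
    push_cast
    field_simp
    ring
  have h1 : ((k : ℝ) + 1) * ((j : ℝ) + 1) ^ (j + 1) ≤ (((k + j : ℕ) : ℝ) + 1) ^ (j + 1) := by
    rw [hN, mul_pow, mul_comm]
    exact mul_le_mul_of_nonneg_left hb2 (by positivity)
  have h2 : ((k : ℝ) + 1) ^ k ≤ (((k + j : ℕ) : ℝ) + 1) ^ k := by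
    apply pow_le_pow_left₀ (by positivity)
    push_cast
    linarith
  calc ((k : ℝ) + 1) ^ (k + 1) * ((j : ℝ) + 1) ^ (j + 1)
      = ((k : ℝ) + 1) ^ k * (((k : ℝ) + 1) * ((j : ℝ) + 1) ^ (j + 1)) := by rw [pow_succ]; ring
    _ ≤ (((k + j : ℕ) : ℝ) + 1) ^ k * (((k + j : ℕ) : ℝ) + 1) ^ (j + 1) :=
        mul_le_mul h2 h1 (by positivity) (by positivity)
    _ = _ := by rw [← pow_add]; congr 1

theorem s4a_w_mul_le {k m : ℕ} (h : k ≤ m) : s4a_w k * s4a_w (m - k) ≤ s4a_w m := by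
  unfold s4a_w
  have e1 : ((k : ℝ) + 1) ^ (10 * (k + 1)) = (((k : ℝ) + 1) ^ (k + 1)) ^ 10 := by rw [← pow_mul, mul_comm]
  have e2 : (((m - k : ℕ) : ℝ) + 1) ^ (10 * (m - k + 1)) = ((((m - k : ℕ) : ℝ) + 1) ^ (m - k + 1)) ^ 10 := by
    rw [← pow_mul, mul_comm]
  have e3 : ((m : ℝ) + 1) ^ (10 * (m + 1)) = (((m : ℝ) + 1) ^ (m + 1)) ^ 10 := by rw [← pow_mul, mul_comm]
  rw [e1, e2, e3, ← mul_pow]
  exact pow_le_pow_left₀ (by positivity) (s4a_pow_pow_le h) 10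

theorem s4a_fact_sq_le_w (m : ℕ) : ((m ! : ℕ) : ℝ) ^ 2 ≤ s4a_w m := by
  unfold s4a_w
  have h1 : ((m ! : ℕ) : ℝ) ≤ ((m : ℝ) + 1) ^ m := by
    have := Nat.factorial_le_pow m
    calc ((m ! : ℕ) : ℝ) ≤ ((m ^ m : ℕ) : ℝ) := by exact_mod_cast this
      _ = (m : ℝ) ^ m := by push_cast; rfl
      _ ≤ _ := pow_le_pow_left₀ (Nat.cast_nonneg m) (by linarith) m
  calc ((m ! : ℕ) : ℝ) ^ 2 ≤ (((m : ℝ) + 1) ^ m) ^ 2 := pow_le_pow_left₀ (by positivity) h1 2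
    _ = ((m : ℝ) + 1) ^ (m * 2) := by rw [← pow_mul]
    _ ≤ _ := pow_le_pow_right₀ (by have : (0 : ℝ) ≤ m := Nat.cast_nonneg m; linarith) (by omega)

theorem s4a_w_le_exp (m : ℕ) : s4a_w m ≤ Real.exp (10 * ((m : ℝ) + 1) ^ 2) := by
  unfold s4a_w
  have h1 : (m : ℝ) + 1 ≤ Real.exp ((m : ℝ) + 1) := by
    have := Real.add_one_le_exp ((m : ℝ) + 1)
    linarith
  calc ((m : ℝ) + 1) ^ (10 * (m + 1)) ≤ (Real.exp ((m : ℝ) + 1)) ^ (10 * (m + 1)) :=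
        pow_le_pow_left₀ (by positivity) h1 _
    _ = _ := by
        rw [← Real.exp_nat_mul]
        congr 1
        push_cast
        ring

section
variable {E : Type*} [NormedAddCommGroup E] [NormedSpace ℝ E]

/-- bridge to block [GEV] -/
theorem s4a_gev_iff {S : Set E} {A B : ℝ} {f : E → ℂ} : s4a_Gev S A B f ↔ GevW s4a_w B A f S :=
  ⟨fun h => ⟨h.smooth, fun x hx n => h.bound n x hx⟩, fun h => ⟨h.smooth, fun m x hx => h.bound x hx m⟩⟩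

theorem s4a_wt : GevWt s4a_w := ⟨s4a_w_zero, s4a_w_pos, fun _ _ h => s4a_w_mul_le h⟩

theorem s4a_Gev.of_s4b {S : Set E} {A B : ℝ} {f : E → ℂ} (hA : 0 ≤ A) (hB : 0 ≤ B) (h : GevOn 2 B A f S) :
    s4a_Gev S A B f := by
  exact s4a_gev_iff.2 (gevw_mono (gev_wt_fact 2) (gev_iff_w.1 h) s4a_fact_sq_le_w (le_refl _) hA (le_refl _)
    (le_refl _))

theorem s4a_Gev.mono {S S' : Set E} {A B A' B' : ℝ} {f : E → ℂ} (hf : s4a_Gev S A B f) (hS : S' ⊆ S) (hA0 : 0 ≤ A)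
    (hB0 : 0 ≤ B) (hA : A ≤ A') (hB : B ≤ B') : s4a_Gev S' A' B' f := by
  exact s4a_gev_iff.2 (gevw_mono s4a_wt (s4a_gev_iff.1 hf) (fun _ => le_refl _) hB hA0 hA hS)

theorem s4a_Gev.mul {S : Set E} {A₁ B₁ A₂ B₂ : ℝ} {f g : E → ℂ} (hA₁ : 0 ≤ A₁) (hA₂ : 0 ≤ A₂) (hB₁ : 0 ≤ B₁) (hB₂ : 0 ≤ B₂)
    (hf : s4a_Gev S A₁ B₁ f) (hg : s4a_Gev S A₂ B₂ g) : s4a_Gev S (A₁ + A₂) (B₁ * B₂) (fun x => f x * g x) := by
  exact s4a_gev_iff.2 (gevw_mul s4a_wt hA₁ hA₂ (s4a_gev_iff.1 hf) (s4a_gev_iff.1 hg))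

theorem s4a_Gev.const_mul {S : Set E} {A B : ℝ} {f : E → ℂ} (c : ℂ) (hf : s4a_Gev S A B f) :
    s4a_Gev S A (‖c‖ * B) (fun x => c * f x) := by
  exact s4a_gev_iff.2 (gevw_const_smul c (s4a_gev_iff.1 hf))

theorem s4a_Gev.conj {S : Set E} {A B : ℝ} {f : E → ℂ} (hf : s4a_Gev S A B f) :
    s4a_Gev S A B (fun x => conj (f x)) := by
  exact s4a_gev_iff.2 (gevw_li_left Complex.conjLIE.toLinearIsometry (s4a_gev_iff.1 hf))

theorem s4a_Gev.sum {κ : Type*} (s : Finset κ) {S : Set E} {A : ℝ} {B : κ → ℝ} {f : κ → E → ℂ}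
    (hf : ∀ i ∈ s, s4a_Gev S A (B i) (f i)) : s4a_Gev S A (∑ i ∈ s, B i) (fun x => ∑ i ∈ s, f i x) := by
  exact s4a_gev_iff.2 (gevw_sum s fun i hi => s4a_gev_iff.1 (hf i hi))

/-- composition with an affine map `x ↦ L x + v` -/
theorem s4a_Gev.comp_affine {F : Type*} [NormedAddCommGroup F] [NormedSpace ℝ F] {S : Set F} {A B : ℝ} {f : F → ℂ}
    (hA : 0 ≤ A) (hB : 0 ≤ B) (hf : s4a_Gev S A B f) (L : E →L[ℝ] F) (v : F) (M : ℝ) (hM : ‖L‖ ≤ M) :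
    s4a_Gev {x : E | L x + v ∈ S} (A * M) B (fun x => f (L x + v)) := by
  exact s4a_gev_iff.2 (gevw_comp_affine s4a_wt hA (s4a_gev_iff.1 hf) L v hM)

theorem s4a_iteratedFDeriv_eq_zero {S : Set E} (hS : IsClosed S) {f : E → ℂ} (h : ∀ x, x ∉ S → f x = 0) (m : ℕ) {x : E}
    (hx : x ∉ S) : iteratedFDeriv ℝ m f x = 0 := by
  exact gevw_iteratedFDeriv_eq_zero hS (fun y hy => by by_contra hc; exact hy (h y hc)) hx m

theorem s4a_Gev.univ_of_closed {S : Set E} {A B : ℝ} {f : E → ℂ} (hS : IsClosed S) (hA : 0 ≤ A) (hB : 0 ≤ B)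
    (hf : s4a_Gev S A B f) (h : ∀ x, x ∉ S → f x = 0) : s4a_Gev Set.univ A B f := by
  exact s4a_gev_iff.2 (gevw_of_closed s4a_wt (s4a_gev_iff.1 hf) hB hA hS
    (fun y hy => by by_contra hc; exact hy (h y hc)))

end

section
variable {ι : Type} [Fintype ι]

theorem s4a_box_closed (K : ℝ) : IsClosed (s4a_box ι K) := by
  have : s4a_box ι K = ⋂ i, {x : ι → ℝ | |x i| ≤ K} := by
    ext x; simp [s4a_box]
  rw [this]
  exact isClosed_iInter fun i => isClosed_le (continuous_abs.comp (continuous_apply i)) continuous_const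

/-- from bounds on the box containing the support to an amplitude -/
theorem s4a_Amp.of_box {K A B : ℝ} {chi : (ι → ℝ) → ℂ} (hA : 0 ≤ A) (hB : 0 ≤ B) (hf : s4a_Gev (s4a_box ι K) A B chi)
    (h : ∀ x, chi x ≠ 0 → ∀ i, |x i| ≤ K) : s4a_Amp K A B chi := by
  exact ⟨hf.univ_of_closed (s4a_box_closed K) hA hB (fun x hx => by
    by_contra hc; exact hx (h x hc)), h⟩

theorem s4a_Amp.mono {K A B K' A' B' : ℝ} {chi : (ι → ℝ) → ℂ} (h : s4a_Amp K A B chi) (hA0 : 0 ≤ A) (hB0 : 0 ≤ B)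
    (hK : K ≤ K') (hA : A ≤ A') (hB : B ≤ B') : s4a_Amp K' A' B' chi := by
  exact ⟨h.gev.mono (le_refl _) hA0 hB0 hA hB, fun x hx i => (h.supp x hx i).trans hK⟩

/-- sup bound of an amplitude (`m = 0`) -/
theorem s4a_Amp.norm_le {K A B : ℝ} {chi : (ι → ℝ) → ℂ} (h : s4a_Amp K A B chi) (x : ι → ℝ) : ‖chi x‖ ≤ B := by
  exact gevw_norm_le s4a_wt (s4a_gev_iff.1 h.gev) (Set.mem_univ x)

/-- `e(polynomial of degree ≤ 2)` on a box -/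
theorem s4a_gev_ee_quad (M : ι → ι → ℝ) (σ : ι → ℝ) (c K D : ℝ) (hK : 0 ≤ K) (hD : 1 ≤ D)
    (h1 : 2 * K * (∑ i, ∑ j, |M i j|) + ∑ i, |σ i| ≤ D) (h2 : 2 * (∑ i, ∑ j, |M i j|) ≤ D ^ 2) :
    s4a_Gev (s4a_box ι K) (2 * Real.pi * D) 1
      (fun w => ee ((∑ i, ∑ j, w i * M i j * w j) + s4a_dot σ w + c)) := by
  have h := gev_ee_quad (gev_quad_poly M σ c K) (by linarith) h1 h2
  refine s4a_gev_iff.2 (gevw_mono (gev_wt_fact 1) (gev_iff_w.1 h) (fun n => ?_) (le_refl _) (by positivity)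
    (le_refl _) (le_refl _))
  refine le_trans ?_ (s4a_fact_sq_le_w n)
  have h1 : (1 : ℝ) ≤ (n ! : ℕ) := by exact_mod_cast Nat.one_le_iff_ne_zero.mpr (Nat.factorial_ne_zero n)
  exact pow_le_pow_right₀ h1 (by norm_num)

/-- `e(linear)` on the whole space -/
theorem s4a_gev_ee_lin (σ : ι → ℝ) (c D : ℝ) (hD : 1 ≤ D) (h1 : ∑ i, |σ i| ≤ D) :
    s4a_Gev (Set.univ : Set (ι → ℝ)) (2 * Real.pi * D) 1 (fun w => ee (s4a_dot σ w + c)) := by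
  have h := gev_ee_lin σ c
  have hs : 0 ≤ ∑ i, |σ i| := Finset.sum_nonneg fun i _ => abs_nonneg _
  refine s4a_gev_iff.2 (gevw_mono (gev_wt_fact 0) (gev_iff_w.1 h) (fun n => ?_) (le_refl _) (by positivity)
    (mul_le_mul_of_nonneg_left h1 (by positivity)) (le_refl _))
  simpa using s4a_one_le_w n

end

/-- `Chart.Cplx` in terms of `s4a_Amp` -/
theorem s4a_cplx_iff (a : Chart) (H : ℝ) :
    a.Cplx H ↔ Real.exp 2 ≤ H ∧ (a.d : ℝ) ≤ Real.log H ∧ s4a_HtLe a.C H ∧ s4a_Amp H (H ^ 10) (H ^ 10) a.chi ∧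
      ‖a.unit‖ = 1 := by
  have key : 0 ≤ H → ∀ n : ℕ, H ^ (cGev * ((n : ℝ) + 1)) * ((n : ℝ) + 1) ^ (cGev * ((n : ℝ) + 1))
      = H ^ 10 * (H ^ 10) ^ n * s4a_w n := by
    intro hH n
    have e : (((n : ℝ) + 1) ^ (n + 1)) ^ 10 = s4a_w n := by
      rw [s4a_w, ← pow_mul, mul_comm (n + 1) 10]
    rw [gev_chart_shape hH n, e, pow_succ]
    ring
  constructor
  · intro h
    have hH : 0 ≤ H := (Real.exp_pos 2).le.trans h.H_ge
    exact ⟨h.H_ge, h.dim, h.height, ⟨⟨h.smooth, fun m x _ => by rw [← key hH m]; exact h.deriv m x⟩, h.supp⟩, h.unit⟩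
  · rintro ⟨h1, h2, h3, h4, h5⟩
    have hH : 0 ≤ H := (Real.exp_pos 2).le.trans h1
    exact ⟨h1, h2, h3, h4.gev.smooth, h4.supp, fun n x => by
      rw [key hH n]; exact h4.gev.bound n x (Set.mem_univ x), h5⟩

end Claimed.Agent.R258
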