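/-
Row 258, block [S4a] (architect helper78).  FILE Br = leaf P-S4a-BR: algebra of the bracket sum `s4a_br` (= Lemma 4.2 on `ℝ^ι`) and of `s4a_mk`.
Uses only Defs + the STATEMENTS of Lat.lean and Gev.lean.  Paper: charts.tex l.75-118 (proof of Lemma chart-operations).

PLANS.
* `s4a_bil_*`: unfold, `Finset.sum_add_distrib`, `Finset.mul_sum`, `ring`.
* `s4a_ee_*`: `ee t = exp (2π t i)`; `Complex.exp_add`, `Complex.norm_exp_ofReal_mul_I`, `Complex.exp_int_mul_two_pi_mul_I`-type lemma, `Complex.exp_conj`.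
* `s4a_br_summable`, `s4a_br_norm_le`: `s4a_lat_sum_le`.
* `s4a_br_const_mul`: `tsum_mul_left`.   `s4a_br_conj`: `Complex.conj_tsum` (or `tsum_star`), `s4a_ee_conj`, `bil (-C) = - bil C`.
* `s4a_br_reindex`: `Equiv.tsum_eq` for `(Equiv.arrowCongr e (Equiv.refl ℤ))` (or `Equiv.piCongrLeft`), `Equiv.sum_comp`.
* `s4a_br_mul`: both families have finite support, `tsum_mul_tsum_of_summable_norm` (or `Summable.tsum_mul_tsum`), then `Equiv.tsum_eq` with `Equiv.sumArrowEquivProdArrow ι κ ℤ`;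
  `Fintype.sum_sum_type`, `Matrix.fromBlocks_apply*`: the bilinear form of the block matrix is the sum of the two.
* `s4a_br_offset`: reindex `n = n' + P m₀` (`Equiv.addRight`), with `w = u - n'`:
  `(u + Pm₀ + a₀)ᵀC(w + a₀) = uᵀCw + uᵀCa₀ + (Pm₀)ᵀCu - (Pm₀)ᵀCn' + (Pm₀)ᵀCa₀ + a₀ᵀC(w+a₀)`, and `(Pm₀)ᵀCn' ∈ ℤ`.  Then `tsum_mul_left`.
* `s4a_mk_eval`: `s4a_eval_eq` + `s4a_br_reindex` with `e = Fintype.equivFin ι`.
* `s4a_mk_cplx`: `s4a_cplx_iff`; the amplitude is `chi ∘ L`, `L x = x ∘ e` a linear isometry equivalence (`LinearIsometryEquiv.piCongrLeft`) : `s4a_Gev.comp_affine` with `M = 1`.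
-/
import Claimed.Agent.R258.S4a.Gev
import Claimed.Agent.R258.S4a.Lat

set_option autoImplicit false
open MeasureTheory
open scoped ENNReal ContDiff ComplexConjugate

namespace Claimed.Agent.R258

/-! ### `ee` -/

theorem s4a_ee_add (s t : ℝ) : ee (s + t) = ee s * ee t := by
  unfold ee
  rw [← Complex.exp_add]
  congr 1
  push_cast
  ring

theorem s4a_ee_zero : ee 0 = 1 := by
  unfold ee
  simp

theorem s4a_ee_neg (t : ℝ) : ee (-t) = (ee t)⁻¹ := by
  unfold ee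
  rw [← Complex.exp_neg]
  congr 1
  push_cast
  ring

theorem s4a_ee_conj (t : ℝ) : conj (ee t) = ee (-t) := by
  unfold ee
  rw [← Complex.exp_conj]
  congr 1
  simp only [map_mul, Complex.conj_ofReal, Complex.conj_I, map_ofNat]
  push_cast
  ring

theorem s4a_ee_norm (t : ℝ) : ‖ee t‖ = 1 := by
  unfold ee
  have e : (2 * (Real.pi : ℂ) * (t : ℂ) * Complex.I) = ((2 * Real.pi * t : ℝ) : ℂ) * Complex.I := by
    push_cast
    ring
  rw [e, Complex.norm_exp_ofReal_mul_I]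

theorem s4a_ee_int (n : ℤ) : ee (n : ℝ) = 1 := by
  unfold ee
  rw [← Complex.exp_int_mul_two_pi_mul_I n]
  congr 1
  push_cast
  ring

theorem s4a_ee_add_int (t : ℝ) (n : ℤ) : ee (t + n) = ee t := by
  rw [s4a_ee_add, s4a_ee_int, mul_one]

theorem s4a_ee_continuous : Continuous ee := by
  unfold ee
  fun_prop

/-- `|e(s) - e(t)| ≤ 2π |s - t|` -/
theorem s4a_ee_sub_le (s t : ℝ) : ‖ee s - ee t‖ ≤ 2 * Real.pi * |s - t| := by
  have e1 : ee s - ee t = ee t * (ee (s - t) - 1) := by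
    rw [mul_sub, ← s4a_ee_add, mul_one]
    congr 2
    ring
  have e2 : ee (s - t) = Complex.exp (Complex.I * ((2 * Real.pi * (s - t) : ℝ) : ℂ)) := by
    unfold ee
    congr 1
    push_cast
    ring
  rw [e1, norm_mul, s4a_ee_norm, one_mul, e2]
  refine Real.norm_exp_I_mul_ofReal_sub_one_le.trans (le_of_eq ?_)
  rw [Real.norm_eq_abs, abs_mul, abs_of_pos (by positivity : (0 : ℝ) < 2 * Real.pi)]

section
variable {ι : Type} [Fintype ι]

/-! ### bilinear algebra -/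

theorem s4a_bil_add_left (C : Matrix ι ι ℚ) (u u' w : ι → ℝ) :
    s4a_bil C (fun i => u i + u' i) w = s4a_bil C u w + s4a_bil C u' w := by
  unfold s4a_bil
  simp only [add_mul, Finset.sum_add_distrib]

theorem s4a_bil_add_right (C : Matrix ι ι ℚ) (u w w' : ι → ℝ) :
    s4a_bil C u (fun i => w i + w' i) = s4a_bil C u w + s4a_bil C u w' := by
  unfold s4a_bil
  simp only [mul_add, Finset.sum_add_distrib]

theorem s4a_bil_sub_right (C : Matrix ι ι ℚ) (u w w' : ι → ℝ) :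
    s4a_bil C u (fun i => w i - w' i) = s4a_bil C u w - s4a_bil C u w' := by
  unfold s4a_bil
  simp only [mul_sub, Finset.sum_sub_distrib]

theorem s4a_bil_smul_left (C : Matrix ι ι ℚ) (c : ℝ) (u w : ι → ℝ) :
    s4a_bil C (fun i => c * u i) w = c * s4a_bil C u w := by
  unfold s4a_bil
  simp only [Finset.mul_sum]
  exact Finset.sum_congr rfl fun i _ => Finset.sum_congr rfl fun j _ => by ring

theorem s4a_bil_smul_right (C : Matrix ι ι ℚ) (c : ℝ) (u w : ι → ℝ) :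
    s4a_bil C u (fun i => c * w i) = c * s4a_bil C u w := by
  unfold s4a_bil
  simp only [Finset.mul_sum]
  exact Finset.sum_congr rfl fun i _ => Finset.sum_congr rfl fun j _ => by ring

theorem s4a_bil_neg (C : Matrix ι ι ℚ) (u w : ι → ℝ) : s4a_bil (-C) u w = -s4a_bil C u w := by
  unfold s4a_bil
  simp only [← Finset.sum_neg_distrib]
  refine Finset.sum_congr rfl fun i _ => Finset.sum_congr rfl fun j _ => ?_
  rw [Matrix.neg_apply]
  push_cast
  ring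

theorem s4a_bil_qsmul (q : ℚ) (C : Matrix ι ι ℚ) (u w : ι → ℝ) : s4a_bil (q • C) u w = (q : ℝ) * s4a_bil C u w := by
  unfold s4a_bil
  simp only [Finset.mul_sum]
  refine Finset.sum_congr rfl fun i _ => Finset.sum_congr rfl fun j _ => ?_
  rw [Matrix.smul_apply, smul_eq_mul]
  push_cast
  ring

theorem s4a_bil_transpose (C : Matrix ι ι ℚ) (u w : ι → ℝ) : s4a_bil C.transpose u w = s4a_bil C w u := by
  unfold s4a_bil
  rw [Finset.sum_comm]
  refine Finset.sum_congr rfl fun i _ => Finset.sum_congr rfl fun j _ => ?_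
  rw [Matrix.transpose_apply]
  ring

/-- `uᵀ C w = (C w) · u` -/
theorem s4a_bil_eq_dot (C : Matrix ι ι ℚ) (u w : ι → ℝ) : s4a_bil C u w = s4a_dot (s4a_mv C w) u := by
  unfold s4a_bil s4a_dot s4a_mv
  refine Finset.sum_congr rfl fun i _ => ?_
  rw [Finset.sum_mul]
  exact Finset.sum_congr rfl fun j _ => by ring

/-- if `P C` is integral then `(P m)ᵀ C n ∈ ℤ` -/
theorem s4a_bil_int (C : Matrix ι ι ℚ) (P : ℕ) (hP : ∀ i j, ∃ z : ℤ, (P : ℚ) * C i j = z) (m n : ι → ℤ) :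
    ∃ z : ℤ, s4a_bil C (fun i => (P : ℝ) * (m i : ℝ)) (fun i => (n i : ℝ)) = z := by
  choose z hz using hP
  refine ⟨∑ i, ∑ j, m i * z i j * n j, ?_⟩
  unfold s4a_bil
  push_cast
  refine Finset.sum_congr rfl fun i _ => Finset.sum_congr rfl fun j _ => ?_
  have h : (P : ℝ) * ((C i j : ℚ) : ℝ) = (z i j : ℝ) := by exact_mod_cast hz i j
  rw [← h]
  ring

/-- `|r| ≤ height` -/
theorem s4a_abs_le_height (r : ℚ) : |(r : ℝ)| ≤ (qHeight r : ℝ) := by
  have h1 : (r : ℝ) = (r.num : ℝ) / (r.den : ℝ) := by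
    conv_lhs => rw [← Rat.num_div_den r]
    push_cast
    rfl
  have hd : (1 : ℝ) ≤ (r.den : ℝ) := by exact_mod_cast r.den_pos
  have h2 : |(r.num : ℝ)| = (r.num.natAbs : ℝ) := by
    rw [Nat.cast_natAbs, Int.cast_abs]
  rw [h1, abs_div, abs_of_pos (by linarith : (0 : ℝ) < r.den), h2]
  refine (div_le_self (Nat.cast_nonneg _) hd).trans ?_
  unfold qHeight
  exact_mod_cast le_max_left _ _

theorem s4a_bil_abs_le (C : Matrix ι ι ℚ) (H X Y : ℝ) (hC : s4a_HtLe C H) (u w : ι → ℝ) (hX : 0 ≤ X) (hY : 0 ≤ Y)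
    (hu : ∀ i, |u i| ≤ X) (hw : ∀ i, |w i| ≤ Y) : |s4a_bil C u w| ≤ (Fintype.card ι : ℝ) ^ 2 * H * X * Y := by
  unfold s4a_bil
  have h1 : ∀ i j, |u i * ((C i j : ℚ) : ℝ) * w j| ≤ X * H * Y := by
    intro i j
    rw [abs_mul, abs_mul]
    have hH : |((C i j : ℚ) : ℝ)| ≤ H := (s4a_abs_le_height _).trans (hC i j)
    exact mul_le_mul (mul_le_mul (hu i) hH (abs_nonneg _) hX) (hw j) (abs_nonneg _)
      (mul_nonneg hX ((abs_nonneg _).trans hH))
  calc |∑ i, ∑ j, u i * ((C i j : ℚ) : ℝ) * w j| ≤ ∑ i, |∑ j, u i * ((C i j : ℚ) : ℝ) * w j| :=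
        Finset.abs_sum_le_sum_abs _ _
    _ ≤ ∑ i, ∑ j, |u i * ((C i j : ℚ) : ℝ) * w j| :=
        Finset.sum_le_sum fun i _ => Finset.abs_sum_le_sum_abs _ _
    _ ≤ ∑ _i : ι, ∑ _j : ι, X * H * Y := Finset.sum_le_sum fun i _ => Finset.sum_le_sum fun j _ => h1 i j
    _ = _ := by
        simp only [Finset.sum_const, Finset.card_univ, nsmul_eq_mul]
        ring

/-! ### heights and denominators -/

/-- the product of all denominators clears the matrix and is at most `H^(d²)` -/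
theorem s4a_clear_den (C : Matrix ι ι ℚ) (H : ℝ) (hC : s4a_HtLe C H) :
    ∃ P : ℕ, 1 ≤ P ∧ (P : ℝ) ≤ H ^ (Fintype.card ι ^ 2) ∧ ∀ i j, ∃ z : ℤ, (P : ℚ) * C i j = z := by
  refine ⟨∏ i, ∏ j, (C i j).den, ?_, ?_, ?_⟩
  · exact Nat.one_le_iff_ne_zero.2 (Finset.prod_ne_zero_iff.2 fun i _ => Finset.prod_ne_zero_iff.2 fun j _ => (C i j).den_nz)
  · push_cast
    have h1 : ∀ i j, ((C i j).den : ℝ) ≤ H := fun i j => by
      refine le_trans ?_ (hC i j)
      unfold qHeight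
      exact_mod_cast le_max_right _ _
    calc ∏ i, ∏ j, ((C i j).den : ℝ) ≤ ∏ _i : ι, ∏ _j : ι, H :=
          Finset.prod_le_prod (fun i _ => Finset.prod_nonneg fun j _ => Nat.cast_nonneg _) fun i _ =>
            Finset.prod_le_prod (fun j _ => Nat.cast_nonneg _) fun j _ => h1 i j
      _ = _ := by
          simp only [Finset.prod_const, Finset.card_univ]
          rw [← pow_mul, sq]
  · intro i j
    have hd : (C i j).den ∣ ∏ i, ∏ j, (C i j).den :=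
      (Finset.dvd_prod_of_mem (fun j => (C i j).den) (Finset.mem_univ j)).trans
        (Finset.dvd_prod_of_mem (fun i => ∏ j, (C i j).den) (Finset.mem_univ i))
    obtain ⟨Q, hQ⟩ := hd
    refine ⟨Q * (C i j).num, ?_⟩
    rw [hQ]
    push_cast
    rw [← Rat.mul_den_eq_num (C i j)]
    ring

/-- height of a product with a fixed rational -/
theorem s4a_height_mul_le (q r : ℚ) : qHeight (q * r) ≤ qHeight q * qHeight r := by
  unfold qHeight
  refine max_le ?_ ?_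
  · rw [Rat.mul_num]
    refine (Int.natAbs_ediv_le_natAbs _ _).trans ?_
    rw [Int.natAbs_mul]
    exact Nat.mul_le_mul (le_max_left _ _) (le_max_left _ _)
  · rw [Rat.mul_den]
    exact (Nat.div_le_self _ _).trans (Nat.mul_le_mul (le_max_right _ _) (le_max_right _ _))

theorem s4a_height_neg (r : ℚ) : qHeight (-r) = qHeight r := by
  unfold qHeight
  rw [Rat.neg_num, Rat.neg_den, Int.natAbs_neg]

theorem s4a_height_zero : qHeight 0 = 1 := by
  unfold qHeight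
  simp

/-! ### the bracket sum -/

theorem s4a_br_summable (C : Matrix ι ι ℚ) {chi : (ι → ℝ) → ℂ} {K : ℝ} (hs : ∀ x, chi x ≠ 0 → ∀ i, |x i| ≤ K)
    (u : ι → ℝ) :
    Summable fun n : ι → ℤ => chi (fun i => u i - (n i : ℝ)) * ee (s4a_bil C u fun i => u i - (n i : ℝ)) := by
  refine summable_of_hasFiniteSupport ((s4a_lat_box_finite K u).subset fun n hn => ?_)
  exact hs _ (left_ne_zero_of_mul hn)

theorem s4a_br_norm_le (C : Matrix ι ι ℚ) {chi : (ι → ℝ) → ℂ} {K X : ℝ} (hK : 0 ≤ K) (hX : 0 ≤ X)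
    (hs : ∀ x, chi x ≠ 0 → ∀ i, |x i| ≤ K) (hb : ∀ x, ‖chi x‖ ≤ X) (u : ι → ℝ) :
    ‖s4a_br C chi u‖ ≤ (2 * K + 1) ^ Fintype.card ι * X :=
  (s4a_lat_sum_le K X hK hX u _ (fun n hn => hs _ (left_ne_zero_of_mul hn))
    (fun n => by rw [norm_mul, s4a_ee_norm, mul_one]; exact hb _)).2

theorem s4a_br_const_mul (C : Matrix ι ι ℚ) (chi : (ι → ℝ) → ℂ) (c : ℂ) (u : ι → ℝ) :
    s4a_br C (fun x => c * chi x) u = c * s4a_br C chi u := by
  unfold s4a_br
  rw [← tsum_mul_left]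
  exact tsum_congr fun n => mul_assoc _ _ _

theorem s4a_br_conj (C : Matrix ι ι ℚ) (chi : (ι → ℝ) → ℂ) (u : ι → ℝ) :
    conj (s4a_br C chi u) = s4a_br (-C) (fun x => conj (chi x)) u := by
  unfold s4a_br
  rw [Complex.conj_tsum]
  refine tsum_congr fun n => ?_
  rw [map_mul, s4a_ee_conj, s4a_bil_neg]

theorem s4a_br_reindex {κ : Type} [Fintype κ] (e : ι ≃ κ) (C : Matrix ι ι ℚ) (chi : (ι → ℝ) → ℂ) (u : ι → ℝ) :
    s4a_br (fun i j : κ => C (e.symm i) (e.symm j)) (fun x : κ → ℝ => chi fun i => x (e i)) (fun k => u (e.symm k))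
      = s4a_br C chi u := by
  unfold s4a_br
  rw [← (Equiv.arrowCongr e (Equiv.refl ℤ)).tsum_eq]
  refine tsum_congr fun n => ?_
  have e1 : ∀ k : κ, (Equiv.arrowCongr e (Equiv.refl ℤ)) n k = n (e.symm k) := fun k => rfl
  simp only [e1, Equiv.symm_apply_apply]
  congr 2
  unfold s4a_bil
  rw [← Equiv.sum_comp e.symm]
  refine Finset.sum_congr rfl fun k _ => ?_
  rw [← Equiv.sum_comp e.symm]

/-- products = direct sums -/
theorem s4a_br_mul {κ : Type} [Fintype κ] (C₁ : Matrix ι ι ℚ) (C₂ : Matrix κ κ ℚ) {chi₁ : (ι → ℝ) → ℂ}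
    {chi₂ : (κ → ℝ) → ℂ} {K : ℝ} (h₁ : ∀ x, chi₁ x ≠ 0 → ∀ i, |x i| ≤ K) (h₂ : ∀ x, chi₂ x ≠ 0 → ∀ i, |x i| ≤ K)
    (u₁ : ι → ℝ) (u₂ : κ → ℝ) :
    s4a_br C₁ chi₁ u₁ * s4a_br C₂ chi₂ u₂ =
      s4a_br (Matrix.fromBlocks C₁ 0 0 C₂) (fun x : ι ⊕ κ → ℝ => chi₁ (fun i => x (Sum.inl i)) * chi₂ fun k => x (Sum.inr k))
        (Sum.elim u₁ u₂) := by
  have s1 := s4a_br_summable C₁ h₁ u₁
  have s2 := s4a_br_summable C₂ h₂ u₂
  unfold s4a_br
  rw [tsum_mul_tsum_of_summable_norm s1.norm s2.norm, ← (Equiv.sumArrowEquivProdArrow ι κ ℤ).tsum_eq]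
  refine tsum_congr fun n => ?_
  have e1 : (Equiv.sumArrowEquivProdArrow ι κ ℤ n).1 = fun i => n (Sum.inl i) := rfl
  have e2 : (Equiv.sumArrowEquivProdArrow ι κ ℤ n).2 = fun k => n (Sum.inr k) := rfl
  have e3 : s4a_bil (Matrix.fromBlocks C₁ 0 0 C₂) (Sum.elim u₁ u₂) (fun i => Sum.elim u₁ u₂ i - (n i : ℝ))
      = s4a_bil C₁ u₁ (fun i => u₁ i - (n (Sum.inl i) : ℝ)) + s4a_bil C₂ u₂ (fun k => u₂ k - (n (Sum.inr k) : ℝ)) := by
    unfold s4a_bil
    simp only [Fintype.sum_sum_type, Sum.elim_inl, Sum.elim_inr, Matrix.fromBlocks_apply₁₁,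
      Matrix.fromBlocks_apply₁₂, Matrix.fromBlocks_apply₂₁, Matrix.fromBlocks_apply₂₂, Matrix.zero_apply,
      Rat.cast_zero, mul_zero, zero_mul, Finset.sum_const_zero, add_zero, zero_add]
  rw [e1, e2, e3, s4a_ee_add]
  simp only [Sum.elim_inl, Sum.elim_inr]
  ring

/-- a translated horizontal argument: `a = P m₀ + a₀` -/
theorem s4a_br_offset (C : Matrix ι ι ℚ) (chi : (ι → ℝ) → ℂ) (P : ℕ) (hP : ∀ i j, ∃ z : ℤ, (P : ℚ) * C i j = z)
    (m₀ : ι → ℤ) (a₀ u : ι → ℝ) :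
    s4a_br C chi (fun i => u i + ((P : ℝ) * (m₀ i : ℝ) + a₀ i)) =
      ee (s4a_bil C u a₀ + s4a_bil C (fun i => (P : ℝ) * (m₀ i : ℝ)) u + s4a_bil C (fun i => (P : ℝ) * (m₀ i : ℝ)) a₀) *
        s4a_br C (fun w => chi (fun i => w i + a₀ i) * ee (s4a_bil C a₀ fun i => w i + a₀ i)) u := by
  unfold s4a_br
  rw [← tsum_mul_left, ← (Equiv.addRight (fun i => (P : ℤ) * m₀ i)).tsum_eq]
  refine tsum_congr fun n => ?_
  have e0 : ∀ i, ((Equiv.addRight (fun i => (P : ℤ) * m₀ i)) n i : ℤ) = n i + (P : ℤ) * m₀ i := fun i => rfl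
  have e1 : (fun i => u i + ((P : ℝ) * (m₀ i : ℝ) + a₀ i) - (((Equiv.addRight (fun i => (P : ℤ) * m₀ i)) n i : ℤ) : ℝ))
      = fun i => (u i - (n i : ℝ)) + a₀ i := by
    funext i
    rw [e0]
    push_cast
    ring
  rw [e1]
  obtain ⟨z, hz⟩ := s4a_bil_int C P hP m₀ n
  set p : ι → ℝ := fun i => (P : ℝ) * (m₀ i : ℝ) with hp
  have e2 : s4a_bil C (fun i => u i + (p i + a₀ i)) (fun i => (u i - (n i : ℝ)) + a₀ i)
      = (s4a_bil C u a₀ + s4a_bil C p u + s4a_bil C p a₀) + s4a_bil C a₀ (fun i => (u i - (n i : ℝ)) + a₀ i)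
        + s4a_bil C u (fun i => u i - (n i : ℝ)) + ((-z : ℤ) : ℝ) := by
    rw [s4a_bil_add_left C u (fun i => p i + a₀ i), s4a_bil_add_left C p a₀,
      s4a_bil_add_right C u (fun i => u i - (n i : ℝ)) a₀, s4a_bil_add_right C p (fun i => u i - (n i : ℝ)) a₀,
      s4a_bil_sub_right C p u (fun i => (n i : ℝ)), hz]
    push_cast
    ring
  rw [e2, s4a_ee_add_int, s4a_ee_add, s4a_ee_add]
  ring

/-! ### `s4a_mk` -/

theorem s4a_mk_eval (th : ι → ℝ) (C : Matrix ι ι ℚ) (lam bet : ℝ) (chi : (ι → ℝ) → ℂ) (unit : ℂ) (y : ℝ) :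
    (s4a_mk th C lam bet chi unit).eval y = unit * ee (lam * y ^ 2 + bet * y) * s4a_br C chi (fun i => th i * y) := by
  rw [s4a_eval_eq]
  exact congrArg _ (s4a_br_reindex (Fintype.equivFin ι) C chi (fun i => th i * y))

theorem s4a_mk_cplx (th : ι → ℝ) (C : Matrix ι ι ℚ) (lam bet : ℝ) {chi : (ι → ℝ) → ℂ} {unit : ℂ} {H K A B : ℝ}
    (hH : Real.exp 2 ≤ H) (hd : (Fintype.card ι : ℝ) ≤ Real.log H) (hC : s4a_HtLe C H) (hchi : s4a_Amp K A B chi)
    (hA0 : 0 ≤ A) (hB0 : 0 ≤ B) (hK : K ≤ H) (hA : A ≤ H ^ 10) (hB : B ≤ H ^ 10) (hu : ‖unit‖ = 1) :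
    (s4a_mk th C lam bet chi unit).Cplx H := by
  rw [s4a_cplx_iff]
  refine ⟨hH, hd, fun i j => hC _ _, ⟨?_, ?_⟩, hu⟩
  · set L : (Fin (Fintype.card ι) → ℝ) →L[ℝ] (ι → ℝ) :=
      ContinuousLinearMap.pi fun i => ContinuousLinearMap.proj (Fintype.equivFin ι i) with hL
    have hLn : ‖L‖ ≤ 1 := by
      refine ContinuousLinearMap.opNorm_le_bound _ zero_le_one fun x => ?_
      rw [one_mul]
      exact (pi_norm_le_iff_of_nonneg (norm_nonneg _)).2 fun i => norm_le_pi_norm x _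
    have h1 := s4a_Gev.comp_affine hA0 hB0 hchi.gev L 0 1 hLn
    rw [mul_one] at h1
    have h2 := h1.mono (S' := Set.univ) (A' := H ^ 10) (B' := H ^ 10) (fun x _ => Set.mem_univ _) hA0 hB0 hA hB
    have e : (fun x => chi (L x + 0)) = (s4a_mk th C lam bet chi unit).chi := by
      funext x
      rw [add_zero]
      rfl
    rw [e] at h2
    exact h2
  · intro x hx k
    have h1 := hchi.supp _ hx ((Fintype.equivFin ι).symm k)
    have e : (Fintype.equivFin ι) ((Fintype.equivFin ι).symm k) = k := Equiv.apply_symm_apply _ _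
    have h2 : |x k| ≤ K := by
      have h3 := h1
      simp only [e] at h3
      exact h3
    exact h2.trans hK

end

end Claimed.Agent.R258
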