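/-
Row 258, block [S4a] (architect helper78).  FILE Qp = leaf P-S4a-QP: the CALCULUS of quasipolynomial bounds `s4b_qp C x = exp (C (1+x)^C)` and polylogarithmic bounds `s4a_pl C x = C (1+x)^C`
(`C : ℕ`, `x ≥ 0` = sum of the logarithms of the parameters).  Mathlib only.  All "numerics" leaves of the block (and of other blocks, if they like) are meant to be mechanical applications of this file.
Every proof: `1 ≤ 1 + x`, `pow_le_pow_right₀`, `Real.exp_le_exp`, `Real.add_one_le_exp`, `Real.exp_add`, `Real.exp_nat_mul`/`Real.exp_mul`-type rewriting, `nlinarith`/`positivity`.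
-/
import Claimed.Agent.R258.S4a.Gev

set_option autoImplicit false

namespace Claimed.Agent.R258

/-- polylogarithmic bound `C (1+x)^C` -/
noncomputable def s4a_pl (C : ℕ) (x : ℝ) : ℝ := (C : ℝ) * (1 + x) ^ C

theorem s4a_qp_eq (C : ℕ) (x : ℝ) : s4b_qp C x = Real.exp (s4a_pl C x) := rfl

theorem s4a_log_qp (C : ℕ) (x : ℝ) : Real.log (s4b_qp C x) = s4a_pl C x := by
  rw [s4a_qp_eq, Real.log_exp]

/-! ### `pl` -/

theorem s4a_pl_nonneg (C : ℕ) {x : ℝ} (hx : 0 ≤ x) : 0 ≤ s4a_pl C x := by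
  unfold s4a_pl
  positivity

theorem s4a_pl_mono {C C' : ℕ} {x x' : ℝ} (hC : C ≤ C') (hx0 : 0 ≤ x) (hx : x ≤ x') : s4a_pl C x ≤ s4a_pl C' x' := by
  unfold s4a_pl
  have h1 : (1 : ℝ) ≤ 1 + x' := by linarith
  have h2 : (1 + x) ^ C ≤ (1 + x') ^ C' :=
    le_trans (pow_le_pow_left₀ (by linarith) (by linarith) C) (pow_le_pow_right₀ h1 hC)
  exact mul_le_mul (by exact_mod_cast hC) h2 (by positivity) (by positivity)

theorem s4a_pl_nat (c : ℕ) {x : ℝ} (hx : 0 ≤ x) : (c : ℝ) ≤ s4a_pl c x := by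
  unfold s4a_pl
  exact le_mul_of_one_le_right (by positivity) (one_le_pow₀ (by linarith))

theorem s4a_pl_self {x : ℝ} (hx : 0 ≤ x) : 1 + x ≤ s4a_pl 1 x := by
  unfold s4a_pl
  simp

theorem s4a_pl_add (C C' : ℕ) {x : ℝ} (hx : 0 ≤ x) : s4a_pl C x + s4a_pl C' x ≤ s4a_pl (C + C') x := by
  unfold s4a_pl
  have h1 : (1 : ℝ) ≤ 1 + x := by linarith
  have h2 : (1 + x) ^ C ≤ (1 + x) ^ (C + C') := pow_le_pow_right₀ h1 (by omega)
  have h3 : (1 + x) ^ C' ≤ (1 + x) ^ (C + C') := pow_le_pow_right₀ h1 (by omega)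
  push_cast
  have h4 : (C : ℝ) * (1 + x) ^ C ≤ (C : ℝ) * (1 + x) ^ (C + C') :=
    mul_le_mul_of_nonneg_left h2 (by positivity)
  have h5 : (C' : ℝ) * (1 + x) ^ C' ≤ (C' : ℝ) * (1 + x) ^ (C + C') :=
    mul_le_mul_of_nonneg_left h3 (by positivity)
  linarith

/-- the basic comparison: `a t^k ≤ pl N x` if `a ≤ N`, `k ≤ N` -/
theorem s4a_pl_of_le {N k : ℕ} {a x : ℝ} (hx : 0 ≤ x) (ha : a ≤ (N : ℝ)) (hk : k ≤ N) :
    a * (1 + x) ^ k ≤ s4a_pl N x := by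
  unfold s4a_pl
  have h1 : (1 : ℝ) ≤ 1 + x := by linarith
  have h2 : (1 + x) ^ k ≤ (1 + x) ^ N := pow_le_pow_right₀ h1 hk
  exact mul_le_mul ha h2 (by positivity) (by positivity)

theorem s4a_pl_mul (C C' : ℕ) {x : ℝ} (hx : 0 ≤ x) : s4a_pl C x * s4a_pl C' x ≤ s4a_pl (C * C' + C + C') x := by
  have h := s4a_pl_of_le (N := C * C' + C + C') (k := C + C') (a := (C : ℝ) * C') hx
    (by push_cast; nlinarith [Nat.cast_nonneg (α := ℝ) C, Nat.cast_nonneg (α := ℝ) C']) (by omega)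
  refine le_trans (le_of_eq ?_) h
  unfold s4a_pl
  rw [pow_add]
  ring

theorem s4a_pl_pow (C n : ℕ) {x : ℝ} (hx : 0 ≤ x) : s4a_pl C x ^ n ≤ s4a_pl (C ^ n + C * n) x := by
  have h := s4a_pl_of_le (N := C ^ n + C * n) (k := C * n) (a := (C : ℝ) ^ n) hx
    (by push_cast; nlinarith [Nat.cast_nonneg (α := ℝ) C, Nat.cast_nonneg (α := ℝ) n,
      mul_nonneg (Nat.cast_nonneg (α := ℝ) C) (Nat.cast_nonneg (α := ℝ) n)]) (by omega)
  refine le_trans (le_of_eq ?_) h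
  unfold s4a_pl
  rw [mul_pow, pow_mul]

/-- composition: `pl C y ≤ pl _ x` if `y ≤ pl C' x` -/
theorem s4a_pl_comp (C C' : ℕ) {x y : ℝ} (hx : 0 ≤ x) (hy0 : 0 ≤ y) (hy : y ≤ s4a_pl C' x) :
    s4a_pl C y ≤ s4a_pl (C * (1 + C') ^ C + C * C') x := by
  have h := s4a_pl_of_le (N := C * (1 + C') ^ C + C * C') (k := C' * C)
    (a := (C : ℝ) * (1 + (C' : ℝ)) ^ C) hx
    (by push_cast; nlinarith [mul_nonneg (Nat.cast_nonneg (α := ℝ) C) (Nat.cast_nonneg (α := ℝ) C')])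
    (by nlinarith [Nat.zero_le (C * (1 + C') ^ C)])
  refine le_trans ?_ h
  have h1 : (1 : ℝ) ≤ (1 + x) ^ C' := one_le_pow₀ (by linarith)
  have h2 : 1 + y ≤ (1 + (C' : ℝ)) * (1 + x) ^ C' := by
    unfold s4a_pl at hy
    nlinarith
  have h3 : (1 + y) ^ C ≤ ((1 + (C' : ℝ)) * (1 + x) ^ C') ^ C :=
    pow_le_pow_left₀ (by linarith) h2 C
  unfold s4a_pl
  rw [mul_pow, ← pow_mul] at h3
  calc (C : ℝ) * (1 + y) ^ C ≤ (C : ℝ) * ((1 + (C' : ℝ)) ^ C * (1 + x) ^ (C' * C)) :=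
        mul_le_mul_of_nonneg_left h3 (by positivity)
    _ = (C : ℝ) * (1 + (C' : ℝ)) ^ C * (1 + x) ^ (C' * C) := by ring

/-! ### `qp` -/

theorem s4a_qp_pos (C : ℕ) (x : ℝ) : 0 < s4b_qp C x := by
  exact Real.exp_pos _

theorem s4a_qp_one_le (C : ℕ) {x : ℝ} (hx : 0 ≤ x) : 1 ≤ s4b_qp C x := by
  rw [s4a_qp_eq]
  exact Real.one_le_exp (s4a_pl_nonneg C hx)

theorem s4a_qp_mono {C C' : ℕ} {x x' : ℝ} (hC : C ≤ C') (hx0 : 0 ≤ x) (hx : x ≤ x') : s4b_qp C x ≤ s4b_qp C' x' := by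
  rw [s4a_qp_eq, s4a_qp_eq]
  exact Real.exp_le_exp.2 (s4a_pl_mono hC hx0 hx)

/-- `exp y ≤ qp C x` if `y ≤ pl C x` -/
theorem s4a_qp_of_exp {C : ℕ} {x y : ℝ} (h : y ≤ s4a_pl C x) : Real.exp y ≤ s4b_qp C x := by
  rw [s4a_qp_eq]
  exact Real.exp_le_exp.2 h

/-- `Y ≤ qp C x` if `log Y ≤ pl C x` -/
theorem s4a_qp_of_log {C : ℕ} {x Y : ℝ} (hY : 0 < Y) (h : Real.log Y ≤ s4a_pl C x) : Y ≤ s4b_qp C x := by
  rw [← Real.exp_log hY]
  exact s4a_qp_of_exp h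

/-- a parameter whose logarithm is one of the summands of `x` -/
theorem s4a_qp_param {x Y : ℝ} (hx : 0 ≤ x) (hY : 0 < Y) (h : Real.log Y ≤ x) : Y ≤ s4b_qp 1 x := by
  exact s4a_qp_of_log hY (le_trans h (le_trans (by linarith) (s4a_pl_self hx)))

theorem s4a_qp_nat (c : ℕ) {x : ℝ} (hx : 0 ≤ x) : (c : ℝ) ≤ s4b_qp c x := by
  rw [s4a_qp_eq]
  have h1 := s4a_pl_nat c hx
  have h2 := Real.add_one_le_exp (s4a_pl c x)
  linarith

/-- polylogarithmic quantities are quasipolynomial -/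
theorem s4a_qp_of_pl (C : ℕ) {x : ℝ} (hx : 0 ≤ x) : s4a_pl C x ≤ s4b_qp C x := by
  rw [s4a_qp_eq]
  have h2 := Real.add_one_le_exp (s4a_pl C x)
  linarith

theorem s4a_qp_mul (C C' : ℕ) {x : ℝ} (hx : 0 ≤ x) : s4b_qp C x * s4b_qp C' x ≤ s4b_qp (C + C') x := by
  rw [s4a_qp_eq, s4a_qp_eq, s4a_qp_eq, ← Real.exp_add]
  exact Real.exp_le_exp.2 (s4a_pl_add C C' hx)

theorem s4a_qp_add (C C' : ℕ) {x : ℝ} (hx : 0 ≤ x) : s4b_qp C x + s4b_qp C' x ≤ s4b_qp (C + C' + 1) x := by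
  rw [s4a_qp_eq, s4a_qp_eq, s4a_qp_eq]
  have ha := s4a_pl_nonneg C hx
  have hb := s4a_pl_nonneg C' hx
  have h1 : s4a_pl C x + s4a_pl C' x + 1 ≤ s4a_pl (C + C' + 1) x := by
    have h2 := s4a_pl_add C C' hx
    have h3 := s4a_pl_add (C + C') 1 hx
    have h4 := s4a_pl_nat 1 hx
    push_cast at h4
    linarith
  refine le_trans ?_ (Real.exp_le_exp.2 h1)
  rw [Real.exp_add]
  have h5 : Real.exp (s4a_pl C x) ≤ Real.exp (s4a_pl C x + s4a_pl C' x) :=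
    Real.exp_le_exp.2 (by linarith)
  have h6 : Real.exp (s4a_pl C' x) ≤ Real.exp (s4a_pl C x + s4a_pl C' x) :=
    Real.exp_le_exp.2 (by linarith)
  have h7 : (2 : ℝ) ≤ Real.exp 1 := by
    have := Real.add_one_le_exp (1 : ℝ)
    linarith
  have h8 : 0 < Real.exp (s4a_pl C x + s4a_pl C' x) := Real.exp_pos _
  nlinarith

/-- powers with polylogarithmic exponents -/
theorem s4a_qp_pow (C C' : ℕ) {x : ℝ} (hx : 0 ≤ x) (n : ℕ) (hn : (n : ℝ) ≤ s4a_pl C' x) :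
    s4b_qp C x ^ n ≤ s4b_qp (C * C' + C + C') x := by
  rw [s4a_qp_eq, s4a_qp_eq, ← Real.exp_nat_mul]
  refine Real.exp_le_exp.2 (le_trans ?_ (s4a_pl_mul C C' hx))
  rw [mul_comm]
  exact mul_le_mul_of_nonneg_left hn (s4a_pl_nonneg C hx)

/-- fixed powers -/
theorem s4a_qp_pow_nat (C n : ℕ) {x : ℝ} (hx : 0 ≤ x) : s4b_qp C x ^ n ≤ s4b_qp (C * n) x := by
  rcases Nat.eq_zero_or_pos n with rfl | hn
  · simpa using s4a_qp_one_le (C * 0) hx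
  rw [s4a_qp_eq, s4a_qp_eq, ← Real.exp_nat_mul]
  refine Real.exp_le_exp.2 ?_
  have h := s4a_pl_of_le (N := C * n) (k := C) (a := (n : ℝ) * C) hx
    (by push_cast; linarith [mul_comm (n : ℝ) (C : ℝ)]) (Nat.le_mul_of_pos_right C hn)
  refine le_trans (le_of_eq ?_) h
  unfold s4a_pl
  ring

/-- composition: `qp C y ≤ qp _ x` if `y ≤ pl C' x` (e.g. `y = log (qp C' x)`, or a sum of such logarithms) -/
theorem s4a_qp_comp (C C' : ℕ) {x y : ℝ} (hx : 0 ≤ x) (hy0 : 0 ≤ y) (hy : y ≤ s4a_pl C' x) :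
    s4b_qp C y ≤ s4b_qp (C * (1 + C') ^ C + C * C') x := by
  rw [s4a_qp_eq, s4a_qp_eq]
  exact Real.exp_le_exp.2 (s4a_pl_comp C C' hx hy0 hy)

/-- the Gevrey weight of polylogarithmic order -/
theorem s4a_qp_w (C' : ℕ) {x : ℝ} (hx : 0 ≤ x) (m : ℕ) (hm : (m : ℝ) + 1 ≤ s4a_pl C' x) :
    s4a_w m ≤ s4b_qp (10 * C' ^ 2 + 2 * C') x := by
  have hm0 : (0 : ℝ) ≤ (m : ℝ) + 1 := by positivity
  have h1 : (m : ℝ) + 1 ≤ Real.exp ((m : ℝ) + 1) := by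
    have := Real.add_one_le_exp ((m : ℝ) + 1)
    linarith
  have h2 : s4a_w m ≤ Real.exp ((m : ℝ) + 1) ^ (10 * (m + 1)) := by
    unfold s4a_w
    exact pow_le_pow_left₀ hm0 h1 _
  refine le_trans h2 ?_
  rw [← Real.exp_nat_mul]
  refine s4a_qp_of_exp ?_
  have h3 := s4a_pl_of_le (N := 10 * C' ^ 2 + 2 * C') (k := 2 * C') (a := 10 * (C' : ℝ) ^ 2) hx
    (by push_cast; nlinarith [Nat.cast_nonneg (α := ℝ) C']) (by omega)
  refine le_trans ?_ h3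
  have h4 : ((m : ℝ) + 1) * ((m : ℝ) + 1) ≤ s4a_pl C' x * s4a_pl C' x :=
    mul_le_mul hm hm hm0 (le_trans hm0 hm)
  have h5 : s4a_pl C' x * s4a_pl C' x = (C' : ℝ) ^ 2 * (1 + x) ^ (2 * C') := by
    unfold s4a_pl
    rw [two_mul, pow_add]
    ring
  push_cast
  nlinarith

/-- the inverse of a quasipolynomial quantity: `log (1 / (qp C x)⁻¹) = pl C x` -/
theorem s4a_log_inv_qp (C : ℕ) (x : ℝ) : Real.log (1 / (s4b_qp C x)⁻¹) = s4a_pl C x := by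
  rw [one_div, inv_inv, s4a_log_qp]

end Claimed.Agent.R258
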