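/-
Row 258, block [S4a] (helper78).  FILE QpAuto: quasipolynomial / polylogarithmic bounds WITH EXISTENTIAL CONSTANTS, as closure properties of two predicates on functions of a parameter tuple.
  `P`       : type of parameter tuples (e.g. `ℕ × ℝ × ℕ`),   `V : P → Prop` the standing hypotheses,   `x : P → ℝ` the size (sum of logarithms), `0 ≤ x` on `V`;
  `s4a_IsPL V x f` : `∃ C, ∀ p, V p → 0 ≤ f p ∧ f p ≤ C (1 + x p)^C`;
  `s4a_IsQP V x f` : `∃ C, ∀ p, V p → 0 ≤ f p ∧ f p ≤ exp (C (1 + x p)^C)`.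
All "numerics" statements `∃ Cq, ∀ params, hyps → big expression ≤ s4b_qp Cq x` are obtained by composing the closure lemmas below (term mode), then `s4a_IsQP.elim`/`.and`.
-/
import Claimed.Agent.R258.S4a.Qp

set_option autoImplicit false

namespace Claimed.Agent.R258

variable {P : Type*} {V : P → Prop} {x : P → ℝ}

def s4a_IsPL (V : P → Prop) (x : P → ℝ) (f : P → ℝ) : Prop :=
  ∃ C : ℕ, ∀ p, V p → 0 ≤ f p ∧ f p ≤ s4a_pl C (x p)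

def s4a_IsQP (V : P → Prop) (x : P → ℝ) (f : P → ℝ) : Prop :=
  ∃ C : ℕ, ∀ p, V p → 0 ≤ f p ∧ f p ≤ s4b_qp C (x p)

namespace s4a_IsPL

theorem mono {f g : P → ℝ} (hf : s4a_IsPL V x f) (h0 : ∀ p, V p → 0 ≤ g p) (h : ∀ p, V p → g p ≤ f p) :
    s4a_IsPL V x g := by
  obtain ⟨C, hC⟩ := hf
  exact ⟨C, fun p hp => ⟨h0 p hp, le_trans (h p hp) (hC p hp).2⟩⟩

theorem const (hx : ∀ p, V p → 0 ≤ x p) (c : ℝ) (hc : 0 ≤ c) : s4a_IsPL V x (fun _ => c) :=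
  ⟨⌈c⌉₊, fun p hp => ⟨hc, le_trans (Nat.le_ceil c) (s4a_pl_nat _ (hx p hp))⟩⟩

theorem size (hx : ∀ p, V p → 0 ≤ x p) : s4a_IsPL V x x :=
  ⟨1, fun p hp => ⟨hx p hp, le_trans (by linarith) (s4a_pl_self (hx p hp))⟩⟩

theorem add (hx : ∀ p, V p → 0 ≤ x p) {f g : P → ℝ} (hf : s4a_IsPL V x f) (hg : s4a_IsPL V x g) :
    s4a_IsPL V x (fun p => f p + g p) := by
  obtain ⟨C, hC⟩ := hf
  obtain ⟨C', hC'⟩ := hg
  refine ⟨C + C', fun p hp => ⟨add_nonneg (hC p hp).1 (hC' p hp).1, ?_⟩⟩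
  exact le_trans (add_le_add (hC p hp).2 (hC' p hp).2) (s4a_pl_add C C' (hx p hp))

theorem mul (hx : ∀ p, V p → 0 ≤ x p) {f g : P → ℝ} (hf : s4a_IsPL V x f) (hg : s4a_IsPL V x g) :
    s4a_IsPL V x (fun p => f p * g p) := by
  obtain ⟨C, hC⟩ := hf
  obtain ⟨C', hC'⟩ := hg
  refine ⟨C * C' + C + C', fun p hp => ⟨mul_nonneg (hC p hp).1 (hC' p hp).1, ?_⟩⟩
  exact le_trans (mul_le_mul (hC p hp).2 (hC' p hp).2 (hC' p hp).1 (s4a_pl_nonneg C (hx p hp)))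
    (s4a_pl_mul C C' (hx p hp))

theorem pow (hx : ∀ p, V p → 0 ≤ x p) {f : P → ℝ} (hf : s4a_IsPL V x f) (n : ℕ) :
    s4a_IsPL V x (fun p => f p ^ n) := by
  obtain ⟨C, hC⟩ := hf
  refine ⟨C ^ n + C * n, fun p hp => ⟨pow_nonneg (hC p hp).1 n, ?_⟩⟩
  exact le_trans (pow_le_pow_left₀ (hC p hp).1 (hC p hp).2 n) (s4a_pl_pow C n (hx p hp))

end s4a_IsPL

namespace s4a_IsQP

theorem mono {f g : P → ℝ} (hf : s4a_IsQP V x f) (h0 : ∀ p, V p → 0 ≤ g p) (h : ∀ p, V p → g p ≤ f p) :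
    s4a_IsQP V x g := by
  obtain ⟨C, hC⟩ := hf
  exact ⟨C, fun p hp => ⟨h0 p hp, le_trans (h p hp) (hC p hp).2⟩⟩

theorem of_pl (hx : ∀ p, V p → 0 ≤ x p) {f : P → ℝ} (hf : s4a_IsPL V x f) : s4a_IsQP V x f := by
  obtain ⟨C, hC⟩ := hf
  exact ⟨C, fun p hp => ⟨(hC p hp).1, le_trans (hC p hp).2 (s4a_qp_of_pl C (hx p hp))⟩⟩

theorem const (hx : ∀ p, V p → 0 ≤ x p) (c : ℝ) (hc : 0 ≤ c) : s4a_IsQP V x (fun _ => c) :=
  of_pl hx (s4a_IsPL.const hx c hc)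

/-- `exp` of a polylogarithmic quantity -/
theorem exp {f : P → ℝ} (hf : s4a_IsPL V x f) : s4a_IsQP V x (fun p => Real.exp (f p)) := by
  obtain ⟨C, hC⟩ := hf
  exact ⟨C, fun p hp => ⟨(Real.exp_pos _).le, s4a_qp_of_exp (hC p hp).2⟩⟩

/-- a positive quantity whose logarithm is at most a polylogarithmic quantity -/
theorem of_log {f g : P → ℝ} (hg : s4a_IsPL V x g) (h0 : ∀ p, V p → 0 < f p) (h : ∀ p, V p → Real.log (f p) ≤ g p) :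
    s4a_IsQP V x f := by
  obtain ⟨C, hC⟩ := hg
  exact ⟨C, fun p hp => ⟨(h0 p hp).le, s4a_qp_of_log (h0 p hp) (le_trans (h p hp) (hC p hp).2)⟩⟩

theorem add (hx : ∀ p, V p → 0 ≤ x p) {f g : P → ℝ} (hf : s4a_IsQP V x f) (hg : s4a_IsQP V x g) :
    s4a_IsQP V x (fun p => f p + g p) := by
  obtain ⟨C, hC⟩ := hf
  obtain ⟨C', hC'⟩ := hg
  refine ⟨C + C' + 1, fun p hp => ⟨add_nonneg (hC p hp).1 (hC' p hp).1, ?_⟩⟩
  exact le_trans (add_le_add (hC p hp).2 (hC' p hp).2) (s4a_qp_add C C' (hx p hp))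

theorem mul (hx : ∀ p, V p → 0 ≤ x p) {f g : P → ℝ} (hf : s4a_IsQP V x f) (hg : s4a_IsQP V x g) :
    s4a_IsQP V x (fun p => f p * g p) := by
  obtain ⟨C, hC⟩ := hf
  obtain ⟨C', hC'⟩ := hg
  refine ⟨C + C', fun p hp => ⟨mul_nonneg (hC p hp).1 (hC' p hp).1, ?_⟩⟩
  exact le_trans (mul_le_mul (hC p hp).2 (hC' p hp).2 (hC' p hp).1 (s4a_qp_pos C _).le) (s4a_qp_mul C C' (hx p hp))

/-- powers with polylogarithmic exponents -/
theorem pow (hx : ∀ p, V p → 0 ≤ x p) {f : P → ℝ} (hf : s4a_IsQP V x f) {n : P → ℕ}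
    (hn : s4a_IsPL V x (fun p => (n p : ℝ))) : s4a_IsQP V x (fun p => f p ^ n p) := by
  obtain ⟨C, hC⟩ := hf
  obtain ⟨C', hC'⟩ := hn
  refine ⟨C * C' + C + C', fun p hp => ⟨pow_nonneg (hC p hp).1 _, ?_⟩⟩
  exact le_trans (pow_le_pow_left₀ (hC p hp).1 (hC p hp).2 _) (s4a_qp_pow C C' (hx p hp) _ (hC' p hp).2)

/-- fixed powers -/
theorem pow_const (hx : ∀ p, V p → 0 ≤ x p) {f : P → ℝ} (hf : s4a_IsQP V x f) (n : ℕ) :
    s4a_IsQP V x (fun p => f p ^ n) :=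
  pow hx hf (s4a_IsPL.const hx (n : ℝ) (Nat.cast_nonneg n))

/-- the Gevrey weight of polylogarithmic order -/
theorem w (hx : ∀ p, V p → 0 ≤ x p) {n : P → ℕ} (hn : s4a_IsPL V x (fun p => (n p : ℝ))) :
    s4a_IsQP V x (fun p => s4a_w (n p)) := by
  obtain ⟨C', hC'⟩ := s4a_IsPL.add hx hn (s4a_IsPL.const hx 1 zero_le_one)
  exact ⟨10 * C' ^ 2 + 2 * C', fun p hp => ⟨(s4a_w_pos _).le, s4a_qp_w C' (hx p hp) _ (hC' p hp).2⟩⟩

/-- logarithms of quasipolynomial quantities `≥ 1` are polylogarithmic -/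
theorem log {f : P → ℝ} (hf : s4a_IsQP V x f) (h1 : ∀ p, V p → 1 ≤ f p) : s4a_IsPL V x (fun p => Real.log (f p)) := by
  obtain ⟨C, hC⟩ := hf
  refine ⟨C, fun p hp => ⟨Real.log_nonneg (h1 p hp), ?_⟩⟩
  rw [← s4a_log_qp]
  exact Real.log_le_log (by linarith [h1 p hp]) (hC p hp).2

/-- composition: a quasipolynomial bound in a polylogarithmic size -/
theorem comp (hx : ∀ p, V p → 0 ≤ x p) (C : ℕ) {y : P → ℝ} (hy : s4a_IsPL V x y) :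
    s4a_IsQP V x (fun p => s4b_qp C (y p)) := by
  obtain ⟨C', hC'⟩ := hy
  exact ⟨C * (1 + C') ^ C + C * C', fun p hp => ⟨(s4a_qp_pos C _).le, s4a_qp_comp C C' (hx p hp) (hC' p hp).1 (hC' p hp).2⟩⟩

/-- elimination -/
theorem elim {f : P → ℝ} (hf : s4a_IsQP V x f) : ∃ C : ℕ, ∀ p, V p → f p ≤ s4b_qp C (x p) := by
  obtain ⟨C, hC⟩ := hf
  exact ⟨C, fun p hp => (hC p hp).2⟩

/-- a common constant for two bounds -/
theorem elim₂ (hx : ∀ p, V p → 0 ≤ x p) {f g : P → ℝ} (hf : s4a_IsQP V x f) (hg : s4a_IsQP V x g) :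
    ∃ C : ℕ, ∀ p, V p → f p ≤ s4b_qp C (x p) ∧ g p ≤ s4b_qp C (x p) := by
  obtain ⟨C, hC⟩ := hf
  obtain ⟨C', hC'⟩ := hg
  exact ⟨max C C', fun p hp => ⟨le_trans (hC p hp).2 (s4a_qp_mono (le_max_left _ _) (hx p hp) le_rfl),
    le_trans (hC' p hp).2 (s4a_qp_mono (le_max_right _ _) (hx p hp) le_rfl)⟩⟩

end s4a_IsQP

/-- polylog composition -/
theorem s4a_IsPL.comp (hx : ∀ p, V p → 0 ≤ x p) (C : ℕ) {y : P → ℝ} (hy : s4a_IsPL V x y) :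
    s4a_IsPL V x (fun p => s4a_pl C (y p)) := by
  obtain ⟨C', hC'⟩ := hy
  exact ⟨C * (1 + C') ^ C + C * C', fun p hp =>
    ⟨s4a_pl_nonneg C (hC' p hp).1, s4a_pl_comp C C' (hx p hp) (hC' p hp).1 (hC' p hp).2⟩⟩

end Claimed.Agent.R258
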