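/-
Row 258, block [S4a] (architect helper78).  FILE Ops = leaf P-S4a-OPS: **Lemma 4.2 (elementary chart operations)** for `Chart`, with EXPLICIT output charts.
Uses the STATEMENTS of Br.lean, Gev.lean, Qp.lean.  Paper: charts.tex l.75-118.

  `s4a_conj a`        : complex conjugate                              (same complexity)
  `s4a_mul a b`       : product (direct sum of the horizontal coordinates), complexity `H₁ H₂`, dimension `a.d + b.d`
  `s4a_mod a κ μ c`   : multiplication by `e(κ y² + μ y + c)`           (same complexity: `lam, bet` are unrestricted)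
  `s4a_dil a s`       : `y ↦ a.eval (s y)`                              (same complexity)
  `s4a_scale a c`     : multiplication by a constant `|c| ≤ 1` (absorbed into the amplitude; same complexity)
  `s4a_translate`     : `y ↦ a.eval (y + τ)` = a chart with the SAME `d, th, C, lam` and new `bet, chi, unit`; quasipolynomial complexity, uniformly in `τ`.
  `s4a_offset`        : a horizontal offset `th y + v`, `v ∈ ℝ^d` arbitrary (same conclusion).
  `s4a_sup_le`, `s4a_normalize` : sup norm `≤ (2H+1)^d H^10`; division by it gives a bounded atom.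

PLANS.
* conj: `s4a_eval_eq`, `map_mul`, `s4a_ee_conj`, `s4a_br_conj`; complexity by `s4a_cplx_iff`, `s4a_height_neg`, `s4a_Gev.conj`, `RCLike.norm_conj`.
* mul: `s4a_mk_eval`, `s4a_br_mul` (with `K = max H₁ H₂`), `Sum.elim` applied to `th y`: `(fun i => Sum.elim a.th b.th i * y) = Sum.elim (a.th · * y) (b.th · * y)` (`funext`, `Sum.rec`).
  complexity: `s4a_mk_cplx` with `K = max H₁ H₂ ≤ H₁H₂`, amplitude `= (a.chi ∘ L₁) * (b.chi ∘ L₂)`, `L₁, L₂` restriction maps of norm `≤ 1` (`s4a_Gev.comp_affine` with `M = 1`, `s4a_Gev.mul`):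
  `A = H₁^10 + H₂^10 ≤ (H₁H₂)^10` (`x + y ≤ x y` for `x, y ≥ 2`), `B = H₁^10 H₂^10`; `card (Fin d₁ ⊕ Fin d₂) = d₁ + d₂ ≤ log H₁ + log H₂ = log (H₁H₂)`; heights: blocks, `qHeight 0 = 1`.
* mod, dil, scale: unfold `Chart.eval`/`s4a_eval_eq`; `s4a_ee_add`; `ring_nf`.  (`Chart.phase` of `s4a_dil`: `(s θ_i) y = θ_i (s y)`.)
* offset: `P` from `s4a_clear_den` (`P ≤ H^(d²)`); `m₀ i = ⌊v i / P⌋`, `a₀ i = v i - P m₀ i ∈ [0, P)`; `s4a_br_offset`.  New data: `bet' = bet + (th-linear terms)`: `s4a_bil C (th y) a₀ + s4a_bil C (P m₀) (th y) = (…) * y`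
  (`s4a_bil_smul_left/right`), `unit' = unit * ee (s4a_bil C (P m₀) a₀)`, `chi' w = chi (w + a₀) * ee (s4a_bil C a₀ (w + a₀))`.  Complexity: support `⊆ [-(H+P), H+P]`; `chi(· + a₀)`: `s4a_Gev.comp_affine` (`L = id`, `M = 1`);
  the phase is `e(σ·w + c)`, `σ_j = ∑_i a₀_i C_ij`, `∑|σ_j| ≤ d² P H`: `s4a_gev_ee_lin`.  So `A ≤ H^10 + 2π (d² P H + 1)`, `B = H^10`.  Numerics with Qp.lean (`x = log H ≥ 2`, `d ≤ x`, `P ≤ H^(d²) ≤ qp _ x`).
* translate: `a.eval (y + τ)`: `lam (y+τ)² + bet (y+τ) = lam y² + (2 lam τ + bet) y + (lam τ² + bet τ)` and `th (y + τ) = th y + v`, `v = th τ`: `s4a_offset`.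
* sup: `s4a_br_norm_le` with `K = H`, `X = H^10` (`s4a_Amp.norm_le`), `‖unit‖ = 1`, `s4a_ee_norm`.
-/
import Claimed.Agent.R258.S4a.Br
import Claimed.Agent.R258.S4a.Qp
import Claimed.Agent.R258.S4a.QpAuto

set_option autoImplicit false
open MeasureTheory
open scoped ENNReal ContDiff ComplexConjugate

namespace Claimed.Agent.R258

/-! ### conjugation -/

noncomputable def s4a_conj (a : Chart) : Chart where
  d := a.d
  th := a.th
  C := -a.C
  lam := -a.lam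
  bet := -a.bet
  chi := fun x => conj (a.chi x)
  unit := conj a.unit

theorem s4a_conj_eval (a : Chart) (y : ℝ) : (s4a_conj a).eval y = conj (a.eval y) := by
  rw [s4a_eval_eq, s4a_eval_eq, map_mul, map_mul, s4a_ee_conj, s4a_br_conj]
  have e : (s4a_conj a).lam * y ^ 2 + (s4a_conj a).bet * y = -(a.lam * y ^ 2 + a.bet * y) := by
    simp only [s4a_conj]
    ring
  rw [e]
  rfl

theorem s4a_conj_cplx {a : Chart} {H : ℝ} (h : a.Cplx H) : (s4a_conj a).Cplx H := by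
  obtain ⟨hH, hd, hC, hchi, hu⟩ := (s4a_cplx_iff a H).1 h
  refine (s4a_cplx_iff _ H).2 ⟨hH, hd, fun i j => ?_, ⟨hchi.gev.conj, fun x hx i => ?_⟩, ?_⟩
  · have : qHeight ((s4a_conj a).C i j) = qHeight (a.C i j) := s4a_height_neg _
    rw [this]
    exact hC i j
  · refine hchi.supp x (fun h0 => hx ?_) i
    show conj (a.chi x) = 0
    rw [h0, map_zero]
  · show ‖conj a.unit‖ = 1
    rw [RCLike.norm_conj, hu]

theorem s4a_conj_bdd {a : Chart} (h : a.Bdd) : (s4a_conj a).Bdd := by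
  intro y
  rw [s4a_conj_eval, RCLike.norm_conj]
  exact h y

/-! ### products -/

noncomputable def s4a_mul (a b : Chart) : Chart :=
  s4a_mk (Sum.elim a.th b.th) (Matrix.fromBlocks a.C 0 0 b.C) (a.lam + b.lam) (a.bet + b.bet)
    (fun x : Fin a.d ⊕ Fin b.d → ℝ => a.chi (fun i => x (Sum.inl i)) * b.chi fun k => x (Sum.inr k)) (a.unit * b.unit)

theorem s4a_mul_d (a b : Chart) : (s4a_mul a b).d = a.d + b.d := by
  simp [s4a_mul, s4a_mk]

theorem s4a_mul_eval {a b : Chart} {H₁ H₂ : ℝ} (ha : a.Cplx H₁) (hb : b.Cplx H₂) (y : ℝ) :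
    (s4a_mul a b).eval y = a.eval y * b.eval y := by
  obtain ⟨-, -, -, hchia, -⟩ := (s4a_cplx_iff a H₁).1 ha
  obtain ⟨-, -, -, hchib, -⟩ := (s4a_cplx_iff b H₂).1 hb
  unfold s4a_mul
  rw [s4a_mk_eval, s4a_eval_eq, s4a_eval_eq]
  have hbr := s4a_br_mul a.C b.C (K := max H₁ H₂)
    (fun x hx i => (hchia.supp x hx i).trans (le_max_left _ _))
    (fun x hx i => (hchib.supp x hx i).trans (le_max_right _ _))
    (fun i => a.th i * y) (fun i => b.th i * y)
  have e1 : (fun i => Sum.elim a.th b.th i * y) = Sum.elim (fun i => a.th i * y) (fun i => b.th i * y) := by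
    funext i
    cases i <;> rfl
  rw [e1, ← hbr]
  have e2 : (a.lam + b.lam) * y ^ 2 + (a.bet + b.bet) * y =
      (a.lam * y ^ 2 + a.bet * y) + (b.lam * y ^ 2 + b.bet * y) := by ring
  rw [e2, s4a_ee_add]
  ring

theorem s4a_mul_cplx {a b : Chart} {H₁ H₂ : ℝ} (ha : a.Cplx H₁) (hb : b.Cplx H₂) : (s4a_mul a b).Cplx (H₁ * H₂) := by
  obtain ⟨hH₁, hd₁, hC₁, hchi₁, hu₁⟩ := (s4a_cplx_iff a H₁).1 ha
  obtain ⟨hH₂, hd₂, hC₂, hchi₂, hu₂⟩ := (s4a_cplx_iff b H₂).1 hb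
  have he : (2 : ℝ) ≤ Real.exp 2 := by
    have := Real.add_one_le_exp (2 : ℝ)
    linarith
  have h₁ : (2 : ℝ) ≤ H₁ := he.trans hH₁
  have h₂ : (2 : ℝ) ≤ H₂ := he.trans hH₂
  have hle₁ : H₁ ≤ H₁ * H₂ := by nlinarith
  have hle₂ : H₂ ≤ H₁ * H₂ := by nlinarith
  have hp₁ : (2 : ℝ) ≤ H₁ ^ 10 := by
    calc (2 : ℝ) ≤ H₁ := h₁
      _ = H₁ ^ 1 := (pow_one _).symm
      _ ≤ H₁ ^ 10 := pow_le_pow_right₀ (by linarith) (by norm_num)
  have hp₂ : (2 : ℝ) ≤ H₂ ^ 10 := by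
    calc (2 : ℝ) ≤ H₂ := h₂
      _ = H₂ ^ 1 := (pow_one _).symm
      _ ≤ H₂ ^ 10 := pow_le_pow_right₀ (by linarith) (by norm_num)
  unfold s4a_mul
  refine s4a_mk_cplx _ _ _ _ (K := max H₁ H₂) (A := H₁ ^ 10 + H₂ ^ 10) (B := H₁ ^ 10 * H₂ ^ 10) (hH₁.trans hle₁)
    ?_ ?_ ⟨?_, ?_⟩ (by positivity) (by positivity) (max_le hle₁ hle₂) ?_ (by rw [mul_pow]) ?_
  · rw [Fintype.card_sum, Fintype.card_fin, Fintype.card_fin, Real.log_mul (by linarith) (by linarith)]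
    push_cast
    linarith
  · intro i j
    rcases i with i | i <;> rcases j with j | j
    · exact (hC₁ i j).trans hle₁
    · simp only [Matrix.fromBlocks_apply₁₂, Matrix.zero_apply, s4a_height_zero]
      push_cast
      nlinarith
    · simp only [Matrix.fromBlocks_apply₂₁, Matrix.zero_apply, s4a_height_zero]
      push_cast
      nlinarith
    · exact (hC₂ i j).trans hle₂
  · set L₁ : (Fin a.d ⊕ Fin b.d → ℝ) →L[ℝ] (Fin a.d → ℝ) :=
      ContinuousLinearMap.pi fun i => ContinuousLinearMap.proj (Sum.inl i) with hL₁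
    set L₂ : (Fin a.d ⊕ Fin b.d → ℝ) →L[ℝ] (Fin b.d → ℝ) :=
      ContinuousLinearMap.pi fun i => ContinuousLinearMap.proj (Sum.inr i) with hL₂
    have n₁ : ‖L₁‖ ≤ 1 := by
      refine ContinuousLinearMap.opNorm_le_bound _ zero_le_one fun x => ?_
      rw [one_mul, pi_norm_le_iff_of_nonneg (norm_nonneg _)]
      exact fun i => norm_le_pi_norm x (Sum.inl i)
    have n₂ : ‖L₂‖ ≤ 1 := by
      refine ContinuousLinearMap.opNorm_le_bound _ zero_le_one fun x => ?_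
      rw [one_mul, pi_norm_le_iff_of_nonneg (norm_nonneg _)]
      exact fun i => norm_le_pi_norm x (Sum.inr i)
    have g₁ := hchi₁.gev.comp_affine (by positivity) (by positivity) L₁ 0 1 n₁
    have g₂ := hchi₂.gev.comp_affine (by positivity) (by positivity) L₂ 0 1 n₂
    simp only [Set.mem_univ, Set.ofPred_true, mul_one, add_zero] at g₁ g₂
    exact s4a_Gev.mul (by positivity) (by positivity) (by positivity) (by positivity) g₁ g₂
  · intro x hx i
    have hx₁ : a.chi (fun i => x (Sum.inl i)) ≠ 0 := left_ne_zero_of_mul hx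
    have hx₂ : b.chi (fun i => x (Sum.inr i)) ≠ 0 := right_ne_zero_of_mul hx
    rcases i with i | i
    · exact (hchi₁.supp _ hx₁ i).trans (le_max_left _ _)
    · exact (hchi₂.supp _ hx₂ i).trans (le_max_right _ _)
  · rw [mul_pow]
    nlinarith
  · rw [norm_mul, hu₁, hu₂, one_mul]

theorem s4a_mul_bdd {a b : Chart} {H₁ H₂ : ℝ} (ha : a.Cplx H₁) (hb : b.Cplx H₂) (ha' : a.Bdd) (hb' : b.Bdd) :
    (s4a_mul a b).Bdd := by
  intro y
  rw [s4a_mul_eval ha hb, norm_mul]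
  exact mul_le_one₀ (ha' y) (norm_nonneg _) (hb' y)

/-! ### modulation, dilation, scalar factors -/

noncomputable def s4a_mod (a : Chart) (κ μ c : ℝ) : Chart :=
  { a with lam := a.lam + κ, bet := a.bet + μ, unit := a.unit * ee c }

theorem s4a_mod_eval (a : Chart) (κ μ c y : ℝ) : (s4a_mod a κ μ c).eval y = ee (κ * y ^ 2 + μ * y + c) * a.eval y := by
  rw [s4a_eval_eq, s4a_eval_eq]
  have e2 : (s4a_mod a κ μ c).unit * ee ((s4a_mod a κ μ c).lam * y ^ 2 + (s4a_mod a κ μ c).bet * y) =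
      a.unit * (ee (κ * y ^ 2 + μ * y + c) * ee (a.lam * y ^ 2 + a.bet * y)) := by
    show a.unit * ee c * ee ((a.lam + κ) * y ^ 2 + (a.bet + μ) * y) = _
    rw [← s4a_ee_add, mul_assoc, ← s4a_ee_add]
    congr 2
    ring
  rw [e2]
  show a.unit * (ee (κ * y ^ 2 + μ * y + c) * ee (a.lam * y ^ 2 + a.bet * y)) *
    s4a_br a.C a.chi (fun i => a.th i * y) = _
  ring

theorem s4a_mod_cplx {a : Chart} {H : ℝ} (h : a.Cplx H) (κ μ c : ℝ) : (s4a_mod a κ μ c).Cplx H := by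
  obtain ⟨hH, hd, hC, hchi, hu⟩ := (s4a_cplx_iff a H).1 h
  refine (s4a_cplx_iff _ H).2 ⟨hH, hd, hC, hchi, ?_⟩
  show ‖a.unit * ee c‖ = 1
  rw [norm_mul, hu, s4a_ee_norm, one_mul]

theorem s4a_mod_bdd {a : Chart} (h : a.Bdd) (κ μ c : ℝ) : (s4a_mod a κ μ c).Bdd := by
  intro y
  rw [s4a_mod_eval, norm_mul, s4a_ee_norm, one_mul]
  exact h y

noncomputable def s4a_dil (a : Chart) (s : ℝ) : Chart :=
  { a with th := fun i => s * a.th i, lam := s ^ 2 * a.lam, bet := s * a.bet }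

theorem s4a_dil_eval (a : Chart) (s y : ℝ) : (s4a_dil a s).eval y = a.eval (s * y) := by
  rw [s4a_eval_eq, s4a_eval_eq]
  have e : (s4a_dil a s).lam * y ^ 2 + (s4a_dil a s).bet * y = a.lam * (s * y) ^ 2 + a.bet * (s * y) := by
    simp only [s4a_dil]
    ring
  rw [e]
  have e2 : (fun i => (s4a_dil a s).th i * y) = fun i => a.th i * (s * y) := by
    funext i
    simp only [s4a_dil]
    ring
  rw [e2]
  rfl

theorem s4a_dil_cplx {a : Chart} {H : ℝ} (h : a.Cplx H) (s : ℝ) : (s4a_dil a s).Cplx H := by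
  obtain ⟨hH, hd, hC, hchi, hu⟩ := (s4a_cplx_iff a H).1 h
  exact (s4a_cplx_iff _ H).2 ⟨hH, hd, hC, hchi, hu⟩

theorem s4a_dil_bdd {a : Chart} (h : a.Bdd) (s : ℝ) : (s4a_dil a s).Bdd := by
  intro y
  rw [s4a_dil_eval]
  exact h _

noncomputable def s4a_scale (a : Chart) (c : ℂ) : Chart := { a with chi := fun x => c * a.chi x }

theorem s4a_scale_eval (a : Chart) (c : ℂ) (y : ℝ) : (s4a_scale a c).eval y = c * a.eval y := by
  rw [s4a_eval_eq, s4a_eval_eq]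
  show a.unit * ee (a.lam * y ^ 2 + a.bet * y) * s4a_br a.C (fun x => c * a.chi x) (fun i => a.th i * y) = _
  rw [s4a_br_const_mul]
  ring

theorem s4a_scale_cplx {a : Chart} {H : ℝ} (h : a.Cplx H) {c : ℂ} (hc : ‖c‖ ≤ 1) : (s4a_scale a c).Cplx H := by
  obtain ⟨hH, hd, hC, hchi, hu⟩ := (s4a_cplx_iff a H).1 h
  have hH0 : 0 ≤ H := (Real.exp_pos 2).le.trans hH
  refine (s4a_cplx_iff _ H).2 ⟨hH, hd, hC, ⟨?_, fun x hx i => ?_⟩, hu⟩
  · have h1 := hchi.gev.const_mul c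
    exact h1.mono le_rfl (by positivity) (by positivity) le_rfl
      (by nlinarith [norm_nonneg c, pow_nonneg hH0 10])
  · refine hchi.supp x (fun h0 => hx ?_) i
    show c * a.chi x = 0
    rw [h0, mul_zero]

/-! ### sup norm, normalization -/

theorem s4a_sup_le {a : Chart} {H : ℝ} (h : a.Cplx H) (y : ℝ) : ‖a.eval y‖ ≤ (2 * H + 1) ^ a.d * H ^ 10 := by
  obtain ⟨hH, hd, hC, hchi, hu⟩ := (s4a_cplx_iff a H).1 h
  have hH0 : 0 ≤ H := (Real.exp_pos 2).le.trans hH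
  rw [s4a_eval_eq, norm_mul, norm_mul, hu, s4a_ee_norm, one_mul, one_mul]
  have := s4a_br_norm_le a.C hH0 (by positivity : (0 : ℝ) ≤ H ^ 10) hchi.supp hchi.norm_le (fun i => a.th i * y)
  rwa [Fintype.card_fin] at this

/-- `(2H+1)^d H^10` is quasipolynomial -/
theorem s4a_sup_qp : ∃ C : ℕ, ∀ (d : ℕ) (H : ℝ), Real.exp 2 ≤ H → (d : ℝ) ≤ Real.log H →
    (2 * H + 1) ^ d * H ^ 10 ≤ s4b_qp C (Real.log H) := by
  set V : ℕ × ℝ → Prop := fun p => Real.exp 2 ≤ p.2 ∧ (p.1 : ℝ) ≤ Real.log p.2 with hV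
  set x : ℕ × ℝ → ℝ := fun p => Real.log p.2 with hxdef
  have hH1 : ∀ p, V p → 1 ≤ p.2 := fun p hp =>
    le_trans (Real.one_le_exp (by norm_num : (0 : ℝ) ≤ 2)) hp.1
  have hx : ∀ p, V p → 0 ≤ x p := fun p hp => Real.log_nonneg (hH1 p hp)
  have pd : s4a_IsPL V x (fun p => (p.1 : ℝ)) :=
    (s4a_IsPL.size hx).mono (fun p _ => Nat.cast_nonneg _) (fun p hp => hp.2)
  have qH : s4a_IsQP V x (fun p => p.2) :=
    s4a_IsQP.of_log (s4a_IsPL.size hx) (fun p hp => by linarith [hH1 p hp]) (fun p _ => le_rfl)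
  have q : s4a_IsQP V x (fun p => (2 * p.2 + 1) ^ p.1 * p.2 ^ 10) :=
    ((((s4a_IsQP.const hx 2 (by norm_num)).mul hx qH).add hx (s4a_IsQP.const hx 1 zero_le_one)).pow hx pd).mul hx
      (qH.pow_const hx 10)
  obtain ⟨C, hC⟩ := q.elim
  exact ⟨C, fun d H h1 h2 => hC (d, H) ⟨h1, h2⟩⟩

theorem s4a_normalize {a : Chart} {H : ℝ} (h : a.Cplx H) :
    (s4a_scale a (((2 * H + 1) ^ a.d * H ^ 10 : ℝ) : ℂ)⁻¹).Bdd ∧ (s4a_scale a (((2 * H + 1) ^ a.d * H ^ 10 : ℝ) : ℂ)⁻¹).Cplx H := by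
  have hH2 : Real.exp 2 ≤ H := h.H_ge
  have hH1 : (1 : ℝ) ≤ H := le_trans (Real.one_le_exp (by norm_num : (0 : ℝ) ≤ 2)) hH2
  set X : ℝ := (2 * H + 1) ^ a.d * H ^ 10 with hX
  have hX1 : 1 ≤ X := by
    have h1 : (1 : ℝ) ≤ (2 * H + 1) ^ a.d := one_le_pow₀ (by linarith)
    have h2 : (1 : ℝ) ≤ H ^ 10 := one_le_pow₀ hH1
    calc (1 : ℝ) = 1 * 1 := by ring
      _ ≤ X := mul_le_mul h1 h2 zero_le_one (by positivity)
  have hX0 : 0 < X := by linarith
  have hn : ‖((X : ℝ) : ℂ)⁻¹‖ = X⁻¹ := by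
    rw [norm_inv, Complex.norm_real, Real.norm_eq_abs, abs_of_pos hX0]
  refine ⟨fun y => ?_, s4a_scale_cplx h (by rw [hn]; exact inv_le_one_of_one_le₀ hX1)⟩
  rw [s4a_scale_eval, norm_mul, hn, inv_mul_le_iff₀ hX0, mul_one]
  exact s4a_sup_le h y

theorem s4a_cplx_mono {a : Chart} {H H' : ℝ} (h : a.Cplx H) (hH : H ≤ H') : a.Cplx H' := by
  obtain ⟨hH2, hd, hC, hchi, hu⟩ := (s4a_cplx_iff a H).1 h
  have hH0 : 0 < H := (Real.exp_pos 2).trans_le hH2
  have hp : H ^ 10 ≤ H' ^ 10 := pow_le_pow_left₀ hH0.le hH 10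
  exact (s4a_cplx_iff a H').2 ⟨hH2.trans hH, hd.trans (Real.log_le_log hH0 hH), fun i j => (hC i j).trans hH,
    hchi.mono (by positivity) (by positivity) hH hp hp, hu⟩

/-! ### offsets and translations -/

/-- the chart with the same `d, th, C, lam` and new `bet, chi, unit` -/
noncomputable def s4a_shift (a : Chart) (bet' : ℝ) (chi' : (Fin a.d → ℝ) → ℂ) (unit' : ℂ) : Chart :=
  { a with bet := bet', chi := chi', unit := unit' }

/-- numerics of the offset -/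
theorem s4a_offset_num : ∃ C : ℕ, ∀ (d : ℕ) (H : ℝ), Real.exp 2 ≤ H → (d : ℝ) ≤ Real.log H →
    H + H ^ (d ^ 2) ≤ s4b_qp C (Real.log H) ∧
    H ^ 10 + 2 * Real.pi * ((d : ℝ) ^ 2 * H ^ (d ^ 2) * H + 1) ≤ s4b_qp C (Real.log H) := by
  set V : ℕ × ℝ → Prop := fun p => Real.exp 2 ≤ p.2 ∧ (p.1 : ℝ) ≤ Real.log p.2 with hV
  set x : ℕ × ℝ → ℝ := fun p => Real.log p.2 with hxdef
  have hH1 : ∀ p, V p → 1 ≤ p.2 := fun p hp =>
    le_trans (Real.one_le_exp (by norm_num : (0 : ℝ) ≤ 2)) hp.1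
  have hx : ∀ p, V p → 0 ≤ x p := fun p hp => Real.log_nonneg (hH1 p hp)
  have pd : s4a_IsPL V x (fun p => (p.1 : ℝ)) :=
    (s4a_IsPL.size hx).mono (fun p _ => Nat.cast_nonneg _) (fun p hp => hp.2)
  have qd : s4a_IsQP V x (fun p => (p.1 : ℝ)) := s4a_IsQP.of_pl hx pd
  have pd2 : s4a_IsPL V x (fun p => ((p.1 ^ 2 : ℕ) : ℝ)) := by
    have := pd.pow hx 2
    simpa using this
  have qH : s4a_IsQP V x (fun p => p.2) :=
    s4a_IsQP.of_log (s4a_IsPL.size hx) (fun p hp => by linarith [hH1 p hp]) (fun p _ => le_rfl)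
  have q1 : s4a_IsQP V x (fun p => p.2 + p.2 ^ (p.1 ^ 2)) := qH.add hx (qH.pow hx pd2)
  have q2 : s4a_IsQP V x (fun p => p.2 ^ 10 + 2 * Real.pi * ((p.1 : ℝ) ^ 2 * p.2 ^ (p.1 ^ 2) * p.2 + 1)) :=
    (qH.pow_const hx 10).add hx ((s4a_IsQP.const hx (2 * Real.pi) (by positivity)).mul hx
      ((((qd.pow_const hx 2).mul hx (qH.pow hx pd2)).mul hx qH).add hx (s4a_IsQP.const hx 1 zero_le_one)))
  obtain ⟨C, hC⟩ := s4a_IsQP.elim₂ hx q1 q2
  exact ⟨C, fun d H h1 h2 => hC (d, H) ⟨h1, h2⟩⟩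

theorem s4a_shift_eval (a : Chart) (bet' : ℝ) (chi' : (Fin a.d → ℝ) → ℂ) (unit' : ℂ) (y : ℝ) :
    (s4a_shift a bet' chi' unit').eval y = unit' * ee (a.lam * y ^ 2 + bet' * y) * s4a_br a.C chi' (fun i => a.th i * y) :=
  rfl

/-- a horizontal offset -/
theorem s4a_offset : ∃ C : ℕ, ∀ (a : Chart) (H : ℝ) (v : Fin a.d → ℝ), a.Cplx H →
    ∃ (bet' : ℝ) (chi' : (Fin a.d → ℝ) → ℂ) (unit' : ℂ), (s4a_shift a bet' chi' unit').Cplx (s4b_qp C (Real.log H)) ∧
      ∀ y : ℝ, (s4a_shift a bet' chi' unit').eval y =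
        a.unit * ee (a.lam * y ^ 2 + a.bet * y) * s4a_br a.C a.chi (fun i => a.th i * y + v i) := by
  obtain ⟨C, hnum⟩ := s4a_offset_num
  refine ⟨C, ?_⟩
  intro a H v h
  obtain ⟨hH, hd, hC, hchi, hu⟩ := (s4a_cplx_iff a H).1 h
  obtain ⟨n1, n2⟩ := hnum a.d H hH hd
  have hH1 : (1 : ℝ) ≤ H := le_trans (Real.one_le_exp (by norm_num : (0 : ℝ) ≤ 2)) hH
  have hH0 : (0 : ℝ) < H := by linarith
  obtain ⟨P, hP1, hPle, hPcl⟩ := s4a_clear_den a.C H hC
  rw [Fintype.card_fin] at hPle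
  have hP1' : (1 : ℝ) ≤ (P : ℝ) := by exact_mod_cast hP1
  have hP0 : (0 : ℝ) < (P : ℝ) := by linarith
  set m₀ : Fin a.d → ℤ := fun i => ⌊v i / (P : ℝ)⌋ with hm₀
  set a₀ : Fin a.d → ℝ := fun i => v i - (P : ℝ) * (m₀ i : ℝ) with ha₀
  have ha₀0 : ∀ i, 0 ≤ a₀ i := by
    intro i
    have := Int.floor_le (v i / (P : ℝ))
    rw [le_div_iff₀ hP0] at this
    simp only [ha₀, hm₀]
    linarith
  have ha₀P : ∀ i, a₀ i ≤ (P : ℝ) := by
    intro i
    have := (Int.lt_floor_add_one (v i / (P : ℝ))).le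
    rw [div_le_iff₀ hP0] at this
    simp only [ha₀, hm₀]
    linarith
  have ha₀abs : ∀ i, |a₀ i| ≤ (P : ℝ) := fun i => by rw [abs_of_nonneg (ha₀0 i)]; exact ha₀P i
  set Pm : Fin a.d → ℝ := fun i => (P : ℝ) * (m₀ i : ℝ) with hPm
  set H' : ℝ := s4b_qp C (Real.log H) with hH'
  have hHH' : H ≤ H' := by
    have : 0 ≤ H ^ (a.d ^ 2) := by positivity
    linarith
  have hH'1 : 1 ≤ H' := hH1.trans hHH'
  have hH'10 : H' ≤ H' ^ 10 := by
    calc H' = H' ^ 1 := (pow_one _).symm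
      _ ≤ H' ^ 10 := pow_le_pow_right₀ hH'1 (by norm_num)
  refine ⟨a.bet + s4a_bil a.C a.th a₀ + s4a_bil a.C Pm a.th,
    fun w => a.chi (fun i => w i + a₀ i) * ee (s4a_bil a.C a₀ fun i => w i + a₀ i),
    a.unit * ee (s4a_bil a.C Pm a₀), ?_, ?_⟩
  · refine (s4a_cplx_iff _ H').2 ⟨hH.trans hHH', hd.trans (Real.log_le_log hH0 hHH'),
      fun i j => (hC i j).trans hHH', ?_, ?_⟩
    · -- the amplitude
      set σ : Fin a.d → ℝ := fun j => ∑ i, a₀ i * ((a.C i j : ℚ) : ℝ) with hσ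
      set D : ℝ := (a.d : ℝ) ^ 2 * (P : ℝ) * H + 1 with hD
      have hD1 : 1 ≤ D := by
        have : 0 ≤ (a.d : ℝ) ^ 2 * (P : ℝ) * H := by positivity
        linarith
      have hσs : ∑ j, |σ j| ≤ D := by
        have : ∑ j, |σ j| ≤ ∑ _j : Fin a.d, ∑ _i : Fin a.d, (P : ℝ) * H := by
          refine Finset.sum_le_sum fun j _ => (Finset.abs_sum_le_sum_abs _ _).trans ?_
          refine Finset.sum_le_sum fun i _ => ?_
          rw [abs_mul]
          exact mul_le_mul (ha₀abs i) ((s4a_abs_le_height _).trans (hC i j)) (abs_nonneg _) hP0.le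
        refine this.trans ?_
        simp only [Finset.sum_const, Finset.card_univ, Fintype.card_fin, nsmul_eq_mul, hD]
        nlinarith
      have g1 := hchi.gev.comp_affine (by positivity) (by positivity)
        (ContinuousLinearMap.id ℝ (Fin a.d → ℝ)) a₀ 1 ContinuousLinearMap.norm_id_le
      simp only [Set.mem_univ, Set.ofPred_true, mul_one, ContinuousLinearMap.coe_id', id_eq] at g1
      have g2 := s4a_gev_ee_lin σ (s4a_bil a.C a₀ a₀) D hD1 hσs
      have e2 : (fun w : Fin a.d → ℝ => ee (s4a_dot σ w + s4a_bil a.C a₀ a₀)) =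
          fun w => ee (s4a_bil a.C a₀ fun i => w i + a₀ i) := by
        funext w
        rw [s4a_bil_add_right]
        congr 2
        simp only [s4a_dot, s4a_bil, hσ, Finset.sum_mul]
        rw [Finset.sum_comm]
      rw [e2] at g2
      have g3 := s4a_Gev.mul (by positivity) (by positivity) (by positivity) zero_le_one g1 g2
      rw [mul_one] at g3
      have hAle : H ^ 10 + 2 * Real.pi * D ≤ H' ^ 10 := by
        refine le_trans ?_ (n2.trans hH'10)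
        have : D ≤ (a.d : ℝ) ^ 2 * H ^ (a.d ^ 2) * H + 1 := by
          rw [hD]
          have : (a.d : ℝ) ^ 2 * (P : ℝ) * H ≤ (a.d : ℝ) ^ 2 * H ^ (a.d ^ 2) * H :=
            mul_le_mul_of_nonneg_right (mul_le_mul_of_nonneg_left hPle (by positivity)) hH0.le
          linarith
        have h2π : 0 ≤ 2 * Real.pi := by positivity
        nlinarith
      refine ⟨g3.mono le_rfl (by positivity) (by positivity) hAle (pow_le_pow_left₀ hH0.le hHH' 10), ?_⟩
      intro w hw i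
      have hw1 : a.chi (fun i => w i + a₀ i) ≠ 0 := left_ne_zero_of_mul hw
      have h1 := hchi.supp _ hw1 i
      have h2 : |w i| ≤ H + (P : ℝ) := by
        have : w i = (w i + a₀ i) - a₀ i := by ring
        rw [this]
        exact (abs_sub _ _).trans (add_le_add h1 (ha₀abs i))
      exact h2.trans ((add_le_add le_rfl hPle).trans n1)
    · show ‖a.unit * ee (s4a_bil a.C Pm a₀)‖ = 1
      rw [norm_mul, hu, s4a_ee_norm, one_mul]
  · intro y
    rw [s4a_shift_eval]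
    have e1 : (fun i => a.th i * y + v i) = fun i => a.th i * y + ((P : ℝ) * (m₀ i : ℝ) + a₀ i) := by
      funext i
      simp only [ha₀]
      ring
    rw [e1, s4a_br_offset a.C a.chi P hPcl m₀ a₀ (fun i => a.th i * y)]
    have e2 : s4a_bil a.C (fun i => a.th i * y) a₀ = y * s4a_bil a.C a.th a₀ := by
      rw [← s4a_bil_smul_left]
      congr 1
      funext i
      ring
    have e3 : s4a_bil a.C Pm (fun i => a.th i * y) = y * s4a_bil a.C Pm a.th := by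
      rw [← s4a_bil_smul_right]
      congr 1
      funext i
      ring
    rw [e2, e3]
    have e4 : a.lam * y ^ 2 + (a.bet + s4a_bil a.C a.th a₀ + s4a_bil a.C Pm a.th) * y + s4a_bil a.C Pm a₀ =
        (a.lam * y ^ 2 + a.bet * y) + (y * s4a_bil a.C a.th a₀ + y * s4a_bil a.C Pm a.th + s4a_bil a.C Pm a₀) := by
      ring
    have e5 : a.unit * ee (s4a_bil a.C Pm a₀) *
        ee (a.lam * y ^ 2 + (a.bet + s4a_bil a.C a.th a₀ + s4a_bil a.C Pm a.th) * y) =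
        a.unit * ee (a.lam * y ^ 2 + a.bet * y) *
          ee (y * s4a_bil a.C a.th a₀ + y * s4a_bil a.C Pm a.th + s4a_bil a.C Pm a₀) := by
      rw [mul_assoc, mul_assoc, ← s4a_ee_add, ← s4a_ee_add]
      congr 2
      ring
    rw [e5]
    ring

/-- translation of the real argument -/
theorem s4a_translate : ∃ C : ℕ, ∀ (a : Chart) (H τ : ℝ), a.Cplx H →
    ∃ (bet' : ℝ) (chi' : (Fin a.d → ℝ) → ℂ) (unit' : ℂ), (s4a_shift a bet' chi' unit').Cplx (s4b_qp C (Real.log H)) ∧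
      ∀ y : ℝ, (s4a_shift a bet' chi' unit').eval y = a.eval (y + τ) := by
  obtain ⟨C, hC⟩ := s4a_offset
  refine ⟨C, ?_⟩
  intro a H τ h
  obtain ⟨bet₀, chi', unit₀, hc, he⟩ := hC a H (fun i => a.th i * τ) h
  obtain ⟨c1, c2, c3, c4, c5⟩ := (s4a_cplx_iff _ _).1 hc
  refine ⟨bet₀ + 2 * a.lam * τ, chi', unit₀ * ee (a.lam * τ ^ 2 + a.bet * τ), ?_, ?_⟩
  · refine (s4a_cplx_iff _ _).2 ⟨c1, c2, c3, c4, ?_⟩
    show ‖unit₀ * ee (a.lam * τ ^ 2 + a.bet * τ)‖ = 1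
    have : ‖unit₀‖ = 1 := c5
    rw [norm_mul, this, s4a_ee_norm, one_mul]
  · intro y
    have h1 := he y
    rw [s4a_shift_eval] at h1
    rw [s4a_shift_eval, s4a_eval_eq]
    have e1 : (fun i => a.th i * (y + τ)) = fun i => a.th i * y + a.th i * τ := by
      funext i
      ring
    rw [e1]
    have e2 : unit₀ * ee (a.lam * τ ^ 2 + a.bet * τ) * ee (a.lam * y ^ 2 + (bet₀ + 2 * a.lam * τ) * y) =
        ee (2 * a.lam * τ * y + (a.lam * τ ^ 2 + a.bet * τ)) * (unit₀ * ee (a.lam * y ^ 2 + bet₀ * y)) := by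
      rw [mul_assoc, ← s4a_ee_add, mul_left_comm, ← s4a_ee_add]
      congr 2
      ring
    rw [e2, mul_assoc, h1]
    have e3 : a.lam * (y + τ) ^ 2 + a.bet * (y + τ) =
        (2 * a.lam * τ * y + (a.lam * τ ^ 2 + a.bet * τ)) + (a.lam * y ^ 2 + a.bet * y) := by ring
    rw [e3, s4a_ee_add (2 * a.lam * τ * y + (a.lam * τ ^ 2 + a.bet * τ)) (a.lam * y ^ 2 + a.bet * y)]
    ring

/-- affine substitution `y ↦ s y + τ` -/
theorem s4a_affine : ∃ C : ℕ, ∀ (a : Chart) (H s τ : ℝ), a.Cplx H →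
    ∃ a' : Chart, a'.Cplx (s4b_qp C (Real.log H)) ∧ a'.d = a.d ∧ ∀ y : ℝ, a'.eval y = a.eval (s * y + τ) := by
  obtain ⟨C, hC⟩ := s4a_translate
  refine ⟨C, ?_⟩
  intro a H s τ h
  obtain ⟨bet', chi', unit', hc, he⟩ := hC a H τ h
  exact ⟨s4a_dil (s4a_shift a bet' chi' unit') s, s4a_dil_cplx hc s, rfl, fun y => by rw [s4a_dil_eval, he]⟩

end Claimed.Agent.R258
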