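/-
Row 258, block [S4a] (architect helper78).  FILE LatFourier = leaf P-S4a-LATFOURIER: lattice sums `F(x) = ∑_{n ∈ ℤ^κ} γ_n(x - n)` with an `R`-periodic family of smooth functions `γ_n`
supported in the box `[-K,K]^κ`: smoothness, derivative bounds, and the Fourier expansion `F(x) = ∑_ℓ a_ℓ e(ℓ·x / R)`.
Uses the STATEMENTS of Periodic.lean, Lat.lean, Gev.lean.  No paper.
(This one lemma replaces all "extend periodically and take the Fourier series / integrate by parts" steps of Lemmas 4.4, 4.5, 4.6.)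

PLANS.
* local finiteness: fix `x₀`; for `‖x - x₀‖ < 1` only the `n` in the finite set `N₀ = {n | ∀ i, |x₀ i - n i| ≤ K + 1}` contribute, so `F = ∑_{n ∈ N₀} γ_n(· - n)` on the ball (`tsum_eq_sum`).
  `s4a_latsum_contDiff`: `contDiff_iff_contDiffAt`, `ContDiffAt.congr_of_eventuallyEq`, `ContDiff.sum`.
  `s4a_latsum_deriv_le`: `Filter.EventuallyEq.iteratedFDeriv_eq`, `iteratedFDeriv_sum`, `iteratedFDeriv_comp_sub`/`_add_right`; `#N₀ ≤ (2(K+1)+1)^card κ` (`s4a_lat_box_card`).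
* `s4a_latsum_per`: `F(x + R m) = ∑_n γ_n(x + Rm - n) = ∑_{n'} γ_{n'+Rm}(x - n') = F(x)` (`Equiv.tsum_eq (Equiv.addRight (R • m))`).
* `s4a_lattice_fourier`: `G(x) = F(R x)` is `ℤ^κ`-periodic and smooth, `‖D^m G‖ ≤ R^m sup ‖D^m F‖` (composition with the linear map `R • id` of norm `≤ R`: as in `s4a_Gev.comp_affine`;
  `ContinuousLinearMap.iteratedFDeriv_comp_right`), `1 ≤ R^m`.  Apply `s4a_periodic_fourier` with `X' = (2K+3)^card κ * X * R^m`; `a = s4a_fc G`; evaluate at `x / R`.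
* `s4a_box_fourier`: `s4a_lattice_fourier` with `γ n = ψ` if `∀ i, (R : ℤ) ∣ n i`, `γ n = 0` otherwise.  If `|x i| < R - K` for all `i` and `n = R m ≠ 0`, then `|x i - n i| ≥ R - |x i| > K` for some `i`,
  so only `n = 0` contributes: `s4a_latsum γ x = ψ x` (`tsum_eq_single 0`).
-/
import Claimed.Agent.R258.S4a.Periodic
import Claimed.Agent.R258.S4a.Gev

set_option autoImplicit false
open MeasureTheory
open scoped ENNReal ContDiff ComplexConjugate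

namespace Claimed.Agent.R258

variable {κ : Type} [Fintype κ]

/-- the lattice sum `∑_n γ_n(x - n)` -/
noncomputable def s4a_latsum (γ : (κ → ℤ) → (κ → ℝ) → ℂ) (x : κ → ℝ) : ℂ := ∑' n : κ → ℤ, γ n fun i => x i - (n i : ℝ)

/-- local finiteness of the lattice sum -/
theorem s4a_latsum_local (K : ℝ) (γ : (κ → ℤ) → (κ → ℝ) → ℂ) (hsupp : ∀ n x, γ n x ≠ 0 → ∀ i, |x i| ≤ K)
    (x₀ x : κ → ℝ) (hx : x ∈ Metric.ball x₀ 1) :
    s4a_latsum γ x = ∑ n ∈ (s4a_lat_box_finite (K + 1) x₀).toFinset, γ n (x - fun i => (n i : ℝ)) := by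
  unfold s4a_latsum
  refine tsum_eq_sum fun n hn => ?_
  by_contra hne
  apply hn
  rw [Set.Finite.mem_toFinset]
  intro i
  have h1 := hsupp n _ hne i
  have h2 : |x i - x₀ i| ≤ 1 := by
    have h3 := norm_le_pi_norm (x - x₀) i
    rw [Metric.mem_ball, dist_eq_norm] at hx
    rw [Pi.sub_apply, Real.norm_eq_abs] at h3
    linarith
  have h4 : x₀ i - (n i : ℝ) = (x i - (n i : ℝ)) - (x i - x₀ i) := by ring
  rw [h4]
  exact (abs_sub _ _).trans (by linarith)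

theorem s4a_latsum_eventuallyEq (K : ℝ) (γ : (κ → ℤ) → (κ → ℝ) → ℂ) (hsupp : ∀ n x, γ n x ≠ 0 → ∀ i, |x i| ≤ K)
    (x₀ : κ → ℝ) :
    s4a_latsum γ =ᶠ[nhds x₀] fun x => ∑ n ∈ (s4a_lat_box_finite (K + 1) x₀).toFinset, γ n (x - fun i => (n i : ℝ)) := by
  filter_upwards [Metric.ball_mem_nhds x₀ one_pos] with x hx
  exact s4a_latsum_local K γ hsupp x₀ x hx

theorem s4a_latsum_contDiff (K : ℝ) (γ : (κ → ℤ) → (κ → ℝ) → ℂ) (hsm : ∀ n, ContDiff ℝ ∞ (γ n))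
    (hsupp : ∀ n x, γ n x ≠ 0 → ∀ i, |x i| ≤ K) : ContDiff ℝ ∞ (s4a_latsum γ) := by
  rw [contDiff_iff_contDiffAt]
  intro x₀
  refine ContDiffAt.congr_of_eventuallyEq ?_ (s4a_latsum_eventuallyEq K γ hsupp x₀)
  exact (ContDiff.sum fun n _ => (hsm n).comp (contDiff_id.sub contDiff_const)).contDiffAt

theorem s4a_latsum_deriv_le (K : ℝ) (hK : 0 ≤ K) (γ : (κ → ℤ) → (κ → ℝ) → ℂ) (hsm : ∀ n, ContDiff ℝ ∞ (γ n))
    (hsupp : ∀ n x, γ n x ≠ 0 → ∀ i, |x i| ≤ K) (m : ℕ) (X : ℝ) (hX : ∀ n x, ‖iteratedFDeriv ℝ m (γ n) x‖ ≤ X)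
    (x : κ → ℝ) : ‖iteratedFDeriv ℝ m (s4a_latsum γ) x‖ ≤ (2 * K + 3) ^ Fintype.card κ * X := by
  have hX0 : 0 ≤ X := (norm_nonneg _).trans (hX 0 0)
  rw [(Filter.EventuallyEq.iteratedFDeriv (𝕜 := ℝ) (s4a_latsum_eventuallyEq K γ hsupp x) m).self_of_nhds,
    iteratedFDeriv_fun_sum_apply (f := fun (n : κ → ℤ) (z : κ → ℝ) => γ n (z - fun i => (n i : ℝ)))
    (fun n _ => (((hsm n).comp (contDiff_id.sub contDiff_const)).of_le (by exact_mod_cast le_top)).contDiffAt)]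
  refine (norm_sum_le _ _).trans ?_
  have h1 : ∀ n ∈ (s4a_lat_box_finite (K + 1) x).toFinset,
      ‖iteratedFDeriv ℝ m (fun z : κ → ℝ => γ n (z - fun i => (n i : ℝ))) x‖ ≤ X := by
    intro n _
    rw [iteratedFDeriv_comp_sub]
    exact hX n _
  refine (Finset.sum_le_sum h1).trans ?_
  rw [Finset.sum_const, nsmul_eq_mul]
  refine mul_le_mul_of_nonneg_right ?_ hX0
  have h2 := s4a_lat_box_card (K + 1) (by linarith) x
  rw [Set.ncard_eq_toFinset_card _ (s4a_lat_box_finite (K + 1) x)] at h2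
  have e : 2 * (K + 1) + 1 = 2 * K + 3 := by ring
  rwa [e] at h2

theorem s4a_latsum_per (R : ℕ) (γ : (κ → ℤ) → (κ → ℝ) → ℂ) (hper : ∀ n m : κ → ℤ, γ (fun i => n i + (R : ℤ) * m i) = γ n)
    (x : κ → ℝ) (m : κ → ℤ) : s4a_latsum γ (fun i => x i + (R : ℝ) * (m i : ℝ)) = s4a_latsum γ x := by
  unfold s4a_latsum
  rw [← (Equiv.addRight (fun i => (R : ℤ) * m i)).tsum_eq]
  refine tsum_congr fun n => ?_
  show γ (fun i => n i + (R : ℤ) * m i) (fun i => x i + (R : ℝ) * (m i : ℝ) - ((n i + (R : ℤ) * m i : ℤ) : ℝ)) = _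
  rw [hper]
  congr 1
  funext i
  push_cast
  ring

/-- **Fourier expansion of a lattice sum with `R`-periodic coefficient functions.** -/
theorem s4a_lattice_fourier (R : ℕ) (hR : 1 ≤ R) (K : ℝ) (hK : 0 ≤ K) (γ : (κ → ℤ) → (κ → ℝ) → ℂ)
    (hper : ∀ n m : κ → ℤ, γ (fun i => n i + (R : ℤ) * m i) = γ n) (hsm : ∀ n, ContDiff ℝ ∞ (γ n))
    (hsupp : ∀ n x, γ n x ≠ 0 → ∀ i, |x i| ≤ K) (m : ℕ) (hm : 2 * Fintype.card κ ≤ m) (X : ℝ)
    (h0 : ∀ n x, ‖γ n x‖ ≤ X) (hX : ∀ n x, ‖iteratedFDeriv ℝ m (γ n) x‖ ≤ X) :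
    ∃ a : (κ → ℤ) → ℂ, (∀ ℓ, ‖a ℓ‖ * (1 + ‖ℓ‖) ^ m ≤ (2 * K + 3) ^ Fintype.card κ * X * (R : ℝ) ^ m) ∧
      ∀ x, HasSum (fun ℓ : κ → ℤ => a ℓ * ee (∑ i, (ℓ i : ℝ) * x i / (R : ℝ))) (s4a_latsum γ x) := by
  have hX0 : 0 ≤ X := (norm_nonneg _).trans (h0 0 0)
  have hR0 : (0 : ℝ) < R := by exact_mod_cast hR
  have hR1 : (1 : ℝ) ≤ (R : ℝ) ^ m := one_le_pow₀ (by exact_mod_cast hR)
  have hc0 : 0 ≤ (2 * K + 3) ^ Fintype.card κ * X := by positivity
  have hF := s4a_latsum_contDiff K γ hsm hsupp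
  set L : (κ → ℝ) →L[ℝ] (κ → ℝ) := (R : ℝ) • ContinuousLinearMap.id ℝ (κ → ℝ) with hL
  have hLn : ‖L‖ ≤ (R : ℝ) := by
    rw [hL]
    refine (norm_smul_le (R : ℝ) (ContinuousLinearMap.id ℝ (κ → ℝ))).trans ?_
    rw [Real.norm_of_nonneg hR0.le]
    exact mul_le_of_le_one_right hR0.le ContinuousLinearMap.norm_id_le
  have hLx : ∀ x : κ → ℝ, L x = fun i => (R : ℝ) * x i := fun x => rfl
  set G : (κ → ℝ) → ℂ := s4a_latsum γ ∘ L with hG
  have hGs : ContDiff ℝ ∞ G := hF.comp L.contDiff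
  have hGp : s4a_Per G := by
    intro x n
    show s4a_latsum γ (L fun i => x i + (n i : ℝ)) = s4a_latsum γ (L x)
    rw [hLx, hLx, ← s4a_latsum_per R γ hper (fun i => (R : ℝ) * x i) n]
    congr 1
    funext i
    ring
  have hG0 : ∀ x, ‖G x‖ ≤ (2 * K + 3) ^ Fintype.card κ * X * (R : ℝ) ^ m := by
    intro x
    have h1 := s4a_latsum_deriv_le K hK γ hsm hsupp 0 X
      (fun n y => by rw [norm_iteratedFDeriv_zero]; exact h0 n y) (L x)
    rw [norm_iteratedFDeriv_zero] at h1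
    exact h1.trans (le_mul_of_one_le_right hc0 hR1)
  have hGm : ∀ x, ‖iteratedFDeriv ℝ m G x‖ ≤ (2 * K + 3) ^ Fintype.card κ * X * (R : ℝ) ^ m := by
    intro x
    rw [hG, L.iteratedFDeriv_comp_right hF x (by exact_mod_cast le_top)]
    refine (ContinuousMultilinearMap.norm_compContinuousLinearMap_le _ _).trans ?_
    rw [Finset.prod_const, Finset.card_univ, Fintype.card_fin]
    exact mul_le_mul (s4a_latsum_deriv_le K hK γ hsm hsupp m X hX _)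
      (pow_le_pow_left₀ (norm_nonneg _) hLn m) (by positivity) hc0
  obtain ⟨h1, h2⟩ := s4a_periodic_fourier hGs hGp m hm _ hG0 hGm
  refine ⟨s4a_fc G, h1, fun x => ?_⟩
  have h3 := h2 fun i => x i / (R : ℝ)
  have e1 : G (fun i => x i / (R : ℝ)) = s4a_latsum γ x := by
    show s4a_latsum γ (L fun i => x i / (R : ℝ)) = _
    rw [hLx]
    congr 1
    funext i
    field_simp
  rw [e1] at h3
  simpa only [mul_div_assoc] using h3

/-- special case: periodization (period `R`) of ONE smooth function supported in `[-K,K]^κ`; if `2K < R` the periodization coincides with `ψ` on the box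
`[-(R-K), R-K]^κ` (open), in particular on `[-K,K]^κ` -/
theorem s4a_box_fourier (R : ℕ) (hR : 1 ≤ R) (K : ℝ) (hK : 0 ≤ K) (hKR : 2 * K < R) (ψ : (κ → ℝ) → ℂ)
    (hsm : ContDiff ℝ ∞ ψ) (hsupp : ∀ x, ψ x ≠ 0 → ∀ i, |x i| ≤ K) (m : ℕ) (hm : 2 * Fintype.card κ ≤ m) (X : ℝ)
    (h0 : ∀ x, ‖ψ x‖ ≤ X) (hX : ∀ x, ‖iteratedFDeriv ℝ m ψ x‖ ≤ X) :
    ∃ a : (κ → ℤ) → ℂ, (∀ ℓ, ‖a ℓ‖ * (1 + ‖ℓ‖) ^ m ≤ (2 * K + 3) ^ Fintype.card κ * X * (R : ℝ) ^ m) ∧
      ∀ x, (∀ i, |x i| < (R : ℝ) - K) → HasSum (fun ℓ : κ → ℤ => a ℓ * ee (∑ i, (ℓ i : ℝ) * x i / (R : ℝ))) (ψ x) := by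
  classical
  have hX0 : 0 ≤ X := (norm_nonneg _).trans (h0 0)
  set γ : (κ → ℤ) → (κ → ℝ) → ℂ := fun n => if ∀ i, (R : ℤ) ∣ n i then ψ else fun _ => 0 with hγ
  have hper : ∀ n m : κ → ℤ, γ (fun i => n i + (R : ℤ) * m i) = γ n := by
    intro n m
    have e : (∀ i, (R : ℤ) ∣ n i + (R : ℤ) * m i) ↔ ∀ i, (R : ℤ) ∣ n i :=
      forall_congr' fun i => (Int.dvd_add_left (dvd_mul_right _ _))
    simp only [hγ, e]
  have hsm' : ∀ n, ContDiff ℝ ∞ (γ n) := by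
    intro n
    simp only [hγ]
    split_ifs
    · exact hsm
    · exact contDiff_const
  have hsupp' : ∀ n x, γ n x ≠ 0 → ∀ i, |x i| ≤ K := by
    intro n x
    simp only [hγ]
    split_ifs
    · exact hsupp x
    · intro h
      exact absurd rfl h
  have h0' : ∀ n x, ‖γ n x‖ ≤ X := by
    intro n x
    simp only [hγ]
    split_ifs
    · exact h0 x
    · rw [norm_zero]; exact hX0
  have hX' : ∀ n x, ‖iteratedFDeriv ℝ m (γ n) x‖ ≤ X := by
    intro n x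
    simp only [hγ]
    split_ifs
    · exact hX x
    · rw [iteratedFDeriv_fun_zero, Pi.zero_apply, norm_zero]; exact hX0
  obtain ⟨a, ha, hsum⟩ := s4a_lattice_fourier R hR K hK γ hper hsm' hsupp' m hm X h0' hX'
  refine ⟨a, ha, fun x hx => ?_⟩
  have e : s4a_latsum γ x = ψ x := by
    unfold s4a_latsum
    rw [tsum_eq_single 0]
    · simp [hγ]
    · intro n hn
      simp only [hγ]
      split_ifs with hd
      · obtain ⟨i, hi⟩ := Function.ne_iff.1 hn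
        by_contra hne
        have h1 := hsupp _ hne i
        have h2 : (R : ℤ) ≤ |n i| := Int.le_of_dvd (abs_pos.2 hi) ((dvd_abs _ _).2 (hd i))
        have h3 : (R : ℝ) ≤ |(n i : ℝ)| := by
          rw [← Int.cast_abs]
          exact_mod_cast h2
        have h4 : |(n i : ℝ)| ≤ |x i - (n i : ℝ)| + |x i| := by
          have : (n i : ℝ) = -(x i - (n i : ℝ)) + x i := by ring
          calc |(n i : ℝ)| = |-(x i - (n i : ℝ)) + x i| := by rw [← this]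
            _ ≤ |-(x i - (n i : ℝ))| + |x i| := abs_add_le _ _
            _ = _ := by rw [abs_neg]
        linarith [hx i]
      · rfl
  rw [← e]
  exact hsum x

end Claimed.Agent.R258
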