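/-
Row 258, block [S4a] (architect helper78).  FILE Sep: **Lemma 4.5 (progression separation)** for charts.
Leaves: P-S4a-SEPONE (`s4a_sep_num`, `s4a_sub_*`, `s4a_sep_one`), P-S4a-SEPPAIR (`s4a_ap_separation`).
Uses the STATEMENTS of SepAmp.lean, SepAlg.lean, Ops.lean, Br.lean, Lat.lean, Qp.lean, Cut.lean.   Paper: charts.tex l.500-604.

ONE ATOM (`s4a_sep_one`).  `φ(y + p t) = ∑_v c_v ψa_v(y) ψb_v(y + q t) Q_v(t)`, `v ∈ ℤ^(3d)`, where with `sa, sb, st` of SepAlg.lean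
   `ψa_v = s4a_sub φ sa (sa β) (fa v)`,  `ψb_v = s4a_sub φ sb (sb β) (fb v)`,  `Q_v = s4a_sub φ st 0 (ft v)`;   `s4a_sub φ s β' f` = the chart `(θ, s C, s λ, β', f, unit 1)`.
 PLAN.  `S, A` from `s4a_step_exists` (`A` is an absolute constant: obtain it BEFORE choosing `Cq`).  `K = H`, `A₀ = B₀ = H^10` (`s4a_cplx_iff`), `K₁ = H + 7`, `R = ⌈2 K₁ + 1⌉₊ + 1`, `m = M + 6 d`, `N = (2 (K₁+1) + 1)^d`.
   `a` from `s4a_sep_br`;  `fa v = N⁻¹ • s4a_mode S K₁ R (s4a_pa v)` etc.;  `c v = φ.unit * N³ * a v`.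
   Identity: `s4a_eval_eq`, `u = θ y`, `τ = θ t` (`θ_i (y + p t) = θ_i y + p (θ_i t)`), `s4a_sep_sq`, `s4a_sep_lin` for `λ (y+pt)² + β (y+pt)`, `s4a_ee_add`, `s4a_br_const_mul`; `HasSum.mul_left`.
   Bounded: `s4a_br_norm_le` with `K = K₁ + 1`, `X = N⁻¹` (`s4a_mode_norm_le`).   Complexity `D (1 + ‖v‖)`: `s4a_cplx_iff`; heights `≤ 18 H` (`s4a_height_mul_le`, `s4a_sep_height`); support `K₁ + 1 = H + 8`;
   Gevrey constants from `s4a_mode_amp` (times `N⁻¹ ≤ 1`): `2 d A + 2π (1 + d ‖v_a‖) ≤ (2 d A + 7 + 7 d)(1 + ‖v‖)`, `‖s4a_pa v‖ ≤ ‖v‖`; `(A²)^d ≤ D`.  (`X ≤ X^10` for `X ≥ 1`.)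
   Weighted sum: `s4a_lat_weighted` on `s4a_T3 (Fin d)` (`card = 3 d`, `m = M + 2 (3d)`).   All numerics are collected in `s4a_sep_num` (mechanical with Qp.lean, `x = log H ≥ 2`, `d ≤ x`, `A` fixed).
PAIR (`s4a_ap_separation`).  `y = x₀ + a t`, `p = i - a`, `p' = k - a`, `q = b - a` (integers, `|·| ≤ 3`, `q ≠ 0`): `x₀ + i t = y + p t` etc. (push casts `((i : ℕ) : ℝ)`).  Index `X = (ℤ^(3d)) × (ℤ^(3d'))`, `c (v,v') = c_v c'_{v'}`, `T (v,v') = (1+‖v‖)(1+‖v'‖)`,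
   `ψa (v,v') = s4a_mul (ψa_v) (ψa'_{v'})` etc. (`s4a_mul_eval/_cplx/_bdd/_d`); products of the two `HasSum`s: both families are absolutely summable (terms bounded by `‖c v‖`): `HasSum.mul_of_summable_norm`-type (`summable_mul_of_summable_norm`,
   `tsum_mul_tsum_of_summable_norm`); weighted sum of the product `=` product of the weighted sums `≤ D²`;  shells: `T ≤ T₀ ⟹ ‖v‖, ‖v'‖ < T₀`: `s4a_lat_ball_card`.
-/
import Claimed.Agent.R258.S4a.SepAmp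
import Claimed.Agent.R258.S4a.Ops
import Claimed.Agent.R258.S4a.QpAuto
import Claimed.Agent.R258.Pack006

set_option autoImplicit false
open MeasureTheory
open scoped ENNReal ContDiff ComplexConjugate

namespace Claimed.Agent.R258

/-- the chart `(θ, s C, s λ, β', f, 1)` derived from `φ` -/
noncomputable def s4a_sub (φ : Chart) (s : ℚ) (bet' : ℝ) (f : (Fin φ.d → ℝ) → ℂ) : Chart where
  d := φ.d
  th := φ.th
  C := s • φ.C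
  lam := (s : ℝ) * φ.lam
  bet := bet'
  chi := f
  unit := 1

theorem s4a_sub_eval (φ : Chart) (s : ℚ) (bet' : ℝ) (f : (Fin φ.d → ℝ) → ℂ) (y : ℝ) :
    (s4a_sub φ s bet' f).eval y = ee ((s : ℝ) * φ.lam * y ^ 2 + bet' * y) * s4a_br (s • φ.C) f (fun i => φ.th i * y) := by
  show (1 : ℂ) * ee ((s : ℝ) * φ.lam * y ^ 2 + bet' * y) * s4a_br (s • φ.C) f (fun i => φ.th i * y) = _
  rw [one_mul]

theorem s4a_le_pow_ten {x : ℝ} (hx : 1 ≤ x) : x ≤ x ^ 10 := by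
  calc x = x ^ 1 := (pow_one x).symm
    _ ≤ x ^ 10 := pow_le_pow_right₀ hx (by norm_num)

/-- complexity of the separated factors -/
theorem s4a_sub_mode_cplx {A : ℝ} {S : ℝ → ℝ} (hS : s4a_Step A S) {φ : Chart} {H : ℝ} (hφ : φ.Cplx H) (s : ℚ)
    (hs : qHeight s ≤ 18) (bet' : ℝ) (R : ℕ) (hR1 : 1 ≤ R) (v' : Fin φ.d → ℤ) (c : ℂ) (hc : ‖c‖ ≤ 1) (T D : ℝ)
    (hT : 1 + ‖v'‖ ≤ T) (hD1 : 18 * H ≤ D) (hD2 : H + 8 ≤ D) (hD3 : 2 * (φ.d : ℝ) * A + 7 + 7 * (φ.d : ℝ) ≤ D)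
    (hD4 : (A ^ 2) ^ φ.d ≤ D) :
    (s4a_sub φ s bet' (fun w => c * s4a_mode S (H + 7) R v' w)).Cplx (D * T) := by
  obtain ⟨hH, hd, hC, -, -⟩ := (s4a_cplx_iff φ H).1 hφ
  have hA1 := hS.A_ge
  have hA0 : 0 ≤ A := by linarith
  have he : (1 : ℝ) ≤ Real.exp 2 := Real.one_le_exp (by norm_num)
  have hH1 : 1 ≤ H := le_trans he hH
  have hv0 : 0 ≤ ‖v'‖ := norm_nonneg _
  have hT1 : 1 ≤ T := by linarith
  have hDH : H ≤ D := by linarith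
  have hD1' : 1 ≤ D := by linarith
  have hDT : D ≤ D * T := by nlinarith
  have hDT1 : 1 ≤ D * T := by linarith
  rw [s4a_cplx_iff]
  refine ⟨by linarith, ?_, ?_, ?_, by simp [s4a_sub]⟩
  · refine le_trans hd (Real.log_le_log (by linarith) (by linarith))
  · intro (i : Fin φ.d) (j : Fin φ.d)
    have h1 : qHeight ((s • φ.C) i j) ≤ qHeight s * qHeight (φ.C i j) := by
      rw [Matrix.smul_apply, smul_eq_mul]
      exact s4a_height_mul_le _ _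
    have h2 : ((qHeight ((s • φ.C) i j) : ℕ) : ℝ) ≤ (qHeight s : ℝ) * (qHeight (φ.C i j) : ℝ) := by exact_mod_cast h1
    have h3 : (qHeight s : ℝ) ≤ 18 := by exact_mod_cast hs
    have h4 := hC i j
    have h5 : (0 : ℝ) ≤ (qHeight (φ.C i j) : ℝ) := by positivity
    calc ((qHeight ((s4a_sub φ s bet' (fun w => c * s4a_mode S (H + 7) R v' w)).C i j) : ℕ) : ℝ)
        = ((qHeight ((s • φ.C) i j) : ℕ) : ℝ) := rfl
      _ ≤ (qHeight s : ℝ) * (qHeight (φ.C i j) : ℝ) := h2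
      _ ≤ 18 * H := by nlinarith
      _ ≤ D * T := by linarith
  · have hm := s4a_mode_amp hS (H + 7) R hR1 v'
    have hg := hm.gev.const_mul c
    have hamp : s4a_Amp (H + 7 + 1) (2 * (Fintype.card (Fin φ.d) : ℝ) * A + 2 * Real.pi * (1 + (Fintype.card (Fin φ.d) : ℝ) * ‖v'‖))
        (‖c‖ * (A ^ 2) ^ Fintype.card (Fin φ.d)) (fun w => c * s4a_mode S (H + 7) R v' w) :=
      ⟨hg, fun x hx i => hm.supp x (right_ne_zero_of_mul hx) i⟩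
    simp only [Fintype.card_fin] at hamp
    have hpi : 2 * Real.pi ≤ 7 := by have := Real.pi_lt_d2; linarith
    have hd0 : (0 : ℝ) ≤ (φ.d : ℝ) := by positivity
    refine hamp.mono (by positivity) (by positivity) (by linarith) ?_ ?_
    · refine le_trans ?_ (s4a_le_pow_ten hDT1)
      have h1 : 2 * Real.pi * (1 + (φ.d : ℝ) * ‖v'‖) ≤ 7 * (1 + (φ.d : ℝ) * ‖v'‖) := by
        apply mul_le_mul_of_nonneg_right hpi (by positivity)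
      have h2 : 2 * (φ.d : ℝ) * A + 7 * (1 + (φ.d : ℝ) * ‖v'‖) ≤ (2 * (φ.d : ℝ) * A + 7 + 7 * (φ.d : ℝ)) * (1 + ‖v'‖) := by
        have : 0 ≤ (φ.d : ℝ) * A * ‖v'‖ := by positivity
        nlinarith
      have h3 : (2 * (φ.d : ℝ) * A + 7 + 7 * (φ.d : ℝ)) * (1 + ‖v'‖) ≤ D * T := by
        apply mul_le_mul hD3 hT (by positivity) (by linarith)
      linarith
    · refine le_trans ?_ (s4a_le_pow_ten hDT1)
      have h0 : 0 ≤ (A ^ 2) ^ φ.d := by positivity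
      calc ‖c‖ * (A ^ 2) ^ φ.d ≤ 1 * (A ^ 2) ^ φ.d := by gcongr
        _ ≤ D * T := by linarith

/-- the separated factors are bounded -/
theorem s4a_sub_mode_bdd {A : ℝ} {S : ℝ → ℝ} (hS : s4a_Step A S) (φ : Chart) {H : ℝ} (hH : 0 ≤ H) (s : ℚ)
    (bet' : ℝ) (R : ℕ) (hR1 : 1 ≤ R) (v' : Fin φ.d → ℤ) :
    (s4a_sub φ s bet' (fun w => (((2 * (H + 8) + 1) ^ φ.d : ℝ) : ℂ)⁻¹ * s4a_mode S (H + 7) R v' w)).Bdd := by
  intro y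
  rw [s4a_sub_eval, norm_mul, s4a_ee_norm, one_mul, s4a_br_const_mul, norm_mul]
  have hm := s4a_mode_amp hS (H + 7) R hR1 v'
  have h1 := s4a_br_norm_le (s • φ.C) (K := H + 7 + 1) (X := 1) (by linarith) (by norm_num) hm.supp
    (fun x => s4a_mode_norm_le hS (H + 7) R v' x) (fun i => φ.th i * y)
  simp only [Fintype.card_fin, mul_one] at h1
  have e : 2 * (H + 7 + 1) + 1 = 2 * (H + 8) + 1 := by ring
  rw [e] at h1
  have hN : 0 < (2 * (H + 8) + 1) ^ φ.d := by positivity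
  rw [norm_inv, Complex.norm_real, Real.norm_of_nonneg hN.le]
  calc ((2 * (H + 8) + 1) ^ φ.d)⁻¹ * ‖s4a_br (s • φ.C) (s4a_mode S (H + 7) R v') fun i => φ.th i * y‖
      ≤ ((2 * (H + 8) + 1) ^ φ.d)⁻¹ * (2 * (H + 8) + 1) ^ φ.d := by gcongr
    _ = 1 := inv_mul_cancel₀ hN.ne'


/-- numerics of the one-atom separation; `A` = the constant of the step function -/
theorem s4a_sep_num (M : ℕ) (A : ℝ) (hA : 1 ≤ A) : ∃ Cq : ℕ, ∀ (d : ℕ) (H : ℝ) (R : ℕ), Real.exp 2 ≤ H →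
    (d : ℝ) ≤ Real.log H → (R : ℝ) ≤ 2 * (H + 7) + 3 →
    18 * H ≤ s4b_qp Cq (Real.log H) ∧ H + 8 ≤ s4b_qp Cq (Real.log H) ∧
    2 * (d : ℝ) * A + 7 + 7 * (d : ℝ) ≤ s4b_qp Cq (Real.log H) ∧ (A ^ 2) ^ d ≤ s4b_qp Cq (Real.log H) ∧
    4 ^ (3 * d) * (((2 * (H + 8) + 1) ^ d) ^ 3 * ((2 * (H + 7) + 3) ^ (3 * d) *
        (H ^ 10 * (2 * A) ^ d * (A ^ 2) ^ d * (1 + 4 * H ^ 10 + 21 * (d : ℝ) * A) ^ (M + 6 * d) * s4a_w (M + 6 * d)) *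
        (R : ℝ) ^ (M + 6 * d))) ≤ s4b_qp Cq (Real.log H) := by
  have hA0 : 0 ≤ A := by linarith
  let V : ℕ × ℝ × ℕ → Prop := fun p => Real.exp 2 ≤ p.2.1 ∧ (p.1 : ℝ) ≤ Real.log p.2.1 ∧ (p.2.2 : ℝ) ≤ 2 * (p.2.1 + 7) + 3
  let x : ℕ × ℝ × ℕ → ℝ := fun p => Real.log p.2.1
  have hH1 : ∀ p, V p → 1 ≤ p.2.1 := fun p hp => le_trans (Real.one_le_exp (by norm_num)) hp.1
  have hx : ∀ p, V p → 0 ≤ x p := fun p hp => Real.log_nonneg (hH1 p hp)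
  have c : ∀ c : ℝ, 0 ≤ c → s4a_IsQP V x (fun _ => c) := fun c hc => s4a_IsQP.const hx c hc
  have cp : ∀ c : ℝ, 0 ≤ c → s4a_IsPL V x (fun _ => c) := fun c hc => s4a_IsPL.const hx c hc
  have qH : s4a_IsQP V x (fun p => p.2.1) :=
    s4a_IsQP.of_log (s4a_IsPL.size hx) (fun p hp => by linarith [hH1 p hp]) (fun p _ => le_rfl)
  have pd : s4a_IsPL V x (fun p => (p.1 : ℝ)) := (s4a_IsPL.size hx).mono (fun p _ => Nat.cast_nonneg _) (fun p hp => hp.2.1)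
  have qd : s4a_IsQP V x (fun p => (p.1 : ℝ)) := s4a_IsQP.of_pl hx pd
  have qR : s4a_IsQP V x (fun p => (p.2.2 : ℝ)) :=
    (((c 2 (by norm_num)).mul hx (qH.add hx (c 7 (by norm_num)))).add hx (c 3 (by norm_num))).mono
      (fun p _ => Nat.cast_nonneg _) (fun p hp => hp.2.2)
  have p3d : s4a_IsPL V x (fun p => ((3 * p.1 : ℕ) : ℝ)) :=
    ((cp 3 (by norm_num)).mul hx pd).mono (fun p _ => Nat.cast_nonneg _) (fun p _ => by push_cast; exact le_rfl)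
  have pm : s4a_IsPL V x (fun p => ((M + 6 * p.1 : ℕ) : ℝ)) :=
    ((cp M (Nat.cast_nonneg _)).add hx ((cp 6 (by norm_num)).mul hx pd)).mono (fun p _ => Nat.cast_nonneg _)
      (fun p _ => by push_cast; exact le_rfl)
  have f1 : s4a_IsQP V x (fun p => 18 * p.2.1) := (c 18 (by norm_num)).mul hx qH
  have f2 : s4a_IsQP V x (fun p => p.2.1 + 8) := qH.add hx (c 8 (by norm_num))
  have f3 : s4a_IsQP V x (fun p => 2 * (p.1 : ℝ) * A + 7 + 7 * (p.1 : ℝ)) :=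
    ((((c 2 (by norm_num)).mul hx qd).mul hx (c A hA0)).add hx (c 7 (by norm_num))).add hx ((c 7 (by norm_num)).mul hx qd)
  have f4 : s4a_IsQP V x (fun p => (A ^ 2) ^ p.1) := (c (A ^ 2) (by positivity)).pow hx pd
  have f5 : s4a_IsQP V x (fun p => 4 ^ (3 * p.1) * (((2 * (p.2.1 + 8) + 1) ^ p.1) ^ 3 * ((2 * (p.2.1 + 7) + 3) ^ (3 * p.1) *
        (p.2.1 ^ 10 * (2 * A) ^ p.1 * (A ^ 2) ^ p.1 * (1 + 4 * p.2.1 ^ 10 + 21 * (p.1 : ℝ) * A) ^ (M + 6 * p.1) * s4a_w (M + 6 * p.1)) *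
        (p.2.2 : ℝ) ^ (M + 6 * p.1)))) := by
    refine ((c 4 (by norm_num)).pow hx p3d).mul hx (s4a_IsQP.mul hx ?_ (s4a_IsQP.mul hx (s4a_IsQP.mul hx ?_ ?_) (qR.pow hx pm)))
    · exact ((((c 2 (by norm_num)).mul hx (qH.add hx (c 8 (by norm_num)))).add hx (c 1 (by norm_num))).pow hx pd).pow_const hx 3
    · exact (((c 2 (by norm_num)).mul hx (qH.add hx (c 7 (by norm_num)))).add hx (c 3 (by norm_num))).pow hx p3d
    · refine s4a_IsQP.mul hx (s4a_IsQP.mul hx (s4a_IsQP.mul hx (s4a_IsQP.mul hx (qH.pow_const hx 10) ?_) f4) ?_) (s4a_IsQP.w hx pm)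
      · exact (c (2 * A) (by positivity)).pow hx pd
      · exact (((c 1 (by norm_num)).add hx ((c 4 (by norm_num)).mul hx (qH.pow_const hx 10))).add hx
          (((c 21 (by norm_num)).mul hx qd).mul hx (c A hA0))).pow hx pm
  obtain ⟨C1, h1⟩ := f1
  obtain ⟨C2, h2⟩ := f2
  obtain ⟨C3, h3⟩ := f3
  obtain ⟨C4, h4⟩ := f4
  obtain ⟨C5, h5⟩ := f5
  refine ⟨C1 + C2 + C3 + C4 + C5, ?_⟩
  intro d H R hH hd hR
  have hV : V (d, H, R) := ⟨hH, hd, hR⟩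
  have hx0 := hx _ hV
  refine ⟨le_trans (h1 _ hV).2 (s4a_qp_mono (by omega) hx0 le_rfl), le_trans (h2 _ hV).2 (s4a_qp_mono (by omega) hx0 le_rfl),
    le_trans (h3 _ hV).2 (s4a_qp_mono (by omega) hx0 le_rfl), le_trans (h4 _ hV).2 (s4a_qp_mono (by omega) hx0 le_rfl),
    le_trans (h5 _ hV).2 (s4a_qp_mono (by omega) hx0 le_rfl)⟩

theorem s4a_norm_pa_le {ι : Type} [Fintype ι] (v : s4a_T3 ι → ℤ) : ‖s4a_pa v‖ ≤ ‖v‖ := by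
  rw [pi_norm_le_iff_of_nonneg (norm_nonneg _)]
  intro i
  exact norm_le_pi_norm v (Sum.inl i)

theorem s4a_norm_pb_le {ι : Type} [Fintype ι] (v : s4a_T3 ι → ℤ) : ‖s4a_pb v‖ ≤ ‖v‖ := by
  rw [pi_norm_le_iff_of_nonneg (norm_nonneg _)]
  intro i
  exact norm_le_pi_norm v (Sum.inr (Sum.inl i))

theorem s4a_norm_pt_le {ι : Type} [Fintype ι] (v : s4a_T3 ι → ℤ) : ‖s4a_pt v‖ ≤ ‖v‖ := by
  rw [pi_norm_le_iff_of_nonneg (norm_nonneg _)]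
  intro i
  exact norm_le_pi_norm v (Sum.inr (Sum.inr i))

/-- **Lemma 4.5 for one atom.** -/
theorem s4a_sep_one (M : ℕ) : ∃ Cq : ℕ, ∀ (p q : ℤ), q ≠ 0 → |p| ≤ 3 → |q| ≤ 3 → ∀ (φ : Chart) (H : ℝ), φ.Cplx H →
    ∃ (c : (s4a_T3 (Fin φ.d) → ℤ) → ℂ) (fa fb ft : (s4a_T3 (Fin φ.d) → ℤ) → (Fin φ.d → ℝ) → ℂ),
      Summable (fun v => ‖c v‖ * (1 + ‖v‖) ^ M) ∧ ∑' v, ‖c v‖ * (1 + ‖v‖) ^ M ≤ s4b_qp Cq (Real.log H) ∧
      (∀ v, (s4a_sub φ (s4a_sa p q) ((s4a_sa p q : ℝ) * φ.bet) (fa v)).Cplx (s4b_qp Cq (Real.log H) * (1 + ‖v‖)) ∧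
            (s4a_sub φ (s4a_sb p q) ((s4a_sb p q : ℝ) * φ.bet) (fb v)).Cplx (s4b_qp Cq (Real.log H) * (1 + ‖v‖)) ∧
            (s4a_sub φ (s4a_st p q) 0 (ft v)).Cplx (s4b_qp Cq (Real.log H) * (1 + ‖v‖))) ∧
      (∀ v, (s4a_sub φ (s4a_sa p q) ((s4a_sa p q : ℝ) * φ.bet) (fa v)).Bdd ∧
            (s4a_sub φ (s4a_sb p q) ((s4a_sb p q : ℝ) * φ.bet) (fb v)).Bdd ∧ (s4a_sub φ (s4a_st p q) 0 (ft v)).Bdd) ∧
      ∀ y t : ℝ, HasSum (fun v => c v * ((s4a_sub φ (s4a_sa p q) ((s4a_sa p q : ℝ) * φ.bet) (fa v)).eval y *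
          ((s4a_sub φ (s4a_sb p q) ((s4a_sb p q : ℝ) * φ.bet) (fb v)).eval (y + (q : ℝ) * t) *
            (s4a_sub φ (s4a_st p q) 0 (ft v)).eval t))) (φ.eval (y + (p : ℝ) * t)) := by
  obtain ⟨A, S, hS⟩ := s4a_step_exists
  obtain ⟨Cq, hnum⟩ := s4a_sep_num M A hS.A_ge
  refine ⟨Cq, ?_⟩
  intro p q hq hp3 hq3 φ H hφ
  obtain ⟨hH, hd, hC, hamp, hunit⟩ := (s4a_cplx_iff φ H).1 hφ
  have he : (1 : ℝ) ≤ Real.exp 2 := Real.one_le_exp (by norm_num)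
  have hH1 : 1 ≤ H := le_trans he hH
  have hH0 : 0 ≤ H := by linarith
  set R : ℕ := ⌈2 * (H + 7) + 1⌉₊ + 1 with hRdef
  have hRgt : 2 * (H + 7) + 1 < (R : ℝ) := by
    have := Nat.le_ceil (2 * (H + 7) + 1)
    rw [hRdef]; push_cast; linarith
  have hRle : (R : ℝ) ≤ 2 * (H + 7) + 3 := by
    have := Nat.ceil_lt_add_one (by positivity : 0 ≤ 2 * (H + 7) + 1)
    rw [hRdef]; push_cast; linarith
  have hR1 : 1 ≤ R := by rw [hRdef]; omega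
  obtain ⟨hD1, hD2, hD3, hD4, hD5⟩ := hnum φ.d H R hH hd hRle
  set D := s4b_qp Cq (Real.log H) with hD
  set m := M + 6 * φ.d with hm
  obtain ⟨a, ha1, ha2⟩ := s4a_sep_br hS p q hq hp3 hq3 φ.C hH0 (by positivity) (by positivity) hamp R hRgt m
    (by rw [Fintype.card_fin, hm]; omega)
  simp only [Fintype.card_fin] at ha1
  set N : ℝ := (2 * (H + 8) + 1) ^ φ.d with hN
  have hN0 : 0 < N := by positivity
  have hN1 : 1 ≤ N := one_le_pow₀ (by linarith)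
  have hcN : ‖((N : ℝ) : ℂ)⁻¹‖ ≤ 1 := by
    rw [norm_inv, Complex.norm_real, Real.norm_of_nonneg hN0.le]
    exact inv_le_one_of_one_le₀ hN1
  obtain ⟨hsa, hsb, hst⟩ := s4a_sep_height p q hq hp3 hq3
  have hA0 : 0 ≤ A := by linarith [hS.A_ge]
  have hsum : Summable (fun v => ‖φ.unit * (N : ℂ) ^ 3 * a v‖ * (1 + ‖v‖) ^ M) ∧
      ∑' v, ‖φ.unit * (N : ℂ) ^ 3 * a v‖ * (1 + ‖v‖) ^ M ≤ D := by
    have hcard : M + 2 * Fintype.card (s4a_T3 (Fin φ.d)) = m := by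
      rw [s4a_card_T3, Fintype.card_fin, hm]; ring
    have hw0 : 0 ≤ s4a_w m := (s4a_w_pos m).le
    set X₁ : ℝ := (2 * (H + 7) + 3) ^ (3 * φ.d) *
          (H ^ 10 * (2 * A) ^ φ.d * (A ^ 2) ^ φ.d * (1 + 4 * H ^ 10 + 21 * (φ.d : ℝ) * A) ^ m * s4a_w m) *
        (R : ℝ) ^ m with hX₁
    have hX₁0 : 0 ≤ X₁ := by positivity
    obtain ⟨hs1, hs2⟩ := s4a_lat_weighted a M X₁ hX₁0 (by rw [hcard]; exact ha1)
    have e : (fun v => ‖φ.unit * (N : ℂ) ^ 3 * a v‖ * (1 + ‖v‖) ^ M) = fun v => N ^ 3 * (‖a v‖ * (1 + ‖v‖) ^ M) := by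
      funext v
      rw [norm_mul, norm_mul, hunit, norm_pow, Complex.norm_real, Real.norm_of_nonneg hN0.le]
      ring
    rw [e, tsum_mul_left]
    refine ⟨hs1.mul_left _, ?_⟩
    rw [s4a_card_T3, Fintype.card_fin] at hs2
    refine le_trans ?_ hD5
    calc N ^ 3 * ∑' v, ‖a v‖ * (1 + ‖v‖) ^ M ≤ N ^ 3 * (4 ^ (3 * φ.d) * X₁) := by gcongr
      _ = 4 ^ (3 * φ.d) * (N ^ 3 * X₁) := by ring
  refine ⟨fun v => φ.unit * (N : ℂ) ^ 3 * a v, fun v w => ((N : ℝ) : ℂ)⁻¹ * s4a_mode S (H + 7) R (s4a_pa v) w,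
    fun v w => ((N : ℝ) : ℂ)⁻¹ * s4a_mode S (H + 7) R (s4a_pb v) w,
    fun v w => ((N : ℝ) : ℂ)⁻¹ * s4a_mode S (H + 7) R (s4a_pt v) w, ?_, ?_, ?_, ?_, ?_⟩
  · exact hsum.1
  · exact hsum.2
  · intro v
    refine ⟨s4a_sub_mode_cplx hS hφ _ hsa _ R hR1 _ _ hcN _ D ?_ hD1 hD2 hD3 hD4,
      s4a_sub_mode_cplx hS hφ _ hsb _ R hR1 _ _ hcN _ D ?_ hD1 hD2 hD3 hD4,
      s4a_sub_mode_cplx hS hφ _ hst _ R hR1 _ _ hcN _ D ?_ hD1 hD2 hD3 hD4⟩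
    · have := s4a_norm_pa_le v; linarith
    · have := s4a_norm_pb_le v; linarith
    · have := s4a_norm_pt_le v; linarith
  · intro v
    exact ⟨s4a_sub_mode_bdd hS φ hH0 _ _ R hR1 _, s4a_sub_mode_bdd hS φ hH0 _ _ R hR1 _,
      s4a_sub_mode_bdd hS φ hH0 _ _ R hR1 _⟩
  · intro y t
    have h := (ha2 (fun i => φ.th i * y) (fun i => φ.th i * t)).mul_left
      (φ.unit * ee (φ.lam * (y + (p : ℝ) * t) ^ 2 + φ.bet * (y + (p : ℝ) * t)))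
    have e1 : (fun i => φ.th i * y + (p : ℝ) * (φ.th i * t)) = fun i => φ.th i * (y + (p : ℝ) * t) := by
      funext i; ring
    have e2 : (fun i => φ.th i * y + (q : ℝ) * (φ.th i * t)) = fun i => φ.th i * (y + (q : ℝ) * t) := by
      funext i; ring
    rw [e1, e2, ← s4a_eval_eq] at h
    have hNc : ((N : ℝ) : ℂ) ≠ 0 := by exact_mod_cast hN0.ne'
    have hph : ee (φ.lam * (y + (p : ℝ) * t) ^ 2 + φ.bet * (y + (p : ℝ) * t)) =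
        ee ((s4a_sa p q : ℝ) * φ.lam * y ^ 2 + (s4a_sa p q : ℝ) * φ.bet * y) *
          (ee ((s4a_sb p q : ℝ) * φ.lam * (y + (q : ℝ) * t) ^ 2 + (s4a_sb p q : ℝ) * φ.bet * (y + (q : ℝ) * t)) *
            ee ((s4a_st p q : ℝ) * φ.lam * t ^ 2 + 0 * t)) := by
      rw [← s4a_ee_add, ← s4a_ee_add]
      congr 1
      have h1 := s4a_sep_sq p q hq y t
      have h2 := s4a_sep_lin p q hq y t
      calc φ.lam * (y + (p : ℝ) * t) ^ 2 + φ.bet * (y + (p : ℝ) * t)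
          = φ.lam * ((s4a_sa p q : ℝ) * y ^ 2 + (s4a_sb p q : ℝ) * (y + (q : ℝ) * t) ^ 2 + (s4a_st p q : ℝ) * t ^ 2) +
            φ.bet * ((s4a_sa p q : ℝ) * y + (s4a_sb p q : ℝ) * (y + (q : ℝ) * t)) := by rw [← h1, ← h2]
        _ = _ := by ring
    have e3 : (fun v => φ.unit * (N : ℂ) ^ 3 * a v *
        ((s4a_sub φ (s4a_sa p q) ((s4a_sa p q : ℝ) * φ.bet) (fun w => ((N : ℝ) : ℂ)⁻¹ * s4a_mode S (H + 7) R (s4a_pa v) w)).eval y *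
          ((s4a_sub φ (s4a_sb p q) ((s4a_sb p q : ℝ) * φ.bet) (fun w => ((N : ℝ) : ℂ)⁻¹ * s4a_mode S (H + 7) R (s4a_pb v) w)).eval (y + (q : ℝ) * t) *
            (s4a_sub φ (s4a_st p q) 0 (fun w => ((N : ℝ) : ℂ)⁻¹ * s4a_mode S (H + 7) R (s4a_pt v) w)).eval t))) = fun v =>
        φ.unit * ee (φ.lam * (y + (p : ℝ) * t) ^ 2 + φ.bet * (y + (p : ℝ) * t)) * (a v *
          (s4a_br (s4a_sa p q • φ.C) (s4a_mode S (H + 7) R (s4a_pa v)) (fun i => φ.th i * y) *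
            (s4a_br (s4a_sb p q • φ.C) (s4a_mode S (H + 7) R (s4a_pb v)) (fun i => φ.th i * (y + (q : ℝ) * t)) *
              s4a_br (s4a_st p q • φ.C) (s4a_mode S (H + 7) R (s4a_pt v)) fun i => φ.th i * t))) := by
      funext v
      rw [s4a_sub_eval, s4a_sub_eval, s4a_sub_eval, s4a_br_const_mul, s4a_br_const_mul, s4a_br_const_mul, hph]
      field_simp
    rw [e3]
    exact h

theorem s4a_fin4_diff (i a : Fin 4) : |((i : ℕ) : ℤ) - ((a : ℕ) : ℤ)| ≤ 3 := by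
  have h1 := i.isLt
  have h2 := a.isLt
  rw [abs_le]
  constructor <;> omega

/-- product of two absolutely convergent expansions -/
theorem s4a_hasSum_prod {X Y : Type} {f : X → ℂ} {g : Y → ℂ} {s t : ℂ} (hf : HasSum f s) (hg : HasSum g t)
    (hf' : Summable fun x => ‖f x‖) (hg' : Summable fun y => ‖g y‖) :
    HasSum (fun z : X × Y => f z.1 * g z.2) (s * t) :=
  hf.mul hg (summable_mul_of_summable_norm hf' hg')

/-- abstract product of two separated expansions -/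
theorem s4a_sep_prod (M : ℕ) {ι ι' : Type} [Fintype ι] [Fintype ι'] (n n' : ℕ) (D1 D : ℝ) (hD1 : 0 ≤ D1) (hDD : D1 * D1 ≤ D)
    (c : (ι → ℤ) → ℂ) (c' : (ι' → ℤ) → ℂ) (A B Q : (ι → ℤ) → Chart) (A' B' Q' : (ι' → ℤ) → Chart)
    (hs : Summable (fun v => ‖c v‖ * (1 + ‖v‖) ^ M)) (hsum : ∑' v, ‖c v‖ * (1 + ‖v‖) ^ M ≤ D1)
    (hs' : Summable (fun v => ‖c' v‖ * (1 + ‖v‖) ^ M)) (hsum' : ∑' v, ‖c' v‖ * (1 + ‖v‖) ^ M ≤ D1)
    (hcp : ∀ v, (A v).Cplx (D1 * (1 + ‖v‖)) ∧ (B v).Cplx (D1 * (1 + ‖v‖)) ∧ (Q v).Cplx (D1 * (1 + ‖v‖)))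
    (hcp' : ∀ v, (A' v).Cplx (D1 * (1 + ‖v‖)) ∧ (B' v).Cplx (D1 * (1 + ‖v‖)) ∧ (Q' v).Cplx (D1 * (1 + ‖v‖)))
    (hbd : ∀ v, (A v).Bdd ∧ (B v).Bdd ∧ (Q v).Bdd) (hbd' : ∀ v, (A' v).Bdd ∧ (B' v).Bdd ∧ (Q' v).Bdd)
    (hd : ∀ v, (A v).d = n ∧ (B v).d = n ∧ (Q v).d = n) (hd' : ∀ v, (A' v).d = n' ∧ (B' v).d = n' ∧ (Q' v).d = n')
    (hcard : Fintype.card ι = 3 * n) (hcard' : Fintype.card ι' = 3 * n') :
    ∃ (X : Type) (_ : Countable X) (e : X → ℂ) (T : X → ℝ) (ψa ψb R : X → Chart),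
      (∀ x, 1 ≤ T x) ∧
      Summable (fun x => ‖e x‖ * T x ^ M) ∧ ∑' x, ‖e x‖ * T x ^ M ≤ D ∧
      (∀ x, (ψa x).Cplx (D * T x) ∧ (ψb x).Cplx (D * T x) ∧ (R x).Cplx (D * T x)) ∧
      (∀ x, (ψa x).Bdd ∧ (ψb x).Bdd ∧ (R x).Bdd) ∧
      (∀ x, (ψa x).d = n + n' ∧ (ψb x).d = n + n' ∧ (R x).d = n + n') ∧
      (∀ T₀ : ℝ, 1 ≤ T₀ → {x | T x ≤ T₀}.Finite ∧ (Set.ncard {x | T x ≤ T₀} : ℝ) ≤ (3 * T₀) ^ (3 * (n + n'))) ∧
      ∀ (ya yb t : ℝ) (z z' : ℂ), HasSum (fun v => c v * ((A v).eval ya * ((B v).eval yb * (Q v).eval t))) z →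
        HasSum (fun v => c' v * ((A' v).eval ya * ((B' v).eval yb * (Q' v).eval t))) z' →
        HasSum (fun x => e x * ((ψa x).eval ya * ((ψb x).eval yb * (R x).eval t))) (z * z') := by
  have hT1 : ∀ x : (ι → ℤ) × (ι' → ℤ), 1 ≤ (1 + ‖x.1‖) * (1 + ‖x.2‖) := by
    intro x
    have h1 := norm_nonneg x.1
    have h2 := norm_nonneg x.2
    nlinarith
  have hmono : ∀ (x : (ι → ℤ) × (ι' → ℤ)), D1 * (1 + ‖x.1‖) * (D1 * (1 + ‖x.2‖)) ≤ D * ((1 + ‖x.1‖) * (1 + ‖x.2‖)) := by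
    intro x
    have h0 : 0 ≤ (1 + ‖x.1‖) * (1 + ‖x.2‖) := by linarith [hT1 x]
    calc D1 * (1 + ‖x.1‖) * (D1 * (1 + ‖x.2‖)) = D1 * D1 * ((1 + ‖x.1‖) * (1 + ‖x.2‖)) := by ring
      _ ≤ D * ((1 + ‖x.1‖) * (1 + ‖x.2‖)) := by gcongr
  have hfun : (fun x : (ι → ℤ) × (ι' → ℤ) => ‖c x.1 * c' x.2‖ * ((1 + ‖x.1‖) * (1 + ‖x.2‖)) ^ M)
      = fun x => (‖c x.1‖ * (1 + ‖x.1‖) ^ M) * (‖c' x.2‖ * (1 + ‖x.2‖) ^ M) := by
    funext x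
    rw [norm_mul, mul_pow]
    ring
  have hn0 : ∀ v : ι → ℤ, 0 ≤ ‖c v‖ * (1 + ‖v‖) ^ M := fun v => by positivity
  have hn0' : ∀ v : ι' → ℤ, 0 ≤ ‖c' v‖ * (1 + ‖v‖) ^ M := fun v => by positivity
  have hsp : Summable (fun x : (ι → ℤ) × (ι' → ℤ) => (‖c x.1‖ * (1 + ‖x.1‖) ^ M) * (‖c' x.2‖ * (1 + ‖x.2‖) ^ M)) :=
    hs.mul_of_nonneg hs' hn0 hn0'
  refine ⟨(ι → ℤ) × (ι' → ℤ), inferInstance, fun x => c x.1 * c' x.2, fun x => (1 + ‖x.1‖) * (1 + ‖x.2‖),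
    fun x => s4a_mul (A x.1) (A' x.2), fun x => s4a_mul (B x.1) (B' x.2), fun x => s4a_mul (Q x.1) (Q' x.2),
    hT1, ?_, ?_, ?_, ?_, ?_, ?_, ?_⟩
  · rw [hfun]; exact hsp
  · rw [hfun, ← hs.tsum_mul_tsum hs' hsp]
    refine le_trans ?_ hDD
    exact mul_le_mul hsum hsum' (tsum_nonneg hn0') hD1
  · intro x
    exact ⟨s4a_cplx_mono (s4a_mul_cplx (hcp x.1).1 (hcp' x.2).1) (hmono x),
      s4a_cplx_mono (s4a_mul_cplx (hcp x.1).2.1 (hcp' x.2).2.1) (hmono x),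
      s4a_cplx_mono (s4a_mul_cplx (hcp x.1).2.2 (hcp' x.2).2.2) (hmono x)⟩
  · intro x
    exact ⟨s4a_mul_bdd (hcp x.1).1 (hcp' x.2).1 (hbd x.1).1 (hbd' x.2).1,
      s4a_mul_bdd (hcp x.1).2.1 (hcp' x.2).2.1 (hbd x.1).2.1 (hbd' x.2).2.1,
      s4a_mul_bdd (hcp x.1).2.2 (hcp' x.2).2.2 (hbd x.1).2.2 (hbd' x.2).2.2⟩
  · intro x
    simp only [s4a_mul_d]
    rw [(hd x.1).1, (hd x.1).2.1, (hd x.1).2.2, (hd' x.2).1, (hd' x.2).2.1, (hd' x.2).2.2]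
    exact ⟨rfl, rfl, rfl⟩
  · intro T₀ hT₀
    have hsub : {x : (ι → ℤ) × (ι' → ℤ) | (1 + ‖x.1‖) * (1 + ‖x.2‖) ≤ T₀} ⊆
        {v : ι → ℤ | ‖v‖ < T₀} ×ˢ {v : ι' → ℤ | ‖v‖ < T₀} := by
      intro x hx
      have h1 := norm_nonneg x.1
      have h2 := norm_nonneg x.2
      have hx' : (1 + ‖x.1‖) * (1 + ‖x.2‖) ≤ T₀ := hx
      constructor
      · show ‖x.1‖ < T₀
        nlinarith
      · show ‖x.2‖ < T₀
        nlinarith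
    have hfin : ({v : ι → ℤ | ‖v‖ < T₀} ×ˢ {v : ι' → ℤ | ‖v‖ < T₀}).Finite :=
      (s4a_lat_ball_finite T₀).prod (s4a_lat_ball_finite T₀)
    refine ⟨hfin.subset hsub, ?_⟩
    have h1 : (Set.ncard {x : (ι → ℤ) × (ι' → ℤ) | (1 + ‖x.1‖) * (1 + ‖x.2‖) ≤ T₀} : ℝ) ≤
        (Set.ncard ({v : ι → ℤ | ‖v‖ < T₀} ×ˢ {v : ι' → ℤ | ‖v‖ < T₀}) : ℝ) := by
      exact_mod_cast Set.ncard_le_ncard hsub hfin
    refine le_trans h1 ?_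
    rw [Set.ncard_prod]
    push_cast
    have h2 := s4a_lat_ball_card (ι := ι) T₀ (by linarith)
    have h3 := s4a_lat_ball_card (ι := ι') T₀ (by linarith)
    rw [hcard] at h2
    rw [hcard'] at h3
    have h4 : (2 * T₀ + 1) ≤ 3 * T₀ := by linarith
    calc (Set.ncard {v : ι → ℤ | ‖v‖ < T₀} : ℝ) * (Set.ncard {v : ι' → ℤ | ‖v‖ < T₀} : ℝ)
        ≤ (2 * T₀ + 1) ^ (3 * n) * (2 * T₀ + 1) ^ (3 * n') := by gcongr
      _ = (2 * T₀ + 1) ^ (3 * (n + n')) := by rw [← pow_add]; ring_nf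
      _ ≤ (3 * T₀) ^ (3 * (n + n')) := by gcongr
  · intro ya yb t z z' hz hz'
    have hb1 : ∀ v, ‖c v * ((A v).eval ya * ((B v).eval yb * (Q v).eval t))‖ ≤ ‖c v‖ * (1 + ‖v‖) ^ M := by
      intro v
      rw [norm_mul, norm_mul, norm_mul]
      have e1 := (hbd v).1 ya
      have e2 := (hbd v).2.1 yb
      have e3 := (hbd v).2.2 t
      have e4 : (1 : ℝ) ≤ (1 + ‖v‖) ^ M := one_le_pow₀ (by linarith [norm_nonneg v])
      have e5 : ‖(A v).eval ya‖ * (‖(B v).eval yb‖ * ‖(Q v).eval t‖) ≤ 1 * (1 * 1) := by gcongr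
      exact mul_le_mul_of_nonneg_left (by linarith) (norm_nonneg _)
    have hb2 : ∀ v, ‖c' v * ((A' v).eval ya * ((B' v).eval yb * (Q' v).eval t))‖ ≤ ‖c' v‖ * (1 + ‖v‖) ^ M := by
      intro v
      rw [norm_mul, norm_mul, norm_mul]
      have e1 := (hbd' v).1 ya
      have e2 := (hbd' v).2.1 yb
      have e3 := (hbd' v).2.2 t
      have e4 : (1 : ℝ) ≤ (1 + ‖v‖) ^ M := one_le_pow₀ (by linarith [norm_nonneg v])
      have e5 : ‖(A' v).eval ya‖ * (‖(B' v).eval yb‖ * ‖(Q' v).eval t‖) ≤ 1 * (1 * 1) := by gcongr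
      exact mul_le_mul_of_nonneg_left (by linarith) (norm_nonneg _)
    have key := s4a_hasSum_prod hz hz' (Summable.of_nonneg_of_le (fun _ => norm_nonneg _) hb1 hs)
      (Summable.of_nonneg_of_le (fun _ => norm_nonneg _) hb2 hs')
    convert key using 1
    funext x
    show c x.1 * c' x.2 * ((s4a_mul (A x.1) (A' x.2)).eval ya * ((s4a_mul (B x.1) (B' x.2)).eval yb *
      (s4a_mul (Q x.1) (Q' x.2)).eval t)) = _
    rw [s4a_mul_eval (hcp x.1).1 (hcp' x.2).1, s4a_mul_eval (hcp x.1).2.1 (hcp' x.2).2.1,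
      s4a_mul_eval (hcp x.1).2.2 (hcp' x.2).2.2]
    ring

/-- **Lemma 4.5 (progression separation).**  `D = s4b_qp Cq (log H)`; term `x` lies in the "shell" `T x ≥ 1`; `∑ |c| T^M ≤ D` replaces the dyadic shell bounds `D T^(-M)` (paper: `M = 100`). -/
theorem s4a_ap_separation (M : ℕ) : ∃ Cq : ℕ, ∀ i k a b : Fin 4, slot4 i k a b → ∀ (φ φ' : Chart) (H : ℝ),
    φ.Cplx H → φ'.Cplx H →
    ∃ (X : Type) (_ : Countable X) (c : X → ℂ) (T : X → ℝ) (ψa ψb Q : X → Chart),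
      (∀ x, 1 ≤ T x) ∧
      Summable (fun x => ‖c x‖ * T x ^ M) ∧ ∑' x, ‖c x‖ * T x ^ M ≤ s4b_qp Cq (Real.log H) ∧
      (∀ x, (ψa x).Cplx (s4b_qp Cq (Real.log H) * T x) ∧ (ψb x).Cplx (s4b_qp Cq (Real.log H) * T x) ∧
            (Q x).Cplx (s4b_qp Cq (Real.log H) * T x)) ∧
      (∀ x, (ψa x).Bdd ∧ (ψb x).Bdd ∧ (Q x).Bdd) ∧
      (∀ x, (ψa x).d = φ.d + φ'.d ∧ (ψb x).d = φ.d + φ'.d ∧ (Q x).d = φ.d + φ'.d) ∧
      (∀ T₀ : ℝ, 1 ≤ T₀ → {x | T x ≤ T₀}.Finite ∧ (Set.ncard {x | T x ≤ T₀} : ℝ) ≤ (3 * T₀) ^ (3 * (φ.d + φ'.d))) ∧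
      ∀ x₀ t : ℝ, HasSum (fun x => c x * ((ψa x).eval (x₀ + (a : ℝ) * t) * ((ψb x).eval (x₀ + (b : ℝ) * t) * (Q x).eval t)))
        (φ.eval (x₀ + (i : ℝ) * t) * φ'.eval (x₀ + (k : ℝ) * t)) := by
  obtain ⟨C1, h1⟩ := s4a_sep_one M
  refine ⟨C1 + C1, ?_⟩
  intro i k a b hslot φ φ' H hφ hφ'
  obtain ⟨-, -, -, -, -, hab⟩ := hslot
  have hq0 : ((b : ℕ) : ℤ) - ((a : ℕ) : ℤ) ≠ 0 := by
    intro h
    apply hab
    ext
    omega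
  obtain ⟨c, fa, fb, ft, hs, hsum, hcp, hbd, hid⟩ :=
    h1 (((i : ℕ) : ℤ) - ((a : ℕ) : ℤ)) (((b : ℕ) : ℤ) - ((a : ℕ) : ℤ)) hq0 (s4a_fin4_diff i a) (s4a_fin4_diff b a) φ H hφ
  obtain ⟨c', fa', fb', ft', hs', hsum', hcp', hbd', hid'⟩ :=
    h1 (((k : ℕ) : ℤ) - ((a : ℕ) : ℤ)) (((b : ℕ) : ℤ) - ((a : ℕ) : ℤ)) hq0 (s4a_fin4_diff k a) (s4a_fin4_diff b a) φ' H hφ'
  have hH1 : 1 ≤ H := le_trans (Real.one_le_exp (by norm_num)) hφ.H_ge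
  have hx0 : 0 ≤ Real.log H := Real.log_nonneg hH1
  have hDD : s4b_qp C1 (Real.log H) * s4b_qp C1 (Real.log H) ≤ s4b_qp (C1 + C1) (Real.log H) := s4a_qp_mul C1 C1 hx0
  obtain ⟨X, hX, e, T, ψa, ψb, R, g1, g2, g3, g4, g5, g6, g7, g8⟩ :=
    s4a_sep_prod M φ.d φ'.d _ _ (s4a_qp_pos C1 _).le hDD c c' _ _ _ _ _ _ hs hsum hs' hsum' hcp hcp' hbd hbd'
      (fun _ => ⟨rfl, rfl, rfl⟩) (fun _ => ⟨rfl, rfl, rfl⟩)
      (by simp only [Fintype.card_sum, Fintype.card_fin]; ring) (by simp only [Fintype.card_sum, Fintype.card_fin]; ring)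
  refine ⟨X, hX, e, T, ψa, ψb, R, g1, g2, g3, g4, g5, g6, g7, ?_⟩
  intro x₀ t
  have e1 := hid (x₀ + (a : ℝ) * t) t
  have e2 := hid' (x₀ + (a : ℝ) * t) t
  have r1 : x₀ + (a : ℝ) * t + (((((b : ℕ) : ℤ) - ((a : ℕ) : ℤ) : ℤ)) : ℝ) * t = x₀ + (b : ℝ) * t := by
    push_cast; ring
  have r2 : x₀ + (a : ℝ) * t + (((((i : ℕ) : ℤ) - ((a : ℕ) : ℤ) : ℤ)) : ℝ) * t = x₀ + (i : ℝ) * t := by
    push_cast; ring
  have r3 : x₀ + (a : ℝ) * t + (((((k : ℕ) : ℤ) - ((a : ℕ) : ℤ) : ℤ)) : ℝ) * t = x₀ + (k : ℝ) * t := by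
    push_cast; ring
  rw [r1, r2] at e1
  rw [r1, r3] at e2
  exact g8 _ _ _ _ _ e1 e2

end Claimed.Agent.R258
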