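/-
Row 258, block [S4a] (architect helper78).  FILE Conv = leaf P-S4a-CONV: an `L²` bound for convolution-type bilinear forms by the supremum of the Fourier transform of the kernel, for compactly supported data
(this is the "Plancherel" step of Lemma 4.6, charts.tex l.636-642).  Mathlib only: PARSEVAL ON AN INTERVAL `hasSum_sq_fourierCoeffOn` (Mathlib/Analysis/Fourier/AddCircle.lean); no Fourier transform on `L²(ℝ)`.

STATEMENT.  `K` bounded measurable, `K = 0` off `[-ρ₀, ρ₀]`, `|∫ K(t) e(-ξt) dt| ≤ Amax` for all `ξ`; `f, g` measurable, square integrable, vanishing off `[x₁, x₂]`; `s ≠ 0`.  Then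
      `|∫ f(y) (∫ K(t) g(y + s t) dt) dy| ≤ Amax ‖f‖₂ ‖g‖₂`.
PROOF.  `h(y) = ∫ K(t) g(y + s t) dt`.  Choose `α = x₁ - |s| ρ₀ - 1`, `β = x₂ + |s| ρ₀ + 1`, `L = β - α`.
 (1) `h` is measurable (`MeasureTheory.StronglyMeasurable.integral_prod_right`-type; the integrand `(y,t) ↦ K t * g (y + s t)` is jointly measurable) and bounded: `|h(y)| ≤ X ∫ |g(y + s t)| dt = X |s|⁻¹ ∫ |g|`, `g ∈ L¹` (square integrable with bounded
     support: `|g| ≤ (1 + |g|²)/2` on `[x₁,x₂]`).  So `h ∈ L²(Ioc α β)`.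
 (2) (`s4a_conv_coeff`) `fourierCoeffOn hαβ h n = (∫ K(t) e(n s t / L) dt) * fourierCoeffOn hαβ g n`:  by `fourierCoeffOn_eq_integral`, `fourier_coe_apply`, Fubini (`MeasureTheory.integral_integral_swap`; integrable on `Ioc α β × ℝ`: bounded by `X 1_{|t| ≤ ρ₀} |g(y+st)|`),
     for fixed `|t| ≤ ρ₀` substitute `y' = y + s t`: `∫_α^β e(-n y/L) g(y + s t) dy = e(n s t/L) ∫_{α+st}^{β+st} e(-n y'/L) g(y') dy' = e(n s t/L) ∫_α^β e(-n y'/L) g(y') dy'` because `g` vanishes off `[x₁,x₂] ⊆ (α+st, β+st] ∩ (α, β]`.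
 (3) Parseval for `h` and `g` on `Ioc α β`: `∫_α^β |h|² = L ∑ |c_n(h)|² ≤ Amax² L ∑ |c_n(g)|² = Amax² ∫ |g|²`   (`ξ = -n s / L` in the hypothesis; `HasSum`/`tsum_le_tsum`).
 (4) `f` vanishes off `Ioc α β`: `∫ f h = ∫_{Ioc α β} f h`, Cauchy-Schwarz (`MeasureTheory.integral_mul_le_Lp_mul_Lq` with `p = q = 2`, or `L2.inner`/`norm_inner_le_norm`; or elementary: `|∫ f h| ≤ ∫ |f||h| ≤ √(∫|f|²) √(∫|h|²)`).
-/
import Claimed.Agent.R258.S4a.Br

set_option autoImplicit false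
open MeasureTheory
open scoped ENNReal ContDiff ComplexConjugate

namespace Claimed.Agent.R258

/-- Cauchy-Schwarz for integrals, in the elementary form used in this block -/
theorem s4a_cauchy_schwarz {α : Type*} [MeasurableSpace α] (μ : Measure α) (f g : α → ℂ) (hf : AEStronglyMeasurable f μ)
    (hg : AEStronglyMeasurable g μ) (hf2 : Integrable (fun y => ‖f y‖ ^ 2) μ) (hg2 : Integrable (fun y => ‖g y‖ ^ 2) μ) :
    Integrable (fun y => f y * g y) μ ∧
      ‖∫ y, f y * g y ∂μ‖ ≤ Real.sqrt (∫ y, ‖f y‖ ^ 2 ∂μ) * Real.sqrt (∫ y, ‖g y‖ ^ 2 ∂μ) := by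
  have hfL : MemLp f 2 μ := (memLp_two_iff_integrable_sq_norm hf).2 hf2
  have hgL : MemLp g 2 μ := (memLp_two_iff_integrable_sq_norm hg).2 hg2
  have hint : Integrable (fun y => f y * g y) μ := hfL.integrable_mul hgL
  refine ⟨hint, ?_⟩
  have h1 : ‖∫ y, f y * g y ∂μ‖ ≤ ∫ y, ‖f y‖ * ‖g y‖ ∂μ := by
    refine (norm_integral_le_integral_norm _).trans (le_of_eq ?_)
    simp only [norm_mul]
  have h2 := integral_mul_le_Lp_mul_Lq_of_nonneg (μ := μ) (p := 2) (q := 2) Real.HolderConjugate.two_two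
    (f := fun y => ‖f y‖) (g := fun y => ‖g y‖) (Filter.Eventually.of_forall fun _ => norm_nonneg _)
    (Filter.Eventually.of_forall fun _ => norm_nonneg _)
    (by simpa using hfL.norm) (by simpa using hgL.norm)
  refine h1.trans (h2.trans (le_of_eq ?_))
  simp only [Real.rpow_two, Real.sqrt_eq_rpow]

/-- square integrable with bounded support implies integrable -/
theorem s4a_integrable_of_sq (g : ℝ → ℂ) (hgm : Measurable g) (x₁ x₂ : ℝ) (hg : ∀ y, y ∉ Set.Icc x₁ x₂ → g y = 0)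
    (hg2 : Integrable fun y => ‖g y‖ ^ 2) : Integrable g := by
  have hind : Integrable (fun y => (Set.Icc x₁ x₂).indicator (fun _ => (1 : ℝ)) y) :=
    (integrable_indicator_iff measurableSet_Icc).2 (integrableOn_const (by simp) (by simp))
  refine (hind.add hg2).mono' hgm.aestronglyMeasurable (Filter.Eventually.of_forall fun y => ?_)
  by_cases hy : y ∈ Set.Icc x₁ x₂
  · simp only [Pi.add_apply, Set.indicator_of_mem hy]
    nlinarith [sq_nonneg (‖g y‖ - 1), norm_nonneg (g y)]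
  · simp only [Pi.add_apply, Set.indicator_of_notMem hy, hg y hy]
    simp

theorem s4a_conv_K_integrable (K : ℝ → ℂ) (hKm : Measurable K) (X ρ₀ : ℝ) (hKb : ∀ t, ‖K t‖ ≤ X)
    (hKs : ∀ t, ρ₀ < |t| → K t = 0) : Integrable K := by
  have h1 : IntegrableOn K (Set.Icc (-ρ₀) ρ₀) :=
    Measure.integrableOn_of_bounded (M := X) (by simp) hKm.aestronglyMeasurable
      (Filter.Eventually.of_forall hKb)
  refine h1.integrable_of_forall_notMem_eq_zero fun t ht => hKs t ?_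
  by_contra hcon
  exact ht (abs_le.1 (not_lt.1 hcon))

/-- joint integrability of `(t, y) ↦ c y * (K t * g (y + s t))` for a unimodular measurable `c` -/
theorem s4a_conv_joint (K : ℝ → ℂ) (hKm : Measurable K) (hK : Integrable K) (s : ℝ) (g : ℝ → ℂ) (hgm : Measurable g)
    (hg1 : Integrable g) (c : ℝ → ℂ) (hcm : Measurable c) (hc : ∀ y, ‖c y‖ = 1) :
    Integrable (Function.uncurry fun t y => c y * (K t * g (y + s * t))) (volume.prod volume) := by
  have hmeas : Measurable (Function.uncurry fun t y => c y * (K t * g (y + s * t))) := by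
    have h1 : Measurable fun p : ℝ × ℝ => c p.2 := hcm.comp measurable_snd
    have h2 : Measurable fun p : ℝ × ℝ => K p.1 := hKm.comp measurable_fst
    have h3 : Measurable fun p : ℝ × ℝ => g (p.2 + s * p.1) :=
      hgm.comp (measurable_snd.add (measurable_const.mul measurable_fst))
    exact h1.mul (h2.mul h3)
  rw [integrable_prod_iff hmeas.aestronglyMeasurable]
  constructor
  · refine Filter.Eventually.of_forall fun t => ?_
    exact ((hg1.comp_add_right (s * t)).const_mul (K t)).bdd_mul (c := 1) hcm.aestronglyMeasurable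
      (Filter.Eventually.of_forall fun y => (hc y).le)
  · have h : (fun t => ∫ y, ‖Function.uncurry (fun t y => c y * (K t * g (y + s * t))) (t, y)‖)
        = fun t => ‖K t‖ * ∫ y, ‖g y‖ := by
      funext t
      simp only [Function.uncurry_apply_pair, norm_mul, hc, one_mul]
      rw [integral_const_mul, integral_add_right_eq_self (fun y => ‖g y‖) (s * t)]
    rw [h]
    exact hK.norm.mul_const _

theorem s4a_fourier_eq_ee (L : ℝ) (n : ℤ) (y : ℝ) :
    (fourier (-n) (y : AddCircle L) : ℂ) = ee (-((n : ℝ) * y / L)) := by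
  rw [fourier_coe_apply, ee]
  congr 1
  push_cast
  ring

/-- the support of `y ↦ K t * g (y + s t)` -/
theorem s4a_conv_supp (K : ℝ → ℂ) (ρ₀ : ℝ) (hKs : ∀ t, ρ₀ < |t| → K t = 0)
    (s : ℝ) (x₁ x₂ : ℝ) (g : ℝ → ℂ) (hg : ∀ y, y ∉ Set.Icc x₁ x₂ → g y = 0)
    (α β : ℝ) (hα : α + |s| * ρ₀ < x₁) (hβ : x₂ + |s| * ρ₀ ≤ β) (y : ℝ) (hy : y ∉ Set.Ioc α β) (t : ℝ) :
    K t * g (y + s * t) = 0 := by
  by_cases ht : ρ₀ < |t|
  · rw [hKs t ht, zero_mul]
  · rw [hg _ ?_, mul_zero]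
    intro hmem
    apply hy
    have h1 : |s * t| ≤ |s| * ρ₀ := by
      rw [abs_mul]
      exact mul_le_mul_of_nonneg_left (not_lt.1 ht) (abs_nonneg s)
    have h2 := abs_le.1 h1
    exact ⟨by linarith [hmem.1, h2.2], by linarith [hmem.2, h2.1]⟩

/-- the Fourier coefficients of `h = ∫ K(t) g(· + s t) dt` on a large interval -/
theorem s4a_conv_coeff (K : ℝ → ℂ) (hKm : Measurable K) (X ρ₀ : ℝ) (hKb : ∀ t, ‖K t‖ ≤ X) (hKs : ∀ t, ρ₀ < |t| → K t = 0)
    (s : ℝ) (hs : s ≠ 0) (x₁ x₂ : ℝ) (g : ℝ → ℂ) (hgm : Measurable g) (hg : ∀ y, y ∉ Set.Icc x₁ x₂ → g y = 0)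
    (hg1 : Integrable g) (α β : ℝ) (hαβ : α < β) (hα : α + |s| * ρ₀ < x₁) (hβ : x₂ + |s| * ρ₀ ≤ β) (n : ℤ) :
    fourierCoeffOn hαβ (fun y => ∫ t, K t * g (y + s * t)) n =
      (∫ t, K t * ee (-((-((n : ℝ) * s / (β - α))) * t))) * fourierCoeffOn hαβ g n := by
  have hK : Integrable K := s4a_conv_K_integrable K hKm X ρ₀ hKb hKs
  by_cases hρ : ρ₀ < 0
  · have hK0 : ∀ t, K t = 0 := fun t => hKs t (hρ.trans_le (abs_nonneg t))
    simp only [hK0, zero_mul, integral_zero]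
    rw [fourierCoeffOn_eq_integral]
    simp
  have hρ0 : 0 ≤ ρ₀ := not_lt.1 hρ
  have hsρ : 0 ≤ |s| * ρ₀ := mul_nonneg (abs_nonneg s) hρ0
  set L : ℝ := β - α with hL
  set E : ℝ → ℂ := fun y => ee (-((n : ℝ) * y / L)) with hE
  have hEm : Measurable E := s4a_ee_continuous.measurable.comp (by fun_prop)
  have hEn : ∀ y, ‖E y‖ = 1 := fun y => s4a_ee_norm _
  rw [fourierCoeffOn_eq_integral, fourierCoeffOn_eq_integral, intervalIntegral.integral_of_le hαβ.le,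
    intervalIntegral.integral_of_le hαβ.le]
  simp only [s4a_fourier_eq_ee, smul_eq_mul]
  -- pass to integrals over the line
  have e1 : ∫ y in Set.Ioc α β, E y * ∫ t, K t * g (y + s * t) = ∫ y, E y * ∫ t, K t * g (y + s * t) := by
    refine setIntegral_eq_integral_of_forall_compl_eq_zero fun y hy => ?_
    simp only [s4a_conv_supp K ρ₀ hKs s x₁ x₂ g hg α β hα hβ y hy, integral_zero, mul_zero]
  have e2 : ∫ y in Set.Ioc α β, E y * g y = ∫ y, E y * g y := by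
    refine setIntegral_eq_integral_of_forall_compl_eq_zero fun y hy => ?_
    rw [hg y fun hmem => hy ⟨by linarith [hmem.1], by linarith [hmem.2]⟩, mul_zero]
  have e3 : ∫ y, E y * ∫ t, K t * g (y + s * t) = ∫ t, ∫ y, E y * (K t * g (y + s * t)) := by
    rw [integral_integral_swap (s4a_conv_joint K hKm hK s g hgm hg1 E hEm hEn)]
    refine integral_congr_ae (Filter.Eventually.of_forall fun y => ?_)
    simp only [integral_const_mul]
  have e4 : ∀ t, ∫ y, E y * (K t * g (y + s * t))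
      = K t * ee (-((-((n : ℝ) * s / L)) * t)) * ∫ y, E y * g y := by
    intro t
    have h1 := integral_add_right_eq_self (μ := volume) (fun y => E (y - s * t) * (K t * g y)) (s * t)
    simp only [add_sub_cancel_right] at h1
    rw [h1, ← integral_const_mul]
    refine integral_congr_ae (Filter.Eventually.of_forall fun y => ?_)
    have h2 : E (y - s * t) = ee (-((-((n : ℝ) * s / L)) * t)) * E y := by
      simp only [hE]
      rw [← s4a_ee_add]
      congr 1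
      ring
    simp only [h2]
    ring
  rw [e1, e2, e3]
  simp only [e4]
  rw [integral_mul_const, mul_smul_comm]

theorem s4a_conv_h_measurable (K : ℝ → ℂ) (hKm : Measurable K) (s : ℝ) (g : ℝ → ℂ) (hgm : Measurable g) :
    StronglyMeasurable fun y => ∫ t, K t * g (y + s * t) := by
  have hmeas : Measurable (Function.uncurry fun y t => K t * g (y + s * t)) := by
    have h2 : Measurable fun p : ℝ × ℝ => K p.2 := hKm.comp measurable_snd
    have h3 : Measurable fun p : ℝ × ℝ => g (p.1 + s * p.2) :=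
      hgm.comp (measurable_fst.add (measurable_const.mul measurable_snd))
    exact h2.mul h3
  exact hmeas.stronglyMeasurable.integral_prod_right

theorem s4a_conv_h_bound (K : ℝ → ℂ) (X : ℝ) (hKb : ∀ t, ‖K t‖ ≤ X)
    (s : ℝ) (hs : s ≠ 0) (g : ℝ → ℂ) (hg1 : Integrable g) (y : ℝ) :
    ‖∫ t, K t * g (y + s * t)‖ ≤ X * (|s⁻¹| * ∫ u, ‖g u‖) := by
  have hX : 0 ≤ X := (norm_nonneg _).trans (hKb 0)
  have h1 : Integrable fun t => ‖g (y + s * t)‖ :=
    ((hg1.comp_add_left y).comp_mul_left' hs).norm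
  have h2 : ∫ t, ‖g (y + s * t)‖ = |s⁻¹| * ∫ u, ‖g u‖ := by
    rw [Measure.integral_comp_mul_left (fun u => ‖g (y + u)‖) s, smul_eq_mul,
      integral_add_left_eq_self (μ := volume) (fun u => ‖g u‖) y]
  calc ‖∫ t, K t * g (y + s * t)‖ ≤ ∫ t, ‖K t * g (y + s * t)‖ := norm_integral_le_integral_norm _
    _ ≤ ∫ t, X * ‖g (y + s * t)‖ := by
        refine integral_mono_of_nonneg (Filter.Eventually.of_forall fun t => norm_nonneg _) (h1.const_mul X)
          (Filter.Eventually.of_forall fun t => ?_)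
        simp only [norm_mul]
        exact mul_le_mul_of_nonneg_right (hKb t) (norm_nonneg _)
    _ = X * (|s⁻¹| * ∫ u, ‖g u‖) := by rw [integral_const_mul, h2]

/-- `L²` bound of `h` on the large interval -/
theorem s4a_conv_L2 (K : ℝ → ℂ) (hKm : Measurable K) (X ρ₀ Amax : ℝ) (hKb : ∀ t, ‖K t‖ ≤ X) (hKs : ∀ t, ρ₀ < |t| → K t = 0)
    (hA : ∀ ξ : ℝ, ‖∫ t, K t * ee (-(ξ * t))‖ ≤ Amax) (s : ℝ) (hs : s ≠ 0) (x₁ x₂ : ℝ) (g : ℝ → ℂ) (hgm : Measurable g)
    (hg : ∀ y, y ∉ Set.Icc x₁ x₂ → g y = 0) (hg2 : Integrable fun y => ‖g y‖ ^ 2)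
    (α β : ℝ) (hαβ : α < β) (hα : α + |s| * ρ₀ < x₁) (hβ : x₂ + |s| * ρ₀ ≤ β) :
    IntegrableOn (fun y => ‖∫ t, K t * g (y + s * t)‖ ^ 2) (Set.Ioc α β) ∧
      ∫ y in Set.Ioc α β, ‖∫ t, K t * g (y + s * t)‖ ^ 2 ≤ Amax ^ 2 * ∫ y, ‖g y‖ ^ 2 := by
  have hg1 : Integrable g := s4a_integrable_of_sq g hgm x₁ x₂ hg hg2
  have hA0 : 0 ≤ Amax := (norm_nonneg _).trans (hA 0)
  have hhm := s4a_conv_h_measurable K hKm s g hgm
  have hhL : MemLp (fun y => ∫ t, K t * g (y + s * t)) 2 (volume.restrict (Set.Ioc α β)) :=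
    MemLp.of_bound hhm.aestronglyMeasurable _
      (Filter.Eventually.of_forall fun y => s4a_conv_h_bound K X hKb s hs g hg1 y)
  have hgL : MemLp g 2 (volume.restrict (Set.Ioc α β)) :=
    ((memLp_two_iff_integrable_sq_norm hgm.aestronglyMeasurable).2 hg2).restrict _
  have hint : IntegrableOn (fun y => ‖∫ t, K t * g (y + s * t)‖ ^ 2) (Set.Ioc α β) :=
    (memLp_two_iff_integrable_sq_norm hhm.aestronglyMeasurable).1 hhL
  refine ⟨hint, ?_⟩
  have hP1 := hasSum_sq_fourierCoeffOn hαβ hhL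
  have hP2 := (hasSum_sq_fourierCoeffOn hαβ hgL).mul_left (Amax ^ 2)
  have hle := hasSum_le (fun n => ?_) hP1 hP2
  · rw [intervalIntegral.integral_of_le hαβ.le, intervalIntegral.integral_of_le hαβ.le, smul_eq_mul, smul_eq_mul] at hle
    have hL : 0 < β - α := sub_pos.2 hαβ
    have h1 : ∫ y in Set.Ioc α β, ‖∫ t, K t * g (y + s * t)‖ ^ 2 ≤ Amax ^ 2 * ∫ y in Set.Ioc α β, ‖g y‖ ^ 2 := by
      have h2 := mul_le_mul_of_nonneg_left hle hL.le
      have e1 : (β - α) * ((β - α)⁻¹ * ∫ y in Set.Ioc α β, ‖∫ t, K t * g (y + s * t)‖ ^ 2)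
          = ∫ y in Set.Ioc α β, ‖∫ t, K t * g (y + s * t)‖ ^ 2 := by
        rw [← mul_assoc, mul_inv_cancel₀ hL.ne', one_mul]
      have e2 : (β - α) * (Amax ^ 2 * ((β - α)⁻¹ * ∫ y in Set.Ioc α β, ‖g y‖ ^ 2))
          = Amax ^ 2 * ∫ y in Set.Ioc α β, ‖g y‖ ^ 2 := by
        field_simp
      rwa [e1, e2] at h2
    refine h1.trans (mul_le_mul_of_nonneg_left ?_ (sq_nonneg _))
    exact setIntegral_le_integral hg2 (Filter.Eventually.of_forall fun y => by positivity)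
  · rw [s4a_conv_coeff K hKm X ρ₀ hKb hKs s hs x₁ x₂ g hgm hg hg1 α β hαβ hα hβ n, norm_mul, mul_pow]
    exact mul_le_mul_of_nonneg_right (pow_le_pow_left₀ (norm_nonneg _) (hA _) 2) (sq_nonneg _)

/-- **the convolution bound** -/
theorem s4a_conv_bound (K : ℝ → ℂ) (hKm : Measurable K) (X ρ₀ Amax : ℝ) (hKb : ∀ t, ‖K t‖ ≤ X)
    (hKs : ∀ t, ρ₀ < |t| → K t = 0) (hA : ∀ ξ : ℝ, ‖∫ t, K t * ee (-(ξ * t))‖ ≤ Amax) (s : ℝ) (hs : s ≠ 0) (x₁ x₂ : ℝ)
    (f g : ℝ → ℂ) (hfm : Measurable f) (hgm : Measurable g) (hf : ∀ y, y ∉ Set.Icc x₁ x₂ → f y = 0)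
    (hg : ∀ y, y ∉ Set.Icc x₁ x₂ → g y = 0) (hf2 : Integrable fun y => ‖f y‖ ^ 2) (hg2 : Integrable fun y => ‖g y‖ ^ 2) :
    ‖∫ y, f y * ∫ t, K t * g (y + s * t)‖ ≤ Amax * Real.sqrt (∫ y, ‖f y‖ ^ 2) * Real.sqrt (∫ y, ‖g y‖ ^ 2) := by
  have hA0 : 0 ≤ Amax := (norm_nonneg _).trans (hA 0)
  obtain ⟨α, hαdef⟩ : ∃ α, α = min x₁ x₂ - |s| * |ρ₀| - 1 := ⟨_, rfl⟩
  obtain ⟨β, hβdef⟩ : ∃ β, β = max x₁ x₂ + |s| * |ρ₀| + 1 := ⟨_, rfl⟩
  have hsρ : 0 ≤ |s| * |ρ₀| := by positivity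
  have hsρ' : |s| * ρ₀ ≤ |s| * |ρ₀| := mul_le_mul_of_nonneg_left (le_abs_self _) (abs_nonneg _)
  have hmm : min x₁ x₂ ≤ max x₁ x₂ := min_le_max
  have hαβ : α < β := by rw [hαdef, hβdef]; linarith
  have hα1 : α < x₁ := by rw [hαdef]; linarith [min_le_left x₁ x₂]
  have hβ2 : x₂ ≤ β := by rw [hβdef]; linarith [le_max_right x₁ x₂]
  have hα : α + |s| * ρ₀ < x₁ := by rw [hαdef]; linarith [min_le_left x₁ x₂]
  have hβ : x₂ + |s| * ρ₀ ≤ β := by rw [hβdef]; linarith [le_max_right x₁ x₂]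
  obtain ⟨hi, hb⟩ := s4a_conv_L2 K hKm X ρ₀ Amax hKb hKs hA s hs x₁ x₂ g hgm hg hg2 α β hαβ hα hβ
  have e1 : ∫ y, f y * ∫ t, K t * g (y + s * t) = ∫ y in Set.Ioc α β, f y * ∫ t, K t * g (y + s * t) := by
    refine (setIntegral_eq_integral_of_forall_compl_eq_zero fun y hy => ?_).symm
    rw [hf y fun hmem => hy ⟨by linarith [hmem.1], by linarith [hmem.2]⟩, zero_mul]
  have hcs := (s4a_cauchy_schwarz (volume.restrict (Set.Ioc α β)) f (fun y => ∫ t, K t * g (y + s * t))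
    hfm.aestronglyMeasurable (s4a_conv_h_measurable K hKm s g hgm).aestronglyMeasurable hf2.restrict hi).2
  rw [e1]
  refine hcs.trans ?_
  have h1 : Real.sqrt (∫ y in Set.Ioc α β, ‖f y‖ ^ 2) ≤ Real.sqrt (∫ y, ‖f y‖ ^ 2) :=
    Real.sqrt_le_sqrt (setIntegral_le_integral hf2 (Filter.Eventually.of_forall fun y => by positivity))
  have h2 : Real.sqrt (∫ y in Set.Ioc α β, ‖∫ t, K t * g (y + s * t)‖ ^ 2) ≤ Amax * Real.sqrt (∫ y, ‖g y‖ ^ 2) := by
    refine (Real.sqrt_le_sqrt hb).trans (le_of_eq ?_)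
    rw [Real.sqrt_mul (sq_nonneg _), Real.sqrt_sq hA0]
  calc _ ≤ Real.sqrt (∫ y, ‖f y‖ ^ 2) * (Amax * Real.sqrt (∫ y, ‖g y‖ ^ 2)) :=
        mul_le_mul h1 h2 (Real.sqrt_nonneg _) (Real.sqrt_nonneg _)
    _ = _ := by ring

end Claimed.Agent.R258
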