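/-
Row 258, block [S4a] (architect helper78).  FILE Cut = leaf P-S4a-CUT: the Gevrey cutoffs used in Lemma 4.5, all built from ONE step function `S` (`s4b_gevStep` of S4b/Gev.lean):
  `s4a_rho S t  = S(t+1) - S(t)`            partition of unity `∑_{m ∈ ℤ} ρ(t-m) = 1`, support `[-1,1]`;
  `s4a_eqc S t  = S(2t+1) S(1-2t)`          equality cutoff: `E(0) = 1`, `E = 0` for `|t| ≥ 1/2`;
  `s4a_plat S K t = S(t+K+1) S(K+1-t)`      plateau: `= 1` on `[-K,K]`, `= 0` for `|t| ≥ K+1`;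
  `s4a_tens f x = ∏_i f(x_i)`               tensor products on `ℝ^ι`.
Uses the STATEMENTS of Gev.lean, Lat.lean, S4b/Gev.lean.  No paper.

PLANS.
* `s4a_step_exists`: repackage `s4b_gevStep`.
* `s4a_step_gev`: `s4b_gev_of_real` + `s4a_Gev.of_s4b`.   Range: `0 = S(min t 0) ≤ S t ≤ S(max t 1) = 1` by monotonicity.
* Gevrey bounds of `ρ, E, plat`: `s4a_Gev.comp_affine` on `E = F = ℝ` with `L = c • id` (`‖L‖ ≤ |c|`), then `s4a_Gev.sub` / `s4a_Gev.mul`; push the casts (`Complex.ofReal_mul`, `Complex.ofReal_sub`).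
* `s4a_rho_hasSum`: only `m ∈ {⌊t⌋, ⌊t⌋+1}` (or: `m ∈ Finset.Icc (⌈t⌉-1) (⌊t⌋+1)`) contribute; telescoping: `∑_{m=a}^{b} (S(t-m+1) - S(t-m)) = S(t-a+1) - S(t-b)` with `t - a + 1 ≥ 1`, `t - b ≤ 0` (`Finset.sum_range_succ`-induction, or
  `hasSum_sum_of_ne_finset_zero`).
* `s4a_Gev.prod`: induction on the finset with `s4a_Gev.mul`; the constant `1` is `s4a_Gev S 0 1` (`iteratedFDeriv_const_of_ne`, `0^0 = 1`, `s4a_w_zero`).
* `s4a_tens_gev`: `s4a_Gev.prod` over `Finset.univ` of `f ∘ proj_i` (`ContinuousLinearMap.proj i`, norm `≤ 1`; `s4a_Gev.comp_affine` with `M = 1`).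
* `s4a_tens_rho_hasSum`: finite support (`s4a_lat_box_finite`), and on `Fintype.piFinset` of intervals `∑ ∏ = ∏ ∑` (`Finset.prod_univ_sum`).
* `s4a_tens_eqc_int`: if `z ≠ 0` some `|z i| ≥ 1 ≥ 1/2`, that factor vanishes.
-/
import Claimed.Agent.R258.S4a.Gev
import Claimed.Agent.R258.S4a.Lat

set_option autoImplicit false
open MeasureTheory
open scoped ENNReal ContDiff ComplexConjugate Nat

namespace Claimed.Agent.R258

/-- a Gevrey-2 step function -/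
structure s4a_Step (A : ℝ) (S : ℝ → ℝ) : Prop where
  A_ge : 1 ≤ A
  smooth : ContDiff ℝ ∞ S
  mono : Monotone S
  zero : ∀ t, t ≤ 0 → S t = 0
  one : ∀ t, 1 ≤ t → S t = 1
  deriv : ∀ (m : ℕ) (t : ℝ), |iteratedDeriv m S t| ≤ A * A ^ m * ((m ! : ℕ) : ℝ) ^ 2

theorem s4a_step_exists : ∃ (A : ℝ) (S : ℝ → ℝ), s4a_Step A S := by
  refine ⟨6000, gevStep, by norm_num, gev_step.smooth, gev_step_mono, fun t ht => gev_step_zero ht,
    fun t ht => gev_step_one ht, fun m t => ?_⟩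
  have h := gev_iteratedDeriv_le gev_step (Set.mem_univ t) m
  rw [Real.norm_eq_abs] at h
  refine h.trans ?_
  have : (0 : ℝ) ≤ 6000 ^ m * ((m ! : ℕ) : ℝ) ^ 2 := by positivity
  nlinarith

def s4a_rho (S : ℝ → ℝ) (t : ℝ) : ℝ := S (t + 1) - S t

def s4a_eqc (S : ℝ → ℝ) (t : ℝ) : ℝ := S (2 * t + 1) * S (1 - 2 * t)

def s4a_plat (S : ℝ → ℝ) (K t : ℝ) : ℝ := S (t + K + 1) * S (K + 1 - t)

/-- tensor product -/
noncomputable def s4a_tens {ι : Type} [Fintype ι] (f : ℝ → ℝ) (x : ι → ℝ) : ℂ := ∏ i, (f (x i) : ℂ)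

section
variable {E : Type*} [NormedAddCommGroup E] [NormedSpace ℝ E]

theorem s4a_Gev.sub {S : Set E} {A B₁ B₂ : ℝ} {f g : E → ℂ} (hf : s4a_Gev S A B₁ f) (hg : s4a_Gev S A B₂ g) :
    s4a_Gev S A (B₁ + B₂) (fun x => f x - g x) := by
  exact s4a_gev_iff.2 (gevw_sub (s4a_gev_iff.1 hf) (s4a_gev_iff.1 hg))

theorem s4a_Gev.prod {κ : Type*} (s : Finset κ) {S : Set E} {A B : κ → ℝ} {f : κ → E → ℂ} (hA : ∀ i ∈ s, 0 ≤ A i)
    (hB : ∀ i ∈ s, 0 ≤ B i) (hf : ∀ i ∈ s, s4a_Gev S (A i) (B i) (f i)) :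
    s4a_Gev S (∑ i ∈ s, A i) (∏ i ∈ s, B i) (fun x => ∏ i ∈ s, f i x) := by
  exact s4a_gev_iff.2 (gevw_prod s s4a_wt hA fun i hi => s4a_gev_iff.1 (hf i hi))

end

section
variable {A : ℝ} {S : ℝ → ℝ}

theorem s4a_step_range (h : s4a_Step A S) (t : ℝ) : 0 ≤ S t ∧ S t ≤ 1 := by
  constructor
  · have := h.mono (min_le_left t 0)
    rwa [h.zero _ (min_le_right t 0)] at this
  · have := h.mono (le_max_left t 1)
    rwa [h.one _ (le_max_right t 1)] at this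

theorem s4a_step_gev (h : s4a_Step A S) : s4a_Gev (Set.univ : Set ℝ) A A (fun t => (S t : ℂ)) := by
  have hA0 : 0 ≤ A := by linarith [h.A_ge]
  have h1 : GevOn 2 A A S Set.univ := gev_of_iteratedDeriv h.smooth fun x _ n => by
    rw [Real.norm_eq_abs]; exact h.deriv n x
  exact s4a_Gev.of_s4b hA0 hA0 (gev_ofReal h1)

/-! ### `ρ` -/

/-- affine substitution in one variable -/
theorem s4a_gev_affine_real {f : ℝ → ℝ} {A B : ℝ} (hA : 0 ≤ A) (h : s4a_Gev (Set.univ : Set ℝ) A B (fun t => (f t : ℂ)))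
    (a c : ℝ) : s4a_Gev (Set.univ : Set ℝ) (A * |a|) B (fun t => (f (a * t + c) : ℂ)) := by
  have h1 := gevw_comp_affine s4a_wt hA (s4a_gev_iff.1 h) (a • ContinuousLinearMap.id ℝ ℝ) c (K := |a|) (by
    rw [norm_smul]
    calc ‖a‖ * ‖ContinuousLinearMap.id ℝ ℝ‖ ≤ ‖a‖ * 1 :=
          mul_le_mul_of_nonneg_left ContinuousLinearMap.norm_id_le (norm_nonneg _)
      _ = |a| := by simp)
  have h2 := gevw_mono_set h1 (S' := Set.univ) (fun x _ => Set.mem_univ _)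
  exact s4a_gev_iff.2 (gevw_congr h2 fun x => by simp)

theorem s4a_rho_range (h : s4a_Step A S) (t : ℝ) : 0 ≤ s4a_rho S t ∧ s4a_rho S t ≤ 1 := by
  unfold s4a_rho
  have h1 := h.mono (by linarith : t ≤ t + 1)
  have h2 := s4a_step_range h (t + 1)
  have h3 := s4a_step_range h t
  constructor <;> linarith [h2.2, h3.1]

theorem s4a_rho_supp (h : s4a_Step A S) (t : ℝ) (ht : 1 ≤ |t|) : s4a_rho S t = 0 := by
  unfold s4a_rho
  rcases le_abs'.mp ht with h1 | h1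
  · rw [h.zero _ (by linarith), h.zero _ (by linarith), sub_zero]
  · rw [h.one _ (by linarith), h.one _ h1, sub_self]

theorem s4a_rho_off (h : s4a_Step A S) (t : ℝ) (m : ℤ) (hm : m ∉ ({⌊t⌋, ⌊t⌋ + 1} : Finset ℤ)) :
    s4a_rho S (t - (m : ℝ)) = 0 := by
  simp only [Finset.mem_insert, Finset.mem_singleton, not_or] at hm
  apply s4a_rho_supp h
  have h0 := Int.floor_le t
  have h1 := Int.lt_floor_add_one t
  rcases lt_or_gt_of_ne hm.1 with h2 | h2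
  · have h3 : (m : ℝ) + 1 ≤ ⌊t⌋ := by exact_mod_cast h2
    exact le_trans (by linarith) (le_abs_self _)
  · have h3 : ⌊t⌋ + 1 < m := lt_of_le_of_ne h2 (Ne.symm hm.2)
    have h4 : (⌊t⌋ : ℝ) + 1 + 1 ≤ m := by exact_mod_cast h3
    exact le_trans (by linarith) (neg_le_abs _)

theorem s4a_rho_pair (h : s4a_Step A S) (t : ℝ) :
    ∑ m ∈ ({⌊t⌋, ⌊t⌋ + 1} : Finset ℤ), s4a_rho S (t - (m : ℝ)) = 1 := by
  rw [Finset.sum_pair (by omega)]
  unfold s4a_rho
  have h0 := Int.floor_le t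
  have h1 := Int.lt_floor_add_one t
  have e2 : t - ((⌊t⌋ + 1 : ℤ) : ℝ) + 1 = t - ⌊t⌋ := by push_cast; ring
  rw [e2, h.one (t - ⌊t⌋ + 1) (by linarith), h.zero (t - ((⌊t⌋ + 1 : ℤ) : ℝ)) (by push_cast; linarith)]
  ring

theorem s4a_rho_hasSum (h : s4a_Step A S) (t : ℝ) : HasSum (fun m : ℤ => s4a_rho S (t - (m : ℝ))) 1 := by
  have hs : HasSum (fun m : ℤ => s4a_rho S (t - (m : ℝ))) (∑ m ∈ ({⌊t⌋, ⌊t⌋ + 1} : Finset ℤ), s4a_rho S (t - (m : ℝ))) :=
    hasSum_sum_of_ne_finset_zero (fun m hm => s4a_rho_off h t m hm)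
  rw [s4a_rho_pair h t] at hs
  exact hs

theorem s4a_rho_gev (h : s4a_Step A S) : s4a_Gev (Set.univ : Set ℝ) A (2 * A) (fun t => (s4a_rho S t : ℂ)) := by
  have hA0 : 0 ≤ A := by linarith [h.A_ge]
  have h1 := s4a_gev_affine_real hA0 (s4a_step_gev h) 1 1
  rw [abs_one, mul_one] at h1
  have h2 := h1.sub (s4a_step_gev h)
  have e : A + A = 2 * A := by ring
  rw [e] at h2
  refine s4a_gev_iff.2 (gevw_congr (s4a_gev_iff.1 h2) fun x => ?_)
  unfold s4a_rho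
  rw [one_mul]
  push_cast
  ring

/-! ### `E` -/

theorem s4a_eqc_range (h : s4a_Step A S) (t : ℝ) : 0 ≤ s4a_eqc S t ∧ s4a_eqc S t ≤ 1 := by
  unfold s4a_eqc
  have h1 := s4a_step_range h (2 * t + 1)
  have h2 := s4a_step_range h (1 - 2 * t)
  exact ⟨mul_nonneg h1.1 h2.1, mul_le_one₀ h1.2 h2.1 h2.2⟩

theorem s4a_eqc_zero (h : s4a_Step A S) : s4a_eqc S 0 = 1 := by
  unfold s4a_eqc
  rw [h.one _ (by norm_num), h.one _ (by norm_num), one_mul]

theorem s4a_eqc_supp (h : s4a_Step A S) (t : ℝ) (ht : 1 / 2 ≤ |t|) : s4a_eqc S t = 0 := by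
  unfold s4a_eqc
  rcases le_abs'.mp ht with h1 | h1
  · rw [h.zero (2 * t + 1) (by linarith), zero_mul]
  · rw [h.zero (1 - 2 * t) (by linarith), mul_zero]

theorem s4a_eqc_gev (h : s4a_Step A S) : s4a_Gev (Set.univ : Set ℝ) (4 * A) (A ^ 2) (fun t => (s4a_eqc S t : ℂ)) := by
  have hA0 : 0 ≤ A := by linarith [h.A_ge]
  have h1 := s4a_gev_affine_real hA0 (s4a_step_gev h) 2 1
  have h2 := s4a_gev_affine_real hA0 (s4a_step_gev h) (-2) 1
  have h3 := h1.mul (by positivity) (by positivity) hA0 hA0 h2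
  have e1 : A * |(2 : ℝ)| + A * |(-2 : ℝ)| = 4 * A := by
    rw [abs_neg, abs_of_pos (by norm_num : (0 : ℝ) < 2)]; ring
  have e2 : A * A = A ^ 2 := by ring
  rw [e1, e2] at h3
  refine s4a_gev_iff.2 (gevw_congr (s4a_gev_iff.1 h3) fun x => ?_)
  unfold s4a_eqc
  have e3 : 1 - 2 * x = -2 * x + 1 := by ring
  rw [e3]
  push_cast
  ring

/-! ### plateau -/

theorem s4a_plat_range (h : s4a_Step A S) (K t : ℝ) : 0 ≤ s4a_plat S K t ∧ s4a_plat S K t ≤ 1 := by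
  unfold s4a_plat
  have h1 := s4a_step_range h (t + K + 1)
  have h2 := s4a_step_range h (K + 1 - t)
  exact ⟨mul_nonneg h1.1 h2.1, mul_le_one₀ h1.2 h2.1 h2.2⟩

theorem s4a_plat_one (h : s4a_Step A S) (K t : ℝ) (ht : |t| ≤ K) : s4a_plat S K t = 1 := by
  unfold s4a_plat
  have := abs_le.mp ht
  rw [h.one _ (by linarith [this.1]), h.one _ (by linarith [this.2]), one_mul]

theorem s4a_plat_supp (h : s4a_Step A S) (K t : ℝ) (ht : K + 1 ≤ |t|) : s4a_plat S K t = 0 := by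
  unfold s4a_plat
  rcases le_abs'.mp ht with h1 | h1
  · rw [h.zero (t + K + 1) (by linarith), zero_mul]
  · rw [h.zero (K + 1 - t) (by linarith), mul_zero]

theorem s4a_plat_gev (h : s4a_Step A S) (K : ℝ) :
    s4a_Gev (Set.univ : Set ℝ) (2 * A) (A ^ 2) (fun t => (s4a_plat S K t : ℂ)) := by
  have hA0 : 0 ≤ A := by linarith [h.A_ge]
  have h1 := s4a_gev_affine_real hA0 (s4a_step_gev h) 1 (K + 1)
  have h2 := s4a_gev_affine_real hA0 (s4a_step_gev h) (-1) (K + 1)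
  have h3 := h1.mul (by positivity) (by positivity) hA0 hA0 h2
  have e1 : A * |(1 : ℝ)| + A * |(-1 : ℝ)| = 2 * A := by
    rw [abs_neg, abs_one]; ring
  have e2 : A * A = A ^ 2 := by ring
  rw [e1, e2] at h3
  refine s4a_gev_iff.2 (gevw_congr (s4a_gev_iff.1 h3) fun x => ?_)
  unfold s4a_plat
  have e3 : x + K + 1 = 1 * x + (K + 1) := by ring
  have e4 : K + 1 - x = -1 * x + (K + 1) := by ring
  rw [e3, e4]
  push_cast
  ring

end

/-! ### tensor products -/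

section
variable {ι : Type} [Fintype ι]

theorem s4a_tens_gev {f : ℝ → ℝ} {A B : ℝ} (hA : 0 ≤ A) (hB : 0 ≤ B)
    (h : s4a_Gev (Set.univ : Set ℝ) A B (fun t => (f t : ℂ))) :
    s4a_Gev (Set.univ : Set (ι → ℝ)) ((Fintype.card ι : ℝ) * A) (B ^ Fintype.card ι) (s4a_tens (ι := ι) f) := by
  have hp : ∀ i : ι, ‖(ContinuousLinearMap.proj i : (ι → ℝ) →L[ℝ] ℝ)‖ ≤ 1 := fun i =>
    ContinuousLinearMap.opNorm_le_bound _ zero_le_one (fun x => by simpa using norm_le_pi_norm x i)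
  have h1 : ∀ i ∈ (Finset.univ : Finset ι), GevW s4a_w B A (fun x : ι → ℝ => (f (x i) : ℂ)) Set.univ := by
    intro i _
    have h2 := gevw_comp_affine s4a_wt hA (s4a_gev_iff.1 h) (ContinuousLinearMap.proj i : (ι → ℝ) →L[ℝ] ℝ) 0
      (hp i)
    have h3 := gevw_mono_set h2 (S' := Set.univ) (fun x _ => Set.mem_univ _)
    rw [mul_one] at h3
    exact gevw_congr h3 fun x => by simp
  have h4 := gevw_prod Finset.univ s4a_wt (fun _ _ => hA) h1
  simp only [Finset.prod_const, Finset.sum_const, Finset.card_univ, nsmul_eq_mul] at h4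
  exact s4a_gev_iff.2 h4

theorem s4a_tens_norm_le {f : ℝ → ℝ} (h : ∀ t, 0 ≤ f t ∧ f t ≤ 1) (x : ι → ℝ) : ‖s4a_tens f x‖ ≤ 1 := by
  unfold s4a_tens
  rw [norm_prod]
  apply Finset.prod_le_one (fun i _ => norm_nonneg _)
  intro i _
  rw [Complex.norm_real, Real.norm_eq_abs, abs_of_nonneg (h _).1]
  exact (h _).2

theorem s4a_tens_supp {f : ℝ → ℝ} {K : ℝ} (h : ∀ t, K ≤ |t| → f t = 0) (x : ι → ℝ) (hx : s4a_tens f x ≠ 0) (i : ι) :
    |x i| < K := by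
  by_contra hc
  apply hx
  unfold s4a_tens
  apply Finset.prod_eq_zero (Finset.mem_univ i)
  rw [h _ (not_lt.mp hc)]
  simp

theorem s4a_tens_one {f : ℝ → ℝ} {K : ℝ} (h : ∀ t, |t| ≤ K → f t = 1) (x : ι → ℝ) (hx : ∀ i, |x i| ≤ K) :
    s4a_tens f x = 1 := by
  unfold s4a_tens
  apply Finset.prod_eq_one
  intro i _
  rw [h _ (hx i)]
  simp

theorem s4a_tens_rho_hasSum {A : ℝ} {S : ℝ → ℝ} (h : s4a_Step A S) (x : ι → ℝ) :
    HasSum (fun m : ι → ℤ => s4a_tens (s4a_rho S) fun i => x i - (m i : ℝ)) 1 := by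
  classical
  have hs : HasSum (fun m : ι → ℤ => s4a_tens (s4a_rho S) fun i => x i - (m i : ℝ))
      (∑ m ∈ Fintype.piFinset (fun i => ({⌊x i⌋, ⌊x i⌋ + 1} : Finset ℤ)),
        s4a_tens (s4a_rho S) fun i => x i - (m i : ℝ)) :=
    hasSum_sum_of_ne_finset_zero (by
      intro m hm
      simp only [Fintype.mem_piFinset, not_forall] at hm
      obtain ⟨i, hi⟩ := hm
      unfold s4a_tens
      apply Finset.prod_eq_zero (Finset.mem_univ i)
      rw [s4a_rho_off h (x i) (m i) hi]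
      simp)
  have e : (∑ m ∈ Fintype.piFinset (fun i => ({⌊x i⌋, ⌊x i⌋ + 1} : Finset ℤ)),
      s4a_tens (s4a_rho S) fun i => x i - (m i : ℝ)) = 1 := by
    unfold s4a_tens
    rw [← Finset.prod_univ_sum (fun i => ({⌊x i⌋, ⌊x i⌋ + 1} : Finset ℤ))
      (fun i (k : ℤ) => ((s4a_rho S (x i - (k : ℝ)) : ℝ) : ℂ))]
    apply Finset.prod_eq_one
    intro i _
    rw [← Complex.ofReal_sum, s4a_rho_pair h (x i)]
    simp
  rw [e] at hs
  exact hs

open Classical in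
theorem s4a_tens_eqc_int {A : ℝ} {S : ℝ → ℝ} (h : s4a_Step A S) (z : ι → ℤ) :
    s4a_tens (s4a_eqc S) (fun i => (z i : ℝ)) = if z = 0 then 1 else 0 := by
  split_ifs with hz
  · subst hz
    unfold s4a_tens
    apply Finset.prod_eq_one
    intro i _
    simp only [Pi.zero_apply, Int.cast_zero]
    rw [s4a_eqc_zero h]
    simp
  · obtain ⟨i, hi⟩ := Function.ne_iff.mp hz
    unfold s4a_tens
    apply Finset.prod_eq_zero (Finset.mem_univ i)
    rw [s4a_eqc_supp h]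
    · simp
    · have h1 : (1 : ℤ) ≤ |z i| := Int.one_le_abs hi
      have h2 : (1 : ℝ) ≤ |(z i : ℝ)| := by exact_mod_cast h1
      linarith

end

end Claimed.Agent.R258
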