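/-
Row 258, block [S4a] (architect helper78).  FILE ExpAlg = leaf P-S4a-EXPALG: the ALGEBRA of Lemma 4.4 (charts.tex l.375-415, reorganised).
Uses Defs + the STATEMENTS of Br.lean.

NOTATION.  `Ps = 1 - Pf`, `C_sk = (C - Cᵀ)/2`, `⟨u, w⟩_M = s4a_bil M u w = uᵀ M w`.
  `xM = ½ C + Psᵀ C_sk`,   `xL = C_sk (1 + Pf)`,   `xN = ½ C + C_sk Ps`.
KEY IDENTITY (`s4a_x_identity`, checked numerically with exact rationals): if `Pfᵀ = Pf = Pf²` and `Pfᵀ (C - Cᵀ) Pf = 0`, then for ALL real vectors `u, n`, with `w = u - n`, `N = Ps n`: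
      uᵀ C w = quad(u) - nᵀ xN n + wᵀ xM w + Nᵀ xL w,          quad(u) = ½ uᵀCu + (Pf u)ᵀ C_sk (Ps u).
DERIVATION.  `C = C_sy + C_sk`.  Symmetric part: `uᵀC_sy w = ½uᵀC_sy u + ½wᵀC_sy w - ½nᵀC_sy n` and `xᵀC_sy x = xᵀCx`.
  Skew part: `uᵀC_sk w = -uᵀC_sk n` (`uᵀC_sk u = 0`) `= -(Pf u)ᵀC_sk (Ps n) - (Ps u)ᵀC_sk n` (isotropy: `(Pf u)ᵀC_sk(Pf n) = 0`).  Now substitute `u = w + n`, use again isotropy and skewness. A robust way in Lean:
  pass to real matrices (`M.map (↑)`), write `s4a_bil M u w = u ⬝ᵥ (M.map (↑)) *ᵥ w`, put `u = w + n`, expand both sides bilinearly into the four forms in `(w,w), (w,n), (n,w), (n,n)` and compare the four MATRICES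
  (identities between rational matrices, consequences of `Pfᵀ = Pf`, `Pf*Pf = Pf`, `Pf*(C-Cᵀ)*Pf = 0`; `noncomm_ring`/`simp [Matrix.mul_add, ...]`); note that for the `(w,w)` and `(n,n)` parts only the SYMMETRIC parts of
  the matrices must agree (`xᵀ M x = xᵀ Mᵀ x`), and the `(w,n)` and `(n,w)` parts may be combined by transposition.
INTEGRALITY.  `Pc = s4a_den C`, `q0 = s4a_den Pf` (products of all denominators).  `2 Pc q0 · xN` is an integer matrix.  So for `R` a multiple of `2 Pc q0`: `(n+Rm)ᵀ xN (n+Rm) - nᵀ xN n = R(nᵀ xN m + mᵀ xN n) + R² mᵀ xN m ∈ ℤ`.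
REDUCED SLOW INDEX.  `s4a_xZ Pf n = q0 Ps n ∈ ℤ^ι`;  `s4a_xRed Pf R n = bmod(q0 Ps n, R)/q0` (coordinatewise balanced residue `Int.bmod`): `R`-periodic in `n`, bounded by `R/(2 q0)`, equal to `Ps n` as soon as
  `2 q0 |Ps n|_∞ < R` (`Int.bmod_eq_of_...`/unfold `Int.bmod`, `Int.emod_eq_of_lt`, `omega`).
-/
import Claimed.Agent.R258.S4a.Br

set_option autoImplicit false
open MeasureTheory
open scoped ENNReal ContDiff ComplexConjugate

namespace Claimed.Agent.R258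

variable {ι : Type} [Fintype ι] [DecidableEq ι]

/-- integer vectors as real vectors -/
def s4a_Z (n : ι → ℤ) : ι → ℝ := fun i => (n i : ℝ)

/-- `C_sk = (C - Cᵀ)/2` -/
def s4a_sk (C : Matrix ι ι ℚ) : Matrix ι ι ℚ := (1 / 2 : ℚ) • (C - C.transpose)

def s4a_xM (C Pf : Matrix ι ι ℚ) : Matrix ι ι ℚ := (1 / 2 : ℚ) • C + (1 - Pf).transpose * s4a_sk C

def s4a_xL (C Pf : Matrix ι ι ℚ) : Matrix ι ι ℚ := s4a_sk C * (1 + Pf)

def s4a_xN (C Pf : Matrix ι ι ℚ) : Matrix ι ι ℚ := (1 / 2 : ℚ) • C + s4a_sk C * (1 - Pf)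

/-- the product of all denominators -/
def s4a_den (C : Matrix ι ι ℚ) : ℕ := ∏ i, ∏ j, (C i j).den

/-- `q0 Ps n` as an integer vector -/
def s4a_xZ (Pf : Matrix ι ι ℚ) (n : ι → ℤ) : ι → ℤ :=
  fun i => ∑ j, (((s4a_den Pf : ℕ) : ℚ) * (1 - Pf) i j).num * n j

/-- the reduced slow index -/
noncomputable def s4a_xRed (Pf : Matrix ι ι ℚ) (R : ℕ) (n : ι → ℤ) : ι → ℝ :=
  fun i => ((Int.bmod (s4a_xZ Pf n i) R : ℤ) : ℝ) / ((s4a_den Pf : ℕ) : ℝ)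

/-! ### the identity -/

open Matrix in
omit [DecidableEq ι] in
theorem s4a_bil_eq_dotProduct (M : Matrix ι ι ℚ) (u w : ι → ℝ) :
    s4a_bil M u w = u ⬝ᵥ ((M.map (Rat.cast : ℚ → ℝ)) *ᵥ w) := by
  simp only [s4a_bil, dotProduct, Matrix.mulVec, Matrix.map_apply, Finset.mul_sum, mul_assoc]

open Matrix in
omit [DecidableEq ι] in
theorem s4a_mv_eq_mulVec (M : Matrix ι ι ℚ) (u : ι → ℝ) :
    s4a_mv M u = (M.map (Rat.cast : ℚ → ℝ)) *ᵥ u := by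
  funext i
  simp only [s4a_mv, dotProduct, Matrix.mulVec, Matrix.map_apply]

open Matrix in
theorem s4a_x_identity (C Pf : Matrix ι ι ℚ) (hP : s4a_IsProj Pf) (hI : s4a_Iso C Pf) (u n : ι → ℝ) :
    s4a_bil C u (fun i => u i - n i) =
      s4a_quad C Pf u - s4a_bil (s4a_xN C Pf) n n + s4a_bil (s4a_xM C Pf) (fun i => u i - n i) (fun i => u i - n i)
        + s4a_bil (s4a_xL C Pf) (s4a_mv (1 - Pf) n) (fun i => u i - n i) := by
  set A : Matrix ι ι ℝ := C.map (Rat.cast : ℚ → ℝ) with hA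
  set P : Matrix ι ι ℝ := Pf.map (Rat.cast : ℚ → ℝ) with hPd
  have hmul : ∀ M N : Matrix ι ι ℚ, (M * N).map (Rat.cast : ℚ → ℝ) = M.map Rat.cast * N.map Rat.cast :=
    fun M N => Matrix.map_mul (f := Rat.castHom ℝ)
  have hadd : ∀ M N : Matrix ι ι ℚ, (M + N).map (Rat.cast : ℚ → ℝ) = M.map Rat.cast + N.map Rat.cast :=
    fun M N => Matrix.map_add (Rat.castHom ℝ) (fun a b => map_add _ a b) M N
  have hsub : ∀ M N : Matrix ι ι ℚ, (M - N).map (Rat.cast : ℚ → ℝ) = M.map Rat.cast - N.map Rat.cast :=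
    fun M N => Matrix.map_sub (Rat.castHom ℝ) (fun a b => map_sub _ a b) M N
  have hone : (1 : Matrix ι ι ℚ).map (Rat.cast : ℚ → ℝ) = 1 :=
    Matrix.map_one (Rat.castHom ℝ) (map_zero _) (map_one _)
  have hsm : ∀ (q : ℚ) (M : Matrix ι ι ℚ), (q • M).map (Rat.cast : ℚ → ℝ) = (q : ℝ) • M.map Rat.cast := by
    intro q M
    ext i j
    simp
  have htr : ∀ M : Matrix ι ι ℚ, (M.transpose).map (Rat.cast : ℚ → ℝ) = (M.map Rat.cast).transpose :=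
    fun M => rfl
  have hiso : ∀ x y : ι → ℝ, (P *ᵥ x) ⬝ᵥ (A *ᵥ (P *ᵥ y)) = (P *ᵥ y) ⬝ᵥ (A *ᵥ (P *ᵥ x)) := by
    intro x y
    have h0 : P.transpose * (A - A.transpose) * P = 0 := by
      have := congrArg (fun M : Matrix ι ι ℚ => M.map (Rat.cast : ℚ → ℝ)) hI
      simp only [hmul, hsub, htr] at this
      rw [this]
      ext i j
      simp
    have h1 : x ⬝ᵥ ((P.transpose * (A - A.transpose) * P) *ᵥ y) = 0 := by
      rw [h0, Matrix.zero_mulVec, dotProduct_zero]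
    rw [← Matrix.mulVec_mulVec, ← Matrix.mulVec_mulVec, Matrix.dotProduct_mulVec, Matrix.vecMul_transpose,
      Matrix.sub_mulVec, dotProduct_sub, sub_eq_zero] at h1
    rw [h1, Matrix.dotProduct_mulVec, Matrix.vecMul_transpose, dotProduct_comm]
  have hw : (fun i => u i - n i) = u - n := rfl
  simp only [s4a_quad, s4a_bil_eq_dotProduct, s4a_mv_eq_mulVec, s4a_xN, s4a_xM, s4a_xL, s4a_sk, hmul, hadd, hsub,
    hone, hsm, htr, ← hA, ← hPd, hw]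
  have hPt : P.transpose = P := by
    rw [hPd, ← htr, hP.1]
  have hT : ∀ (x y : ι → ℝ), x ⬝ᵥ (A.transpose *ᵥ y) = y ⬝ᵥ (A *ᵥ x) := by
    intro x y
    rw [Matrix.dotProduct_mulVec, Matrix.vecMul_transpose, dotProduct_comm]
  have hT' : ∀ (x y : ι → ℝ), x ⬝ᵥ (P *ᵥ y) = (P *ᵥ x) ⬝ᵥ y := by
    intro x y
    rw [Matrix.dotProduct_mulVec, ← Matrix.vecMul_transpose, hPt]
  simp only [Matrix.add_mulVec, Matrix.sub_mulVec, Matrix.smul_mulVec, Matrix.one_mulVec, ← Matrix.mulVec_mulVec,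
    Matrix.mulVec_add, Matrix.mulVec_sub, Matrix.mulVec_smul, dotProduct_add, dotProduct_sub,
    sub_dotProduct, dotProduct_smul, Matrix.transpose_sub, Matrix.transpose_one, hPt, hT, hT',
    smul_eq_mul]
  have h1 := hiso n u
  push_cast
  linarith

/-! ### denominators -/

theorem s4a_den_pos (C : Matrix ι ι ℚ) : 1 ≤ s4a_den C := by
  exact Nat.succ_le_of_lt (Finset.prod_pos fun i _ => Finset.prod_pos fun j _ => (C i j).den_pos)

theorem s4a_den_le (C : Matrix ι ι ℚ) (H : ℝ) (hC : s4a_HtLe C H) :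
    ((s4a_den C : ℕ) : ℝ) ≤ H ^ (Fintype.card ι ^ 2) := by
  have h1 : ∀ i j, (((C i j).den : ℕ) : ℝ) ≤ H := fun i j =>
    le_trans (by exact_mod_cast le_max_right _ _) (hC i j)
  unfold s4a_den
  push_cast
  calc ∏ i, ∏ j, (((C i j).den : ℕ) : ℝ) ≤ ∏ _i : ι, ∏ _j : ι, H :=
        Finset.prod_le_prod (fun i _ => Finset.prod_nonneg fun j _ => Nat.cast_nonneg _)
          (fun i _ => Finset.prod_le_prod (fun j _ => Nat.cast_nonneg _) (fun j _ => h1 i j))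
    _ = H ^ (Fintype.card ι ^ 2) := by
        simp only [Finset.prod_const, Finset.card_univ]
        rw [← pow_mul, sq]

theorem s4a_den_clears (C : Matrix ι ι ℚ) (i j : ι) : ∃ z : ℤ, ((s4a_den C : ℕ) : ℚ) * C i j = z := by
  have h1 : (C i j).den ∣ s4a_den C :=
    (Finset.dvd_prod_of_mem (fun j => (C i j).den) (Finset.mem_univ j)).trans
      (Finset.dvd_prod_of_mem (fun i => ∏ j, (C i j).den) (Finset.mem_univ i))
  obtain ⟨k, hk⟩ := h1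
  refine ⟨(k : ℤ) * (C i j).num, ?_⟩
  rw [hk]
  push_cast
  rw [mul_comm (((C i j).den : ℕ) : ℚ) (k : ℚ), mul_assoc, Rat.den_mul_eq_num]

theorem s4a_den_clears_one_sub (Pf : Matrix ι ι ℚ) (i j : ι) :
    ∃ z : ℤ, ((s4a_den Pf : ℕ) : ℚ) * (1 - Pf) i j = z := by
  obtain ⟨z, hz⟩ := s4a_den_clears Pf i j
  by_cases h : i = j
  · refine ⟨(s4a_den Pf : ℤ) - z, ?_⟩
    rw [Matrix.sub_apply, mul_sub, hz, h, Matrix.one_apply_eq]
    push_cast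
    ring
  · refine ⟨-z, ?_⟩
    rw [Matrix.sub_apply, mul_sub, hz, Matrix.one_apply_ne h]
    push_cast
    ring

/-- `2 Pc q0 xN` is integral -/
theorem s4a_xN_clears (C Pf : Matrix ι ι ℚ) (i j : ι) :
    ∃ z : ℤ, ((2 * s4a_den C * s4a_den Pf : ℕ) : ℚ) * s4a_xN C Pf i j = z := by
  choose zC hzC using s4a_den_clears C
  choose zP hzP using s4a_den_clears_one_sub Pf
  refine ⟨(s4a_den Pf : ℤ) * zC i j + ∑ k, (zC i k - zC k i) * zP k j, ?_⟩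
  simp only [s4a_xN, s4a_sk, Matrix.add_apply, Matrix.smul_apply, Matrix.mul_apply, Matrix.sub_apply,
    Matrix.transpose_apply, smul_eq_mul]
  push_cast
  rw [mul_add, Finset.mul_sum]
  congr 1
  · rw [← hzC i j]; ring
  · refine Finset.sum_congr rfl fun k _ => ?_
    rw [← hzC i k, ← hzC k i, ← hzP k j]
    simp only [Matrix.sub_apply]
    ring

/-- the residue phase is `R`-periodic -/
theorem s4a_xN_periodic (C Pf : Matrix ι ι ℚ) (R : ℕ) (hR : 2 * s4a_den C * s4a_den Pf ∣ R) (n m : ι → ℤ) :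
    ee (-(s4a_bil (s4a_xN C Pf) (s4a_Z fun i => n i + (R : ℤ) * m i) (s4a_Z fun i => n i + (R : ℤ) * m i))) =
      ee (-(s4a_bil (s4a_xN C Pf) (s4a_Z n) (s4a_Z n))) := by
  obtain ⟨k, hk⟩ := hR
  have hcl : ∀ i j, ∃ z : ℤ, (R : ℚ) * s4a_xN C Pf i j = z := by
    intro i j
    obtain ⟨z, hz⟩ := s4a_xN_clears C Pf i j
    refine ⟨(k : ℤ) * z, ?_⟩
    rw [hk]
    push_cast at hz ⊢
    rw [← hz]
    ring
  have hcl' : ∀ i j, ∃ z : ℤ, (R : ℚ) * (s4a_xN C Pf).transpose i j = z := fun i j => hcl j i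
  have e1 : (s4a_Z fun i => n i + (R : ℤ) * m i) = fun i => s4a_Z n i + (R : ℝ) * (m i : ℝ) := by
    funext i
    simp [s4a_Z]
  obtain ⟨z₁, hz₁⟩ := s4a_bil_int (s4a_xN C Pf) R hcl m (fun i => n i + (R : ℤ) * m i)
  obtain ⟨z₂, hz₂⟩ := s4a_bil_int (s4a_xN C Pf).transpose R hcl' m n
  rw [s4a_bil_transpose] at hz₂
  have e2 : s4a_bil (s4a_xN C Pf) (s4a_Z fun i => n i + (R : ℤ) * m i) (s4a_Z fun i => n i + (R : ℤ) * m i) =
      s4a_bil (s4a_xN C Pf) (s4a_Z n) (s4a_Z n) + z₂ + z₁ := by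
    conv_lhs => rw [show (s4a_Z fun i => n i + (R : ℤ) * m i) = fun i => s4a_Z n i + (R : ℝ) * (m i : ℝ) from e1]
    rw [s4a_bil_add_left, ← e1]
    have e3 : s4a_bil (s4a_xN C Pf) (fun i => (R : ℝ) * (m i : ℝ)) (s4a_Z fun i => n i + (R : ℤ) * m i) = z₁ := hz₁
    rw [e3, e1, s4a_bil_add_right]
    have e4 : s4a_bil (s4a_xN C Pf) (s4a_Z n) (fun i => (R : ℝ) * (m i : ℝ)) = z₂ := hz₂
    rw [e4]
  rw [e2]
  have e5 : -(s4a_bil (s4a_xN C Pf) (s4a_Z n) (s4a_Z n) + (z₂ : ℝ) + (z₁ : ℝ)) =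
      -(s4a_bil (s4a_xN C Pf) (s4a_Z n) (s4a_Z n)) + ((-z₂ - z₁ : ℤ) : ℝ) := by
    push_cast
    ring
  rw [e5, s4a_ee_add_int]

/-! ### the reduced slow index -/

theorem s4a_xZ_cast (Pf : Matrix ι ι ℚ) (n : ι → ℤ) (i : ι) :
    ((s4a_xZ Pf n i : ℤ) : ℝ) = ((s4a_den Pf : ℕ) : ℝ) * s4a_mv (1 - Pf) (s4a_Z n) i := by
  simp only [s4a_xZ, s4a_mv, s4a_Z]
  push_cast
  rw [Finset.mul_sum]
  refine Finset.sum_congr rfl fun j _ => ?_
  obtain ⟨z, hz⟩ := s4a_den_clears_one_sub Pf i j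
  have h1 : ((((s4a_den Pf : ℕ) : ℚ) * (1 - Pf) i j).num : ℝ) =
      ((s4a_den Pf : ℕ) : ℝ) * (((1 - Pf) i j : ℚ) : ℝ) := by
    rw [hz, Rat.num_intCast]
    have : ((z : ℚ) : ℝ) = ((((s4a_den Pf : ℕ) : ℚ) * (1 - Pf) i j : ℚ) : ℝ) := by rw [hz]
    push_cast at this
    exact this
  rw [h1]
  ring

theorem s4a_xRed_periodic (Pf : Matrix ι ι ℚ) (R : ℕ) (n m : ι → ℤ) :
    s4a_xRed Pf R (fun i => n i + (R : ℤ) * m i) = s4a_xRed Pf R n := by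
  funext i
  have h1 : s4a_xZ Pf (fun i => n i + (R : ℤ) * m i) i = s4a_xZ Pf n i + (R : ℤ) * s4a_xZ Pf m i := by
    simp only [s4a_xZ]
    rw [Finset.mul_sum, ← Finset.sum_add_distrib]
    refine Finset.sum_congr rfl fun j _ => ?_
    ring
  simp only [s4a_xRed]
  rw [h1, Int.add_mul_bmod_self_left]

theorem s4a_xRed_abs_le (Pf : Matrix ι ι ℚ) (R : ℕ) (hR : 1 ≤ R) (n : ι → ℤ) (i : ι) :
    |s4a_xRed Pf R n i| ≤ (R : ℝ) / 2 := by
  have hR0 : 0 < R := hR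
  have h1 := Int.le_bmod (x := s4a_xZ Pf n i) hR0
  have h2 := Int.bmod_lt (x := s4a_xZ Pf n i) hR0
  set b := Int.bmod (s4a_xZ Pf n i) R with hb
  have h3 : -(R : ℤ) ≤ 2 * b := by omega
  have h4 : 2 * b ≤ (R : ℤ) := by omega
  have h3' : -(R : ℝ) ≤ 2 * (b : ℝ) := by exact_mod_cast h3
  have h4' : 2 * (b : ℝ) ≤ (R : ℝ) := by exact_mod_cast h4
  have hq : (1 : ℝ) ≤ ((s4a_den Pf : ℕ) : ℝ) := by exact_mod_cast s4a_den_pos Pf
  have hbabs : |(b : ℝ)| ≤ (R : ℝ) / 2 := abs_le.2 ⟨by linarith, by linarith⟩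
  simp only [s4a_xRed]
  rw [← hb, abs_div, abs_of_pos (by linarith : (0 : ℝ) < ((s4a_den Pf : ℕ) : ℝ))]
  calc |(b : ℝ)| / ((s4a_den Pf : ℕ) : ℝ) ≤ |(b : ℝ)| / 1 :=
        div_le_div_of_nonneg_left (abs_nonneg _) one_pos hq
    _ ≤ (R : ℝ) / 2 := by rwa [div_one]

theorem s4a_xRed_eq (Pf : Matrix ι ι ℚ) (R : ℕ) (n : ι → ℤ)
    (h : ∀ i, 2 * ((s4a_den Pf : ℕ) : ℝ) * |s4a_mv (1 - Pf) (s4a_Z n) i| < R) :
    s4a_xRed Pf R n = s4a_mv (1 - Pf) (s4a_Z n) := by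
  funext i
  have hq : (1 : ℝ) ≤ ((s4a_den Pf : ℕ) : ℝ) := by exact_mod_cast s4a_den_pos Pf
  have hq0 : (0 : ℝ) < ((s4a_den Pf : ℕ) : ℝ) := by linarith
  have hc := s4a_xZ_cast Pf n i
  have h1 : 2 * |((s4a_xZ Pf n i : ℤ) : ℝ)| < R := by
    rw [hc, abs_mul, abs_of_pos hq0]
    have := h i
    linarith
  have h2 : -(R : ℝ) < ((s4a_xZ Pf n i : ℤ) : ℝ) * 2 := by
    have := neg_abs_le ((s4a_xZ Pf n i : ℤ) : ℝ)
    linarith
  have h3 : ((s4a_xZ Pf n i : ℤ) : ℝ) * 2 < R := by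
    have := le_abs_self ((s4a_xZ Pf n i : ℤ) : ℝ)
    linarith
  have h2' : -(R : ℤ) ≤ s4a_xZ Pf n i * 2 := by
    have : -(R : ℤ) < s4a_xZ Pf n i * 2 := by exact_mod_cast h2
    exact this.le
  have h3' : s4a_xZ Pf n i * 2 < (R : ℤ) := by exact_mod_cast h3
  simp only [s4a_xRed]
  rw [Int.bmod_eq_of_le_mul_two h2' h3', hc]
  field_simp

/-! ### sizes -/

theorem s4a_mv_abs_le (P : Matrix ι ι ℚ) (X Y : ℝ) (hY : 0 ≤ Y) (hP : ∀ i j, |((P i j : ℚ) : ℝ)| ≤ X) (u : ι → ℝ)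
    (hu : ∀ i, |u i| ≤ Y) (i : ι) : |s4a_mv P u i| ≤ (Fintype.card ι : ℝ) * X * Y := by
  simp only [s4a_mv]
  calc |∑ j, ((P i j : ℚ) : ℝ) * u j| ≤ ∑ j, |((P i j : ℚ) : ℝ) * u j| := Finset.abs_sum_le_sum_abs _ _
    _ ≤ ∑ _j : ι, X * Y := by
        refine Finset.sum_le_sum fun j _ => ?_
        rw [abs_mul]
        exact mul_le_mul (hP i j) (hu j) (abs_nonneg _) ((abs_nonneg _).trans (hP i j))
    _ = (Fintype.card ι : ℝ) * X * Y := by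
        rw [Finset.sum_const, Finset.card_univ, nsmul_eq_mul]
        ring

theorem s4a_one_sub_abs_le (Pf : Matrix ι ι ℚ) (B : ℝ) (hB : s4a_HtLe Pf B) (i j : ι) :
    |(((1 - Pf) i j : ℚ) : ℝ)| ≤ 1 + B := by
  have h1 : |((Pf i j : ℚ) : ℝ)| ≤ B := (s4a_abs_le_height _).trans (hB i j)
  have h2 : |(((1 : Matrix ι ι ℚ) i j : ℚ) : ℝ)| ≤ 1 := by
    by_cases h : i = j
    · rw [h, Matrix.one_apply_eq]; simp
    · rw [Matrix.one_apply_ne h]; simp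
  rw [Matrix.sub_apply]
  push_cast
  calc |(((1 : Matrix ι ι ℚ) i j : ℚ) : ℝ) - ((Pf i j : ℚ) : ℝ)|
      ≤ |(((1 : Matrix ι ι ℚ) i j : ℚ) : ℝ)| + |((Pf i j : ℚ) : ℝ)| := abs_sub _ _
    _ ≤ 1 + B := add_le_add h2 h1

theorem s4a_mv_sub (P : Matrix ι ι ℚ) (u n : ι → ℝ) (i : ι) :
    s4a_mv P (fun k => u k - n k) i = s4a_mv P u i - s4a_mv P n i := by
  simp only [s4a_mv]
  rw [← Finset.sum_sub_distrib]
  exact Finset.sum_congr rfl fun j _ => by ring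

/-- the slow index of a lattice point contributing at `u` is bounded -/
theorem s4a_x_slow_le (Pf : Matrix ι ι ℚ) (B K : ℝ) (hK : 0 ≤ K) (hB : s4a_HtLe Pf B) (u : ι → ℝ) (n : ι → ℤ)
    (hu : ∀ i, |s4a_mv (1 - Pf) u i| ≤ B) (hw : ∀ i, |u i - (n i : ℝ)| ≤ K) (i : ι) :
    |s4a_mv (1 - Pf) (s4a_Z n) i| ≤ B + (Fintype.card ι : ℝ) * (1 + B) * K := by
  have h1 := s4a_mv_sub (1 - Pf) u (s4a_Z n) i
  have h2 : |s4a_mv (1 - Pf) (fun k => u k - s4a_Z n k) i| ≤ (Fintype.card ι : ℝ) * (1 + B) * K :=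
    s4a_mv_abs_le (1 - Pf) (1 + B) K hK (s4a_one_sub_abs_le Pf B hB) _ hw i
  have h3 : s4a_mv (1 - Pf) (s4a_Z n) i = s4a_mv (1 - Pf) u i - s4a_mv (1 - Pf) (fun k => u k - s4a_Z n k) i := by
    rw [h1]; ring
  rw [h3]
  exact (abs_sub _ _).trans (add_le_add (hu i) h2)

omit [Fintype ι] [DecidableEq ι] in
theorem s4a_sk_abs_le (C : Matrix ι ι ℚ) (H : ℝ) (hC : s4a_HtLe C H) (i j : ι) :
    |((s4a_sk C i j : ℚ) : ℝ)| ≤ H := by
  have hCa : ∀ a b, |((C a b : ℚ) : ℝ)| ≤ H := fun a b => (s4a_abs_le_height _).trans (hC a b)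
  simp only [s4a_sk, Matrix.smul_apply, Matrix.sub_apply, Matrix.transpose_apply, smul_eq_mul]
  push_cast
  rw [abs_mul, abs_of_pos (by norm_num : (0 : ℝ) < 1 / 2)]
  have := abs_sub ((C i j : ℚ) : ℝ) ((C j i : ℚ) : ℝ)
  linarith [hCa i j, hCa j i]

theorem s4a_xM_abs_le (C Pf : Matrix ι ι ℚ) (H B : ℝ) (hC : s4a_HtLe C H) (hB : s4a_HtLe Pf B) (i j : ι) :
    |((s4a_xM C Pf i j : ℚ) : ℝ)| ≤ H + (Fintype.card ι : ℝ) * (1 + B) * H := by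
  have hCa : ∀ a b, |((C a b : ℚ) : ℝ)| ≤ H := fun a b => (s4a_abs_le_height _).trans (hC a b)
  have hH : 0 ≤ H := (abs_nonneg _).trans (hCa i j)
  have hsk := s4a_sk_abs_le C H hC
  simp only [s4a_xM, Matrix.add_apply, Matrix.smul_apply, Matrix.mul_apply, Matrix.transpose_apply, smul_eq_mul]
  push_cast
  refine (abs_add_le _ _).trans (add_le_add ?_ ?_)
  · rw [abs_mul]
    have := hCa i j
    have h2 : |(1 / 2 : ℝ)| = 1 / 2 := abs_of_pos (by norm_num)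
    rw [h2]
    linarith
  · calc |∑ k, (((1 - Pf) k i : ℚ) : ℝ) * ((s4a_sk C k j : ℚ) : ℝ)|
        ≤ ∑ k, |(((1 - Pf) k i : ℚ) : ℝ) * ((s4a_sk C k j : ℚ) : ℝ)| := Finset.abs_sum_le_sum_abs _ _
      _ ≤ ∑ _k : ι, (1 + B) * H := by
          refine Finset.sum_le_sum fun k _ => ?_
          rw [abs_mul]
          exact mul_le_mul (s4a_one_sub_abs_le Pf B hB k i) (hsk k j) (abs_nonneg _)
            ((abs_nonneg _).trans (s4a_one_sub_abs_le Pf B hB k i))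
      _ = (Fintype.card ι : ℝ) * (1 + B) * H := by
          rw [Finset.sum_const, Finset.card_univ, nsmul_eq_mul]
          ring

theorem s4a_xL_abs_le (C Pf : Matrix ι ι ℚ) (H B : ℝ) (hC : s4a_HtLe C H) (hB : s4a_HtLe Pf B) (i j : ι) :
    |((s4a_xL C Pf i j : ℚ) : ℝ)| ≤ (Fintype.card ι : ℝ) * (1 + B) * H := by
  have hsk := s4a_sk_abs_le C H hC
  have hadd : ∀ a b, |(((1 + Pf) a b : ℚ) : ℝ)| ≤ 1 + B := by
    intro a b
    have h1 : |((Pf a b : ℚ) : ℝ)| ≤ B := (s4a_abs_le_height _).trans (hB a b)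
    have h2 : |(((1 : Matrix ι ι ℚ) a b : ℚ) : ℝ)| ≤ 1 := by
      by_cases h : a = b
      · rw [h, Matrix.one_apply_eq]; simp
      · rw [Matrix.one_apply_ne h]; simp
    rw [Matrix.add_apply]
    push_cast
    exact (abs_add_le _ _).trans (add_le_add h2 h1)
  simp only [s4a_xL, Matrix.mul_apply]
  push_cast
  calc |∑ k, ((s4a_sk C i k : ℚ) : ℝ) * (((1 + Pf) k j : ℚ) : ℝ)|
      ≤ ∑ k, |((s4a_sk C i k : ℚ) : ℝ) * (((1 + Pf) k j : ℚ) : ℝ)| := Finset.abs_sum_le_sum_abs _ _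
    _ ≤ ∑ _k : ι, H * (1 + B) := by
        refine Finset.sum_le_sum fun k _ => ?_
        rw [abs_mul]
        exact mul_le_mul (hsk i k) (hadd k j) (abs_nonneg _) ((abs_nonneg _).trans (hsk i k))
    _ = (Fintype.card ι : ℝ) * (1 + B) * H := by
        rw [Finset.sum_const, Finset.card_univ, nsmul_eq_mul]
        ring

end Claimed.Agent.R258
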