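/-
Row 258, block [S4a] (architect helper78).  FILE ExpGev = leaf P-S4a-EXPGEV: the `R`-periodic family of amplitudes of Lemma 4.4 and the reduction of the bracket sum to a lattice sum.
Uses the STATEMENTS of ExpAlg.lean, Gev.lean, Br.lean, LatFourier.lean (only the definition `s4a_latsum`).

  `s4a_xG C Pf R chi n w = e(-nᵀ xN n) · chi(w) · e(wᵀ xM w + Ñ(n)ᵀ xL w)`,   `Ñ(n) = s4a_xRed Pf R n`.

PLANS.
* `s4a_xG_periodic`: `s4a_xN_periodic`, `s4a_xRed_periodic` (`funext w`).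
* `s4a_xG_supp`: a product which is nonzero has `chi w ≠ 0`.
* `s4a_xG_gev`: on the box `[-K,K]^ι` apply `s4a_gev_ee_quad` with `M i j = (xM i j : ℝ)`, `σ j = ∑ i, Ñ_i (xL i j : ℝ)`, `c = 0`
  (`s4a_bil xL Ñ w = s4a_dot σ w`: `Finset.sum_comm`), using `|xM i j| ≤ Y`, `|xL i j| ≤ Y`, `Y = H + d(1+B)H`, `|Ñ_i| ≤ R/2`:  `∑∑|M| ≤ d² Y`, `∑|σ| ≤ d² (R/2) Y`.  So `D = d² Y (2K + R) + 1` works
  for `h1` and `h2` (`2 d² Y ≤ D ≤ D²` since `R ≥ 1`, ... check `2 d² Y ≤ D²`: `D ≥ 1 + d²Y`, `D² ≥ 1 + 2 d² Y`).  Then `s4a_Gev.mul` with `chi` (restricted to the box by `s4a_Gev.mono`), `s4a_Gev.const_mul` with the unimodular constant,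
  `s4a_Amp.of_box`.
* `s4a_x_term`: if `chi (u - n) = 0` both sides vanish.  Otherwise `|u i - n i| ≤ K`, so `s4a_x_slow_le` and `hR` give `s4a_xRed Pf R n = Ps n` (`s4a_xRed_eq`), and `s4a_x_identity` (with the real vector `s4a_Z n`) + `s4a_ee_add`.
* `s4a_x_latsum`: `tsum_mul_left` and `tsum_congr` with `s4a_x_term`.
-/
import Claimed.Agent.R258.S4a.ExpAlg
import Claimed.Agent.R258.S4a.LatFourier

set_option autoImplicit false
open MeasureTheory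
open scoped ENNReal ContDiff ComplexConjugate

namespace Claimed.Agent.R258

variable {ι : Type} [Fintype ι] [DecidableEq ι]

/-- the periodic family of amplitudes -/
noncomputable def s4a_xG (C Pf : Matrix ι ι ℚ) (R : ℕ) (chi : (ι → ℝ) → ℂ) (n : ι → ℤ) (w : ι → ℝ) : ℂ :=
  ee (-(s4a_bil (s4a_xN C Pf) (s4a_Z n) (s4a_Z n))) *
    (chi w * ee (s4a_bil (s4a_xM C Pf) w w + s4a_bil (s4a_xL C Pf) (s4a_xRed Pf R n) w))

theorem s4a_xG_periodic (C Pf : Matrix ι ι ℚ) (R : ℕ) (hR : 2 * s4a_den C * s4a_den Pf ∣ R) (chi : (ι → ℝ) → ℂ)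
    (n m : ι → ℤ) : s4a_xG C Pf R chi (fun i => n i + (R : ℤ) * m i) = s4a_xG C Pf R chi n := by
  funext w
  simp only [s4a_xG]
  rw [s4a_xN_periodic C Pf R hR n m, s4a_xRed_periodic]

theorem s4a_xG_supp (C Pf : Matrix ι ι ℚ) (R : ℕ) {chi : (ι → ℝ) → ℂ} {K : ℝ} (hs : ∀ x, chi x ≠ 0 → ∀ i, |x i| ≤ K)
    (n : ι → ℤ) (w : ι → ℝ) (h : s4a_xG C Pf R chi n w ≠ 0) (i : ι) : |w i| ≤ K := by
  exact hs w (fun h0 => h (by simp [s4a_xG, h0])) i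

/-- the constant `D` of the phase of `s4a_xG` -/
noncomputable def s4a_xD (d : ℕ) (H B K : ℝ) (R : ℕ) : ℝ :=
  (d : ℝ) ^ 2 * (H + (d : ℝ) * (1 + B) * H) * (2 * K + (R : ℝ)) + 1

theorem s4a_xG_amp (C Pf : Matrix ι ι ℚ) (R : ℕ) (hR : 1 ≤ R) {chi : (ι → ℝ) → ℂ} {H B K A₀ B₀ : ℝ} (hK : 0 ≤ K)
    (hH : 1 ≤ H) (hB1 : 1 ≤ B) (hA₀ : 0 ≤ A₀) (hB₀ : 0 ≤ B₀) (hC : s4a_HtLe C H) (hB : s4a_HtLe Pf B)
    (hchi : s4a_Amp K A₀ B₀ chi) (n : ι → ℤ) :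
    s4a_Amp K (A₀ + 2 * Real.pi * s4a_xD (Fintype.card ι) H B K R) B₀ (s4a_xG C Pf R chi n) := by
  set d : ℝ := (Fintype.card ι : ℝ) with hd
  have hd0 : 0 ≤ d := Nat.cast_nonneg _
  set Y : ℝ := H + d * (1 + B) * H with hY
  have hY0 : 0 ≤ Y := by positivity
  have hR1 : (1 : ℝ) ≤ (R : ℝ) := by exact_mod_cast hR
  set D : ℝ := s4a_xD (Fintype.card ι) H B K R with hD
  have hDe : D = d ^ 2 * Y * (2 * K + (R : ℝ)) + 1 := rfl
  set M : ι → ι → ℝ := fun i j => ((s4a_xM C Pf i j : ℚ) : ℝ) with hM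
  set σ : ι → ℝ := fun j => ∑ i, s4a_xRed Pf R n i * ((s4a_xL C Pf i j : ℚ) : ℝ) with hσ
  have hMs : ∑ i, ∑ j, |M i j| ≤ d ^ 2 * Y := by
    calc ∑ i, ∑ j, |M i j| ≤ ∑ _i : ι, ∑ _j : ι, Y :=
          Finset.sum_le_sum fun i _ => Finset.sum_le_sum fun j _ => s4a_xM_abs_le C Pf H B hC hB i j
      _ = d ^ 2 * Y := by
          simp only [Finset.sum_const, Finset.card_univ, nsmul_eq_mul]
          ring
  have hLY : ∀ i j, |((s4a_xL C Pf i j : ℚ) : ℝ)| ≤ Y := fun i j =>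
    (s4a_xL_abs_le C Pf H B hC hB i j).trans (by rw [hY]; linarith)
  have hσs : ∑ j, |σ j| ≤ d ^ 2 * ((R : ℝ) / 2 * Y) := by
    calc ∑ j, |σ j| ≤ ∑ _j : ι, ∑ _i : ι, (R : ℝ) / 2 * Y := by
          refine Finset.sum_le_sum fun j _ => (Finset.abs_sum_le_sum_abs _ _).trans ?_
          refine Finset.sum_le_sum fun i _ => ?_
          rw [abs_mul]
          exact mul_le_mul (s4a_xRed_abs_le Pf R hR n i) (hLY i j) (abs_nonneg _) (by positivity)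
      _ = d ^ 2 * ((R : ℝ) / 2 * Y) := by
          simp only [Finset.sum_const, Finset.card_univ, nsmul_eq_mul]
          ring
  have hdY : 0 ≤ d ^ 2 * Y := by positivity
  have hD1 : 1 + d ^ 2 * Y ≤ D := by
    rw [hDe]
    nlinarith
  have hD1' : 1 ≤ D := by linarith
  have h1 : 2 * K * (∑ i, ∑ j, |M i j|) + ∑ i, |σ i| ≤ D := by
    have e1 : 2 * K * (∑ i, ∑ j, |M i j|) ≤ 2 * K * (d ^ 2 * Y) :=
      mul_le_mul_of_nonneg_left hMs (by positivity)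
    rw [hDe]
    nlinarith
  have h2 : 2 * (∑ i, ∑ j, |M i j|) ≤ D ^ 2 := by
    have e1 : (1 + d ^ 2 * Y) ^ 2 ≤ D ^ 2 := pow_le_pow_left₀ (by positivity) hD1 2
    nlinarith
  have hph := s4a_gev_ee_quad M σ 0 K D hK hD1' h1 h2
  have hfun : (fun w : ι → ℝ => ee ((∑ i, ∑ j, w i * M i j * w j) + s4a_dot σ w + 0)) =
      fun w => ee (s4a_bil (s4a_xM C Pf) w w + s4a_bil (s4a_xL C Pf) (s4a_xRed Pf R n) w) := by
    funext w
    congr 1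
    rw [add_zero]
    congr 1
    simp only [s4a_dot, s4a_bil, hσ, Finset.sum_mul]
    rw [Finset.sum_comm]
  rw [hfun] at hph
  have hchi' : s4a_Gev (s4a_box ι K) A₀ B₀ chi :=
    hchi.gev.mono (Set.subset_univ _) hA₀ hB₀ le_rfl le_rfl
  have hπD : 0 ≤ 2 * Real.pi * D := by positivity
  have hmul := s4a_Gev.mul hA₀ hπD hB₀ zero_le_one hchi' hph
  have hc := hmul.const_mul (ee (-(s4a_bil (s4a_xN C Pf) (s4a_Z n) (s4a_Z n))))
  rw [s4a_ee_norm, one_mul, mul_one] at hc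
  exact s4a_Amp.of_box (by positivity) hB₀ hc (fun x hx => s4a_xG_supp C Pf R hchi.supp n x hx)

/-- one term of the bracket sum -/
theorem s4a_x_term (C Pf : Matrix ι ι ℚ) (hP : s4a_IsProj Pf) (hI : s4a_Iso C Pf) (R : ℕ) {chi : (ι → ℝ) → ℂ} {B K : ℝ}
    (hK : 0 ≤ K) (hB : s4a_HtLe Pf B) (hs : ∀ x, chi x ≠ 0 → ∀ i, |x i| ≤ K)
    (hR : 2 * ((s4a_den Pf : ℕ) : ℝ) * (B + (Fintype.card ι : ℝ) * (1 + B) * K) < R)
    (u : ι → ℝ) (hu : ∀ i, |s4a_mv (1 - Pf) u i| ≤ B) (n : ι → ℤ) :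
    ee (-(s4a_quad C Pf u)) * (chi (fun i => u i - (n i : ℝ)) * ee (s4a_bil C u fun i => u i - (n i : ℝ))) =
      s4a_xG C Pf R chi n (fun i => u i - (n i : ℝ)) := by
  by_cases h0 : chi (fun i => u i - (n i : ℝ)) = 0
  · simp [s4a_xG, h0]
  have hw : ∀ i, |u i - (n i : ℝ)| ≤ K := hs _ h0
  have hslow := s4a_x_slow_le Pf B K hK hB u n hu hw
  have hq0 : (0 : ℝ) ≤ 2 * ((s4a_den Pf : ℕ) : ℝ) := by positivity
  have hred : s4a_xRed Pf R n = s4a_mv (1 - Pf) (s4a_Z n) := by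
    refine s4a_xRed_eq Pf R n fun i => lt_of_le_of_lt ?_ hR
    exact mul_le_mul_of_nonneg_left (hslow i) hq0
  have hid := s4a_x_identity C Pf hP hI u (s4a_Z n)
  have hZ : (fun i => u i - s4a_Z n i) = fun i => u i - (n i : ℝ) := rfl
  rw [hZ] at hid
  simp only [s4a_xG]
  rw [hred, hid]
  set w : ι → ℝ := fun i => u i - (n i : ℝ) with hwdef
  have e1 : s4a_quad C Pf u - s4a_bil (s4a_xN C Pf) (s4a_Z n) (s4a_Z n) + s4a_bil (s4a_xM C Pf) w w +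
      s4a_bil (s4a_xL C Pf) (s4a_mv (1 - Pf) (s4a_Z n)) w =
      s4a_quad C Pf u + (-(s4a_bil (s4a_xN C Pf) (s4a_Z n) (s4a_Z n)) + (s4a_bil (s4a_xM C Pf) w w +
      s4a_bil (s4a_xL C Pf) (s4a_mv (1 - Pf) (s4a_Z n)) w)) := by ring
  rw [e1, s4a_ee_add, s4a_ee_add, s4a_ee_neg (s4a_quad C Pf u)]
  have hne : ee (s4a_quad C Pf u) ≠ 0 := by
    intro h
    have := s4a_ee_norm (s4a_quad C Pf u)
    rw [h, norm_zero] at this
    exact zero_ne_one this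
  field_simp

/-- the bracket sum is a lattice sum of the periodic family on the slow region -/
theorem s4a_x_latsum (C Pf : Matrix ι ι ℚ) (hP : s4a_IsProj Pf) (hI : s4a_Iso C Pf) (R : ℕ) {chi : (ι → ℝ) → ℂ} {B K : ℝ}
    (hK : 0 ≤ K) (hB : s4a_HtLe Pf B) (hs : ∀ x, chi x ≠ 0 → ∀ i, |x i| ≤ K)
    (hR : 2 * ((s4a_den Pf : ℕ) : ℝ) * (B + (Fintype.card ι : ℝ) * (1 + B) * K) < R)
    (u : ι → ℝ) (hu : ∀ i, |s4a_mv (1 - Pf) u i| ≤ B) :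
    ee (-(s4a_quad C Pf u)) * s4a_br C chi u = s4a_latsum (s4a_xG C Pf R chi) u := by
  unfold s4a_br s4a_latsum
  rw [← tsum_mul_left]
  exact tsum_congr fun n => s4a_x_term C Pf hP hI R hK hB hs hR u hu n

end Claimed.Agent.R258
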