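/-
Row 258, block [S4a] (architect helper78).  FILE Expand: **Lemma 4.4 (chart expansion and uniform tails)** on `ℝ^ι`, assembled from ExpAlg / ExpGev / LatFourier.
Leaf P-S4a-EXPNUM = the sorries of this file (`s4a_x_num` = numerics, mechanical with Qp.lean; corollaries `s4a_expand_weighted`, `s4a_chart_expand`, `s4a_chart_expand_trunc`).

EXPORTS.
* `s4a_expand J`: for `C` (height `≤ H`), `Pf` (rational orthogonal projection of height `≤ B`, isotropic for `C - Cᵀ`) there is `R = s4a_xR C Pf H B ≤ D` such that for every amplitude `chi` of complexity `H` there are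
  coefficients `a : (ι → ℤ) → ℂ`, `‖a ℓ‖ (1+‖ℓ‖)^(J(d+1)²+2d) ≤ D`, with
      `e(-quad(u)) s4a_br C chi u = ∑_ℓ a_ℓ e(ℓ·u/R)`      for all `u` with `‖(1-Pf)u‖_∞ ≤ B`.        `D = s4b_qp Cq (log H + log B)`.
  The coefficients depend only on `(C, Pf, H, B, chi)`.  "Pooling" = summing over the finitely many `Pf` of height `≤ B`.
* `s4a_chart_expand J`: the same for a `Chart` (`u = th y`): `Q.eval y = e((lam + quad(th)) y² + bet y) ∑_ℓ a_ℓ e((ℓ·th/R) y)` whenever `|y| ‖(1-Pf) th‖_∞ ≤ B`.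

PLAN for `s4a_x_num`: put `x = log H + log B ≥ 2`, `d ≤ x`, `m = J(d+1)²+2d`, so `m + 1 ≤ pl c₁ x` (`s4a_pl_*`); `H, B ≤ qp 1 x` (`s4a_qp_param`); `H^(d²) ≤ qp _ x` (`s4a_qp_pow`, `d² ≤ pl _ x`); sums and products by `s4a_qp_add`, `s4a_qp_mul`;
  `2π ≤ 7`; `s4a_xD` is a polynomial in `d, H, B, R`; powers `(...)^m`, `(...)^d` by `s4a_qp_pow`; `s4a_w m` by `s4a_qp_w`.  Take for `Cq` the (huge, explicit or `max`) constant that comes out; monotonicity `s4a_qp_mono`.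
-/
import Claimed.Agent.R258.S4a.ExpGev
import Claimed.Agent.R258.S4a.Qp
import Claimed.Agent.R258.S4a.QpAuto

set_option autoImplicit false
open MeasureTheory
open scoped ENNReal ContDiff ComplexConjugate

namespace Claimed.Agent.R258

/-- the period of Lemma 4.4 -/
noncomputable def s4a_xR {ι : Type} [Fintype ι] [DecidableEq ι] (C Pf : Matrix ι ι ℚ) (H B : ℝ) : ℕ :=
  2 * s4a_den C * s4a_den Pf * (⌈B + (Fintype.card ι : ℝ) * (1 + B) * H⌉₊ + 1)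

/-- the order of decay -/
def s4a_xm (J d : ℕ) : ℕ := J * (d + 1) ^ 2 + 2 * d

/-- numerics -/
theorem s4a_x_num (J : ℕ) : ∃ Cq : ℕ, ∀ (d : ℕ) (H B : ℝ) (R : ℕ), Real.exp 2 ≤ H → 1 ≤ B → (d : ℝ) ≤ Real.log H → 1 ≤ R →
    (R : ℝ) ≤ 2 * H ^ (d ^ 2) * B ^ (d ^ 2) * (B + (d : ℝ) * (1 + B) * H + 2) →
    (R : ℝ) ≤ s4b_qp Cq (Real.log H + Real.log B) ∧
    (2 * H + 3) ^ d * (H ^ 10 * (H ^ 10 + 2 * Real.pi * s4a_xD d H B H R) ^ s4a_xm J d * s4a_w (s4a_xm J d)) *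
        (R : ℝ) ^ s4a_xm J d ≤ s4b_qp Cq (Real.log H + Real.log B) := by
  set V : ℕ × ℝ × ℝ × ℕ → Prop := fun p => Real.exp 2 ≤ p.2.1 ∧ 1 ≤ p.2.2.1 ∧ (p.1 : ℝ) ≤ Real.log p.2.1 ∧
    1 ≤ p.2.2.2 ∧ (p.2.2.2 : ℝ) ≤ 2 * p.2.1 ^ (p.1 ^ 2) * p.2.2.1 ^ (p.1 ^ 2) *
      (p.2.2.1 + (p.1 : ℝ) * (1 + p.2.2.1) * p.2.1 + 2) with hV
  set x : ℕ × ℝ × ℝ × ℕ → ℝ := fun p => Real.log p.2.1 + Real.log p.2.2.1 with hxdef
  have hH1 : ∀ p, V p → 1 ≤ p.2.1 := fun p hp =>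
    le_trans (Real.one_le_exp (by norm_num : (0 : ℝ) ≤ 2)) hp.1
  have hlH : ∀ p, V p → 0 ≤ Real.log p.2.1 := fun p hp => Real.log_nonneg (hH1 p hp)
  have hlB : ∀ p, V p → 0 ≤ Real.log p.2.2.1 := fun p hp => Real.log_nonneg hp.2.1
  have hx : ∀ p, V p → 0 ≤ x p := fun p hp => add_nonneg (hlH p hp) (hlB p hp)
  have pd : s4a_IsPL V x (fun p => (p.1 : ℝ)) :=
    (s4a_IsPL.size hx).mono (fun p _ => Nat.cast_nonneg _) (fun p hp => by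
      have := hp.2.2.1
      have := hlB p hp
      simp only [hxdef]
      linarith)
  have qd : s4a_IsQP V x (fun p => (p.1 : ℝ)) := s4a_IsQP.of_pl hx pd
  have qH : s4a_IsQP V x (fun p => p.2.1) :=
    s4a_IsQP.of_log (s4a_IsPL.size hx) (fun p hp => by linarith [hH1 p hp]) (fun p hp => by
      have := hlB p hp
      simp only [hxdef]
      linarith)
  have qB : s4a_IsQP V x (fun p => p.2.2.1) :=
    s4a_IsQP.of_log (s4a_IsPL.size hx) (fun p hp => by linarith [hp.2.1]) (fun p hp => by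
      have := hlH p hp
      simp only [hxdef]
      linarith)
  have qc : ∀ c : ℝ, 0 ≤ c → s4a_IsQP V x (fun _ => c) := fun c hc => s4a_IsQP.const hx c hc
  have pd2 : s4a_IsPL V x (fun p => ((p.1 ^ 2 : ℕ) : ℝ)) := by
    have := pd.pow hx 2
    simpa using this
  have qR : s4a_IsQP V x (fun p => (p.2.2.2 : ℝ)) := by
    refine s4a_IsQP.mono (f := fun p => 2 * p.2.1 ^ (p.1 ^ 2) * p.2.2.1 ^ (p.1 ^ 2) *
      (p.2.2.1 + (p.1 : ℝ) * (1 + p.2.2.1) * p.2.1 + 2)) ?_ (fun p _ => Nat.cast_nonneg _) (fun p hp => hp.2.2.2.2)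
    exact (((qc 2 (by norm_num)).mul hx (qH.pow hx pd2)).mul hx (qB.pow hx pd2)).mul hx
      ((qB.add hx ((qd.mul hx ((qc 1 zero_le_one).add hx qB)).mul hx qH)).add hx (qc 2 (by norm_num)))
  have pm : s4a_IsPL V x (fun p => ((s4a_xm J p.1 : ℕ) : ℝ)) := by
    have := ((s4a_IsPL.const hx (J : ℝ) (Nat.cast_nonneg J)).mul hx
      ((pd.add hx (s4a_IsPL.const hx 1 zero_le_one)).pow hx 2)).add hx
      ((s4a_IsPL.const hx 2 (by norm_num)).mul hx pd)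
    simpa [s4a_xm] using this
  have qD : s4a_IsQP V x (fun p => s4a_xD p.1 p.2.1 p.2.2.1 p.2.1 p.2.2.2) := by
    unfold s4a_xD
    exact (((qd.pow_const hx 2).mul hx (qH.add hx ((qd.mul hx ((qc 1 zero_le_one).add hx qB)).mul hx qH))).mul hx
      (((qc 2 (by norm_num)).mul hx qH).add hx qR)).add hx (qc 1 zero_le_one)
  have qbig : s4a_IsQP V x (fun p => (2 * p.2.1 + 3) ^ p.1 * (p.2.1 ^ 10 *
      (p.2.1 ^ 10 + 2 * Real.pi * s4a_xD p.1 p.2.1 p.2.2.1 p.2.1 p.2.2.2) ^ s4a_xm J p.1 * s4a_w (s4a_xm J p.1)) *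
        (p.2.2.2 : ℝ) ^ s4a_xm J p.1) := by
    exact (((((qc 2 (by norm_num)).mul hx qH).add hx (qc 3 (by norm_num))).pow hx pd).mul hx
      (((qH.pow_const hx 10).mul hx (((qH.pow_const hx 10).add hx
        ((qc (2 * Real.pi) (by positivity)).mul hx qD)).pow hx pm)).mul hx (s4a_IsQP.w hx pm))).mul hx (qR.pow hx pm)
  obtain ⟨Cq, hCq⟩ := s4a_IsQP.elim₂ hx qR qbig
  exact ⟨Cq, fun d H B R h1 h2 h3 h4 h5 => hCq (d, H, B, R) ⟨h1, h2, h3, h4, h5⟩⟩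

section
variable {ι : Type} [Fintype ι] [DecidableEq ι]

theorem s4a_xR_dvd (C Pf : Matrix ι ι ℚ) (H B : ℝ) : 2 * s4a_den C * s4a_den Pf ∣ s4a_xR C Pf H B :=
  Dvd.intro _ rfl

theorem s4a_xR_pos (C Pf : Matrix ι ι ℚ) (H B : ℝ) : 1 ≤ s4a_xR C Pf H B := by
  have h1 := s4a_den_pos C
  have h2 := s4a_den_pos Pf
  unfold s4a_xR
  have : 1 ≤ 2 * s4a_den C * s4a_den Pf := by nlinarith
  nlinarith [Nat.zero_le ⌈B + (Fintype.card ι : ℝ) * (1 + B) * H⌉₊]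

theorem s4a_xR_gt (C Pf : Matrix ι ι ℚ) (H B : ℝ) (hH : 0 ≤ H) (hB : 0 ≤ B) :
    2 * ((s4a_den Pf : ℕ) : ℝ) * (B + (Fintype.card ι : ℝ) * (1 + B) * H) < (s4a_xR C Pf H B : ℕ) := by
  have h1 : (1 : ℝ) ≤ (s4a_den C : ℕ) := by exact_mod_cast s4a_den_pos C
  have h2 : (1 : ℝ) ≤ (s4a_den Pf : ℕ) := by exact_mod_cast s4a_den_pos Pf
  set N0 : ℝ := B + (Fintype.card ι : ℝ) * (1 + B) * H with hN0
  have hN0' : 0 ≤ N0 := by positivity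
  have h3 : N0 ≤ (⌈N0⌉₊ : ℝ) := Nat.le_ceil N0
  unfold s4a_xR
  push_cast
  rw [← hN0]
  have h4 : 2 * ((s4a_den Pf : ℕ) : ℝ) * N0 < 2 * ((s4a_den Pf : ℕ) : ℝ) * ((⌈N0⌉₊ : ℝ) + 1) := by
    apply mul_lt_mul_of_pos_left _ (by positivity)
    linarith
  have h5 : 2 * ((s4a_den Pf : ℕ) : ℝ) * ((⌈N0⌉₊ : ℝ) + 1) ≤
      2 * ((s4a_den C : ℕ) : ℝ) * ((s4a_den Pf : ℕ) : ℝ) * ((⌈N0⌉₊ : ℝ) + 1) := by
    have : 0 ≤ ((s4a_den Pf : ℕ) : ℝ) * ((⌈N0⌉₊ : ℝ) + 1) := by positivity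
    nlinarith
  linarith

theorem s4a_xR_le (C Pf : Matrix ι ι ℚ) (H B : ℝ) (hH : 0 ≤ H) (hB : 0 ≤ B) (hC : s4a_HtLe C H) (hPf : s4a_HtLe Pf B) :
    ((s4a_xR C Pf H B : ℕ) : ℝ) ≤ 2 * H ^ (Fintype.card ι ^ 2) * B ^ (Fintype.card ι ^ 2) *
      (B + (Fintype.card ι : ℝ) * (1 + B) * H + 2) := by
  have h1 := s4a_den_le C H hC
  have h2 := s4a_den_le Pf B hPf
  have h1' : (0 : ℝ) ≤ (s4a_den C : ℕ) := by positivity
  have h2' : (0 : ℝ) ≤ (s4a_den Pf : ℕ) := by positivity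
  set N0 : ℝ := B + (Fintype.card ι : ℝ) * (1 + B) * H with hN0
  have hN0' : 0 ≤ N0 := by positivity
  have h3 : (⌈N0⌉₊ : ℝ) < N0 + 1 := Nat.ceil_lt_add_one hN0'
  unfold s4a_xR
  push_cast
  rw [← hN0]
  have h4 : ((s4a_den C : ℕ) : ℝ) * ((s4a_den Pf : ℕ) : ℝ) ≤ H ^ (Fintype.card ι ^ 2) * B ^ (Fintype.card ι ^ 2) :=
    mul_le_mul h1 h2 h2' (by positivity)
  have h5 : (⌈N0⌉₊ : ℝ) + 1 ≤ N0 + 2 := by linarith
  calc 2 * ((s4a_den C : ℕ) : ℝ) * ((s4a_den Pf : ℕ) : ℝ) * ((⌈N0⌉₊ : ℝ) + 1)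
      = 2 * (((s4a_den C : ℕ) : ℝ) * ((s4a_den Pf : ℕ) : ℝ)) * ((⌈N0⌉₊ : ℝ) + 1) := by ring
    _ ≤ 2 * (H ^ (Fintype.card ι ^ 2) * B ^ (Fintype.card ι ^ 2)) * (N0 + 2) := by
        apply mul_le_mul _ h5 (by positivity) (by positivity)
        linarith
    _ = _ := by ring

end

/-- **Lemma 4.4 on `ℝ^ι`.** -/
theorem s4a_expand (J : ℕ) : ∃ Cq : ℕ, ∀ {ι : Type} [Fintype ι] [DecidableEq ι] (C Pf : Matrix ι ι ℚ) (H B : ℝ),
    Real.exp 2 ≤ H → 1 ≤ B → (Fintype.card ι : ℝ) ≤ Real.log H → s4a_HtLe C H → s4a_HtLe Pf B → s4a_IsProj Pf →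
    s4a_Iso C Pf →
    1 ≤ s4a_xR C Pf H B ∧ ((s4a_xR C Pf H B : ℕ) : ℝ) ≤ s4b_qp Cq (Real.log H + Real.log B) ∧
      ∀ chi : (ι → ℝ) → ℂ, s4a_Amp H (H ^ 10) (H ^ 10) chi →
        ∃ a : (ι → ℤ) → ℂ,
          (∀ ℓ, ‖a ℓ‖ * (1 + ‖ℓ‖) ^ s4a_xm J (Fintype.card ι) ≤ s4b_qp Cq (Real.log H + Real.log B)) ∧
          ∀ u : ι → ℝ, (∀ i, |s4a_mv (1 - Pf) u i| ≤ B) →
            HasSum (fun ℓ : ι → ℤ => a ℓ * ee (∑ i, (ℓ i : ℝ) * u i / ((s4a_xR C Pf H B : ℕ) : ℝ)))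
              (ee (-(s4a_quad C Pf u)) * s4a_br C chi u) := by
  obtain ⟨Cq, hCq⟩ := s4a_x_num J
  refine ⟨Cq, ?_⟩
  intro ι _ _ C Pf H B hH hB hd hC hPf hP hI
  have hH1 : (1 : ℝ) ≤ H := le_trans (Real.one_le_exp (by norm_num : (0 : ℝ) ≤ 2)) hH
  have hH0 : (0 : ℝ) ≤ H := by linarith
  have hB0 : (0 : ℝ) ≤ B := by linarith
  set R := s4a_xR C Pf H B with hRdef
  have hR1 : 1 ≤ R := s4a_xR_pos C Pf H B
  obtain ⟨hnum1, hnum2⟩ := hCq (Fintype.card ι) H B R hH hB hd hR1 (s4a_xR_le C Pf H B hH0 hB0 hC hPf)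
  refine ⟨hR1, hnum1, ?_⟩
  intro chi hchi
  set m := s4a_xm J (Fintype.card ι) with hm
  set A := H ^ 10 + 2 * Real.pi * s4a_xD (Fintype.card ι) H B H R with hA
  have hamp : ∀ n, s4a_Amp H A (H ^ 10) (s4a_xG C Pf R chi n) := fun n =>
    s4a_xG_amp C Pf R hR1 hH0 hH1 hB (by positivity) (by positivity) hC hPf hchi n
  have hD0 : 0 ≤ s4a_xD (Fintype.card ι) H B H R := by unfold s4a_xD; positivity
  have hA1 : 1 ≤ A := by
    have : (1 : ℝ) ≤ H ^ 10 := one_le_pow₀ hH1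
    have : 0 ≤ 2 * Real.pi * s4a_xD (Fintype.card ι) H B H R := by positivity
    linarith
  set X := H ^ 10 * A ^ m * s4a_w m with hX
  have hX0 : ∀ n x, ‖s4a_xG C Pf R chi n x‖ ≤ X := by
    intro n x
    have h1 := (hamp n).norm_le x
    have h2 : (1 : ℝ) ≤ A ^ m := one_le_pow₀ hA1
    have h3 := s4a_one_le_w m
    have h4 : (0 : ℝ) ≤ H ^ 10 := by positivity
    calc ‖s4a_xG C Pf R chi n x‖ ≤ H ^ 10 := h1
      _ = H ^ 10 * 1 * 1 := by ring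
      _ ≤ H ^ 10 * A ^ m * s4a_w m := by
          apply mul_le_mul _ h3 (by norm_num) (by positivity)
          exact mul_le_mul_of_nonneg_left h2 h4
  have hXm : ∀ n x, ‖iteratedFDeriv ℝ m (s4a_xG C Pf R chi n) x‖ ≤ X := fun n x =>
    (hamp n).gev.bound m x (Set.mem_univ x)
  obtain ⟨a, ha1, ha2⟩ := s4a_lattice_fourier R hR1 H hH0 (s4a_xG C Pf R chi)
    (fun n k => s4a_xG_periodic C Pf R (s4a_xR_dvd C Pf H B) chi n k) (fun n => (hamp n).gev.smooth)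
    (fun n x hx => (hamp n).supp x hx) m (by rw [hm]; unfold s4a_xm; omega) X hX0 hXm
  refine ⟨a, fun ℓ => le_trans (ha1 ℓ) hnum2, ?_⟩
  intro u hu
  rw [s4a_x_latsum C Pf hP hI R hH0 hPf hchi.supp (s4a_xR_gt C Pf H B hH0 hB0) u hu]
  exact ha2 u

section
variable {ι : Type} [Fintype ι]

/-- decay of order `s4a_xm J d = J(d+1)² + 2d` gives the weighted `ℓ¹` bound of order `J(d+1)²` (= all dyadic shell bounds `D T^(-J(d+1)²)`) -/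
theorem s4a_expand_weighted (J : ℕ) (a : (ι → ℤ) → ℂ) (X : ℝ) (hX : 0 ≤ X)
    (h : ∀ ℓ, ‖a ℓ‖ * (1 + ‖ℓ‖) ^ s4a_xm J (Fintype.card ι) ≤ X) :
    Summable (fun ℓ => ‖a ℓ‖ * (1 + ‖ℓ‖) ^ (J * (Fintype.card ι + 1) ^ 2)) ∧
      ∑' ℓ, ‖a ℓ‖ * (1 + ‖ℓ‖) ^ (J * (Fintype.card ι + 1) ^ 2) ≤ 4 ^ Fintype.card ι * X :=
  s4a_lat_weighted a _ X hX h

end

section
variable {ι : Type} [Fintype ι]

theorem s4a_mv_mul_right (P : Matrix ι ι ℚ) (u : ι → ℝ) (y : ℝ) :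
    s4a_mv P (fun i => u i * y) = fun i => s4a_mv P u i * y := by
  funext i
  simp only [s4a_mv, Finset.sum_mul]
  exact Finset.sum_congr rfl fun j _ => by ring

theorem s4a_bil_mul_right (C : Matrix ι ι ℚ) (u w : ι → ℝ) (y z : ℝ) :
    s4a_bil C (fun i => u i * y) (fun i => w i * z) = s4a_bil C u w * (y * z) := by
  simp only [s4a_bil, Finset.sum_mul]
  exact Finset.sum_congr rfl fun i _ => Finset.sum_congr rfl fun j _ => by ring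

theorem s4a_quad_mul_right [DecidableEq ι] (C P : Matrix ι ι ℚ) (u : ι → ℝ) (y : ℝ) :
    s4a_quad C P (fun i => u i * y) = s4a_quad C P u * y ^ 2 := by
  simp only [s4a_quad, s4a_mv_mul_right, s4a_bil_mul_right]
  ring

end

/-- **Lemma 4.4 for a chart atom** (`k = 1`).  `R` and `a` do not depend on the scale: the identity holds for all `y` with `|y| ‖(1-Pf) th‖_∞ ≤ B`. -/
theorem s4a_chart_expand (J : ℕ) : ∃ Cq : ℕ, ∀ (Q : Chart) (H B : ℝ) (Pf : Matrix (Fin Q.d) (Fin Q.d) ℚ),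
    Q.Cplx H → 1 ≤ B → s4a_HtLe Pf B → s4a_IsProj Pf → s4a_Iso Q.C Pf →
    1 ≤ s4a_xR Q.C Pf H B ∧ ((s4a_xR Q.C Pf H B : ℕ) : ℝ) ≤ s4b_qp Cq (Real.log H + Real.log B) ∧
      ∃ a : (Fin Q.d → ℤ) → ℂ,
        (∀ ℓ, ‖a ℓ‖ * (1 + ‖ℓ‖) ^ s4a_xm J Q.d ≤ s4b_qp Cq (Real.log H + Real.log B)) ∧
        ∀ y : ℝ, (∀ i, |s4a_mv (1 - Pf) Q.th i * y| ≤ B) →
          HasSum (fun ℓ : Fin Q.d → ℤ => a ℓ * ee ((∑ i, (ℓ i : ℝ) * Q.th i / ((s4a_xR Q.C Pf H B : ℕ) : ℝ)) * y))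
            (ee (-((Q.lam + s4a_quad Q.C Pf Q.th) * y ^ 2 + Q.bet * y)) * Q.eval y) := by
  obtain ⟨Cq, hCq⟩ := s4a_expand J
  refine ⟨Cq, ?_⟩
  intro Q H B Pf hQ hB hPf hP hI
  obtain ⟨hH, hd, hC, hchi, hunit⟩ := (s4a_cplx_iff Q H).1 hQ
  obtain ⟨h1, h2, h3⟩ := hCq Q.C Pf H B hH hB (by rwa [Fintype.card_fin]) hC hPf hP hI
  refine ⟨h1, h2, ?_⟩
  obtain ⟨a, ha1, ha2⟩ := h3 Q.chi hchi
  refine ⟨fun ℓ => Q.unit * a ℓ, fun ℓ => ?_, fun y hy => ?_⟩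
  · have := ha1 ℓ
    rw [Fintype.card_fin] at this
    rwa [norm_mul, hunit, one_mul]
  · have hu : ∀ i, |s4a_mv (1 - Pf) (fun i => Q.th i * y) i| ≤ B := by
      intro i
      rw [s4a_mv_mul_right]
      exact hy i
    have hs := (ha2 (fun i => Q.th i * y) hu).mul_left Q.unit
    rw [s4a_quad_mul_right] at hs
    have e1 : ee (-((Q.lam + s4a_quad Q.C Pf Q.th) * y ^ 2 + Q.bet * y)) * Q.eval y =
        Q.unit * (ee (-(s4a_quad Q.C Pf Q.th * y ^ 2)) * s4a_br Q.C Q.chi fun i => Q.th i * y) := by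
      rw [s4a_eval_eq]
      have e2 : -((Q.lam + s4a_quad Q.C Pf Q.th) * y ^ 2 + Q.bet * y) =
          -(s4a_quad Q.C Pf Q.th * y ^ 2) + -(Q.lam * y ^ 2 + Q.bet * y) := by ring
      rw [e2, s4a_ee_add, s4a_ee_neg (Q.lam * y ^ 2 + Q.bet * y)]
      have hne : ee (Q.lam * y ^ 2 + Q.bet * y) ≠ 0 := by
        intro h
        have := s4a_ee_norm (Q.lam * y ^ 2 + Q.bet * y)
        rw [h, norm_zero] at this
        exact zero_ne_one this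
      generalize ee (Q.lam * y ^ 2 + Q.bet * y) = E at hne ⊢
      generalize (s4a_br Q.C Q.chi fun i => Q.th i * y) = b
      generalize ee (-(s4a_quad Q.C Pf Q.th * y ^ 2)) = E'
      field_simp
    rw [e1]
    have e3 : (fun ℓ : Fin Q.d → ℤ => Q.unit * a ℓ *
        ee ((∑ i, (ℓ i : ℝ) * Q.th i / ((s4a_xR Q.C Pf H B : ℕ) : ℝ)) * y)) =
        fun ℓ => Q.unit * (a ℓ * ee (∑ i, (ℓ i : ℝ) * (Q.th i * y) / ((s4a_xR Q.C Pf H B : ℕ) : ℝ))) := by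
      funext ℓ
      rw [mul_assoc, Finset.sum_mul]
      congr 3
      exact Finset.sum_congr rfl fun i _ => by ring
    rw [e3]
    exact hs

/-- numerics of the truncation -/
theorem s4a_trunc_num (C₁ : ℕ) : ∃ Cq : ℕ, ∀ (d : ℕ) (H B ε : ℝ), Real.exp 2 ≤ H → 1 ≤ B → (d : ℝ) ≤ Real.log H →
    0 < ε → ε < 1 / 2 →
    4 ^ d * s4b_qp C₁ (Real.log H + Real.log B) ≤ s4b_qp Cq (Real.log H + Real.log B) ∧
    4 ^ d * s4b_qp C₁ (Real.log H + Real.log B) / ε ≤ s4b_qp Cq (Real.log H + Real.log B + Real.log (1 / ε)) ∧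
    (2 * (4 ^ d * s4b_qp C₁ (Real.log H + Real.log B) / ε) + 1) ^ d ≤
      s4b_qp Cq (Real.log H + Real.log B + Real.log (1 / ε)) := by
  set V : ℕ × ℝ × ℝ × ℝ → Prop := fun p => Real.exp 2 ≤ p.2.1 ∧ 1 ≤ p.2.2.1 ∧ (p.1 : ℝ) ≤ Real.log p.2.1 ∧
    0 < p.2.2.2 ∧ p.2.2.2 < 1 / 2 with hV
  set x₁ : ℕ × ℝ × ℝ × ℝ → ℝ := fun p => Real.log p.2.1 + Real.log p.2.2.1 with hx₁def
  set x₂ : ℕ × ℝ × ℝ × ℝ → ℝ := fun p => Real.log p.2.1 + Real.log p.2.2.1 + Real.log (1 / p.2.2.2) with hx₂def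
  have hH1 : ∀ p, V p → 1 ≤ p.2.1 := fun p hp =>
    le_trans (Real.one_le_exp (by norm_num : (0 : ℝ) ≤ 2)) hp.1
  have hlH : ∀ p, V p → 0 ≤ Real.log p.2.1 := fun p hp => Real.log_nonneg (hH1 p hp)
  have hlB : ∀ p, V p → 0 ≤ Real.log p.2.2.1 := fun p hp => Real.log_nonneg hp.2.1
  have hlε : ∀ p, V p → 0 ≤ Real.log (1 / p.2.2.2) := fun p hp => by
    apply Real.log_nonneg
    rw [le_div_iff₀ hp.2.2.2.1]
    linarith [hp.2.2.2.2]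
  have hx₁ : ∀ p, V p → 0 ≤ x₁ p := fun p hp => add_nonneg (hlH p hp) (hlB p hp)
  have hx₂ : ∀ p, V p → 0 ≤ x₂ p := fun p hp => add_nonneg (hx₁ p hp) (hlε p hp)
  have pd₁ : s4a_IsPL V x₁ (fun p => (p.1 : ℝ)) :=
    (s4a_IsPL.size hx₁).mono (fun p _ => Nat.cast_nonneg _) (fun p hp => by
      have := hp.2.2.1
      have := hlB p hp
      simp only [hx₁def]
      linarith)
  have pd₂ : s4a_IsPL V x₂ (fun p => (p.1 : ℝ)) :=
    (s4a_IsPL.size hx₂).mono (fun p _ => Nat.cast_nonneg _) (fun p hp => by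
      have := hp.2.2.1
      have := hlB p hp
      have := hlε p hp
      simp only [hx₂def]
      linarith)
  have px₁ : s4a_IsPL V x₂ x₁ :=
    (s4a_IsPL.size hx₂).mono hx₁ (fun p hp => by
      have := hlε p hp
      simp only [hx₁def, hx₂def]
      linarith)
  have q1 : s4a_IsQP V x₁ (fun p => 4 ^ p.1 * s4b_qp C₁ (x₁ p)) :=
    ((s4a_IsQP.const hx₁ 4 (by norm_num)).pow hx₁ pd₁).mul hx₁ (s4a_IsQP.comp hx₁ C₁ (s4a_IsPL.size hx₁))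
  have q1' : s4a_IsQP V x₂ (fun p => 4 ^ p.1 * s4b_qp C₁ (x₁ p)) :=
    ((s4a_IsQP.const hx₂ 4 (by norm_num)).pow hx₂ pd₂).mul hx₂ (s4a_IsQP.comp hx₂ C₁ px₁)
  have qinv : s4a_IsQP V x₂ (fun p => 1 / p.2.2.2) :=
    s4a_IsQP.of_log (s4a_IsPL.size hx₂) (fun p hp => one_div_pos.2 hp.2.2.2.1) (fun p hp => by
      have := hx₁ p hp
      simp only [hx₁def] at this
      simp only [hx₂def]
      linarith)
  have qT : s4a_IsQP V x₂ (fun p => 4 ^ p.1 * s4b_qp C₁ (x₁ p) / p.2.2.2) :=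
    (q1'.mul hx₂ qinv).mono (fun p hp => div_nonneg (mul_nonneg (by positivity) (s4a_qp_pos _ _).le) hp.2.2.2.1.le)
      (fun p _ => le_of_eq (div_eq_mul_one_div _ _))
  have q3 : s4a_IsQP V x₂ (fun p => (2 * (4 ^ p.1 * s4b_qp C₁ (x₁ p) / p.2.2.2) + 1) ^ p.1) :=
    (((s4a_IsQP.const hx₂ 2 (by norm_num)).mul hx₂ qT).add hx₂ (s4a_IsQP.const hx₂ 1 zero_le_one)).pow hx₂ pd₂
  obtain ⟨Ca, hCa⟩ := q1.elim
  obtain ⟨Cb, hCb⟩ := s4a_IsQP.elim₂ hx₂ qT q3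
  refine ⟨max Ca Cb, fun d H B ε h1 h2 h3 h4 h5 => ?_⟩
  have hp : V (d, H, B, ε) := ⟨h1, h2, h3, h4, h5⟩
  exact ⟨(hCa _ hp).trans (s4a_qp_mono (le_max_left _ _) (hx₁ _ hp) le_rfl),
    (hCb _ hp).1.trans (s4a_qp_mono (le_max_right _ _) (hx₂ _ hp) le_rfl),
    (hCb _ hp).2.trans (s4a_qp_mono (le_max_right _ _) (hx₂ _ hp) le_rfl)⟩

/-- truncated form: finitely many terms, uniform error `ε`.  (`J = 1` suffices.) -/
theorem s4a_chart_expand_trunc : ∃ Cq : ℕ, ∀ (Q : Chart) (H B ε : ℝ) (Pf : Matrix (Fin Q.d) (Fin Q.d) ℚ),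
    Q.Cplx H → 1 ≤ B → 0 < ε → ε < 1 / 2 → s4a_HtLe Pf B → s4a_IsProj Pf → s4a_Iso Q.C Pf →
    ∃ (S : Finset (Fin Q.d → ℤ)) (a : (Fin Q.d → ℤ) → ℂ),
      ((S.card : ℝ) ≤ s4b_qp Cq (Real.log H + Real.log B + Real.log (1 / ε))) ∧
      (∀ ℓ ∈ S, ‖ℓ‖ ≤ s4b_qp Cq (Real.log H + Real.log B + Real.log (1 / ε))) ∧
      (∑ ℓ ∈ S, ‖a ℓ‖ ≤ s4b_qp Cq (Real.log H + Real.log B)) ∧
      ∀ y : ℝ, (∀ i, |s4a_mv (1 - Pf) Q.th i * y| ≤ B) →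
        ‖Q.eval y - ee ((Q.lam + s4a_quad Q.C Pf Q.th) * y ^ 2 + Q.bet * y) *
            ∑ ℓ ∈ S, a ℓ * ee ((∑ i, (ℓ i : ℝ) * Q.th i / ((s4a_xR Q.C Pf H B : ℕ) : ℝ)) * y)‖ ≤ ε := by
  obtain ⟨C₁, hC₁⟩ := s4a_chart_expand 1
  obtain ⟨Cq, hnum⟩ := s4a_trunc_num C₁
  refine ⟨Cq, ?_⟩
  intro Q H B ε Pf hQ hB hε hε2 hPf hP hI
  obtain ⟨hH, hd, hC, hchi, hunit⟩ := (s4a_cplx_iff Q H).1 hQ
  obtain ⟨-, -, a, ha1, ha2⟩ := hC₁ Q H B Pf hQ hB hPf hP hI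
  obtain ⟨n1, n2, n3⟩ := hnum Q.d H B ε hH hB hd hε hε2
  have hH1 : (1 : ℝ) ≤ H := le_trans (Real.one_le_exp (by norm_num : (0 : ℝ) ≤ 2)) hH
  have hx : 0 ≤ Real.log H + Real.log B := add_nonneg (Real.log_nonneg hH1) (Real.log_nonneg hB)
  set D := s4b_qp C₁ (Real.log H + Real.log B) with hD
  have hD1 : 1 ≤ D := s4a_qp_one_le C₁ hx
  obtain ⟨hs, ht⟩ := s4a_expand_weighted 1 a D (by linarith) (by simpa [Fintype.card_fin] using ha1)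
  rw [Fintype.card_fin] at hs ht
  set M : ℕ := 1 * (Q.d + 1) ^ 2 with hM
  have hM1 : 1 ≤ M := by
    rw [hM, one_mul]
    exact Nat.one_le_pow _ _ (Nat.succ_pos _)
  set Y : ℝ := 4 ^ Q.d * D with hY
  have hY1 : 1 ≤ Y := by
    have : (1 : ℝ) ≤ 4 ^ Q.d := one_le_pow₀ (by norm_num)
    calc (1 : ℝ) = 1 * 1 := by ring
      _ ≤ 4 ^ Q.d * D := mul_le_mul this hD1 zero_le_one (by positivity)
  set T : ℝ := Y / ε with hT
  have hT1 : 1 ≤ T := by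
    rw [hT, le_div_iff₀ hε]
    linarith
  have hT0 : 0 < T := by linarith
  refine ⟨(s4a_lat_ball_finite (ι := Fin Q.d) T).toFinset, a, ?_, ?_, ?_, ?_⟩
  · have h1 := s4a_lat_ball_card (ι := Fin Q.d) T hT0.le
    rw [Set.ncard_eq_toFinset_card _ (s4a_lat_ball_finite (ι := Fin Q.d) T), Fintype.card_fin] at h1
    exact h1.trans n3
  · intro ℓ hℓ
    have h1 : ‖ℓ‖ < T := by simpa using hℓ
    exact h1.le.trans n2
  · refine le_trans ?_ (ht.trans n1)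
    refine le_trans ?_ (hs.sum_le_tsum (s4a_lat_ball_finite (ι := Fin Q.d) T).toFinset (fun ℓ _ => by positivity))
    refine Finset.sum_le_sum fun ℓ _ => ?_
    have : (1 : ℝ) ≤ (1 + ‖ℓ‖) ^ M := one_le_pow₀ (by linarith [norm_nonneg ℓ])
    nlinarith [norm_nonneg (a ℓ)]
  · intro y hy
    have htr := s4a_lat_truncate a
      (fun ℓ => ee ((∑ i, (ℓ i : ℝ) * Q.th i / ((s4a_xR Q.C Pf H B : ℕ) : ℝ)) * y))
      (fun ℓ => (s4a_ee_norm _).le) M Y T hT0 hs ht _ (ha2 y hy)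
    have hYT : Y / T ^ M ≤ ε := by
      have h1 : T ≤ T ^ M := by
        calc T = T ^ 1 := (pow_one T).symm
          _ ≤ T ^ M := pow_le_pow_right₀ hT1 hM1
      calc Y / T ^ M ≤ Y / T := div_le_div_of_nonneg_left (by linarith) hT0 h1
        _ = ε := by rw [hT]; field_simp
    set φ : ℝ := (Q.lam + s4a_quad Q.C Pf Q.th) * y ^ 2 + Q.bet * y with hφ
    set Sg : ℂ := ∑ ℓ ∈ (s4a_lat_ball_finite (ι := Fin Q.d) T).toFinset,
      a ℓ * ee ((∑ i, (ℓ i : ℝ) * Q.th i / ((s4a_xR Q.C Pf H B : ℕ) : ℝ)) * y) with hSg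
    have e1 : Q.eval y - ee φ * Sg = ee φ * (ee (-φ) * Q.eval y - Sg) := by
      have hne : ee φ ≠ 0 := by
        intro h
        have := s4a_ee_norm φ
        rw [h, norm_zero] at this
        exact zero_ne_one this
      rw [s4a_ee_neg]
      field_simp
    rw [e1, norm_mul, s4a_ee_norm, one_mul]
    exact htr.trans hYT

end Claimed.Agent.R258
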