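/-
Row 258, block [S4a] (architect helper78).  FILE Fourier = leaf P-S4a-FOURIER: Fourier coefficients of continuous `ℤ^κ`-periodic functions on `ℝ^κ`,
stated WITHOUT the torus.  Mathlib only (`Mathlib/Analysis/Fourier/AddCircleMulti.lean`: `UnitAddTorus`, `mFourier`, `mFourierCoeff`,
`mFourierCoeff_eq_integral`, `hasSum_mFourier_series_apply_of_summable`).  No paper.

PLANS.
* `s4a_torus_lift`: the map `π : (κ → ℝ) → UnitAddTorus κ`, `π x = fun i => (x i : UnitAddCircle)` is a surjective open continuous map (product of the open quotient maps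
  `QuotientAddGroup.mk`; `IsOpenQuotientMap.piMap`/`IsOpenMap.piMap`-type lemma, or: it is itself the quotient map of the additive group `κ → ℝ`), hence a quotient map; `G` is constant on the fibres:
  `π x = π y ↔ ∀ i, ∃ n : ℤ, y i = x i + n` (`AddCircle.coe_eq_coe_iff_of_mem_Ico` / `QuotientAddGroup.eq`, `AddSubgroup.mem_zmultiples_iff`).  `Topology.IsQuotientMap.lift`/`.continuous_iff`.
  Alternative: define `g t = G (fun i => (AddCircle.equivIco 1 0 (t i)).1)` and prove continuity through `IsQuotientMap.continuous_iff`.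
* `s4a_mFourier_coe`: `mFourier ℓ x = ∏ i, fourier (ℓ i) (x i)`, `fourier_coe_apply`: `fourier n (x : AddCircle T) = exp (2π i n x / T)`; `Complex.exp_sum`.
* `s4a_fc_eq_coeff`: `mFourierCoeff_eq_integral g ℓ 0`, `s4a_mFourier_coe`, `smul_eq_mul`.
* `s4a_fc_norm_le`: `norm_setIntegral_le_of_norm_le_const`; the cube has volume `1` (`Real.volume_pi_Ioc`-type: write the set as `Set.pi univ fun _ => Ioc 0 1`).
* `s4a_fc_translate`: with the lift `g` of `G`, `x ↦ G (x + h)` has the lift `t ↦ g (t + π h)`.  Use `mFourierCoeff_eq_integral` with base point `a = 0` for the translate and `a = h` for `g`, and the change of variables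
  `x ↦ x + h` on `ℝ^κ` (`MeasureTheory.integral_add_right_eq_self`-type for set integrals: `(measurePreserving_add_right volume h).setIntegral_preimage_emb`), or invariance of the Haar measure of the torus.
* `s4a_fc_sub`: continuous functions are integrable on the bounded cube (`Continuous.integrableOn_Icc`-type + `IntegrableOn.mono_set`), `integral_sub`.
* `s4a_fc_hasSum`: `hasSum_mFourier_series_apply_of_summable` for the lift at `π x`.
-/
import Claimed.Agent.R258.Pack012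

set_option autoImplicit false
open MeasureTheory
open scoped ENNReal ContDiff ComplexConjugate

namespace Claimed.Agent.R258

variable {κ : Type} [Fintype κ]

/-- `ℤ^κ`-periodicity -/
def s4a_Per (G : (κ → ℝ) → ℂ) : Prop := ∀ (x : κ → ℝ) (n : κ → ℤ), G (fun i => x i + (n i : ℝ)) = G x

/-- the Fourier coefficient `∫_{(0,1]^κ} G(x) e(-ℓ·x) dx` -/
noncomputable def s4a_fc (G : (κ → ℝ) → ℂ) (ℓ : κ → ℤ) : ℂ :=
  ∫ x in {x : κ → ℝ | ∀ i, x i ∈ Set.Ioc (0 : ℝ) 1}, ee (-(∑ i, (ℓ i : ℝ) * x i)) * G x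

theorem s4a_fou_ee_norm (t : ℝ) : ‖ee t‖ = 1 := by
  unfold ee
  have e : (2 * (Real.pi : ℂ) * (t : ℂ) * Complex.I) = ((2 * Real.pi * t : ℝ) : ℂ) * Complex.I := by
    push_cast
    ring
  rw [e, Complex.norm_exp_ofReal_mul_I]

theorem s4a_fou_ee_add (s t : ℝ) : ee (s + t) = ee s * ee t := by
  unfold ee
  rw [← Complex.exp_add]
  congr 1
  push_cast
  ring

theorem s4a_fou_ee_cont : Continuous ee := by
  unfold ee
  fun_prop

theorem s4a_fou_cube : {x : κ → ℝ | ∀ i, x i ∈ Set.Ioc (0 : ℝ) 1} = Set.pi Set.univ fun _ => Set.Ioc (0 : ℝ) 1 := by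
  ext x
  simp

theorem s4a_fou_vol : volume {x : κ → ℝ | ∀ i, x i ∈ Set.Ioc (0 : ℝ) 1} = 1 := by
  rw [s4a_fou_cube, Real.volume_pi_Ioc]
  simp

theorem s4a_fou_integrableOn (G : (κ → ℝ) → ℂ) (hc : Continuous G) (ℓ : κ → ℤ) :
    IntegrableOn (fun x : κ → ℝ => ee (-(∑ i, (ℓ i : ℝ) * x i)) * G x) {x : κ → ℝ | ∀ i, x i ∈ Set.Ioc (0 : ℝ) 1} := by
  have h1 : Continuous fun x : κ → ℝ => ee (-(∑ i, (ℓ i : ℝ) * x i)) * G x :=
    (s4a_fou_ee_cont.comp (by fun_prop)).mul hc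
  refine (h1.integrableOn_Icc (a := (0 : κ → ℝ)) (b := 1)).mono_set ?_
  intro x hx
  exact ⟨fun i => (hx i).1.le, fun i => (hx i).2⟩

theorem s4a_torus_lift (G : (κ → ℝ) → ℂ) (hc : Continuous G) (hper : s4a_Per G) :
    ∃ g : C(UnitAddTorus κ, ℂ), ∀ x : κ → ℝ, g (fun i => (x i : UnitAddCircle)) = G x := by
  have hq : IsOpenQuotientMap (Pi.map fun (_ : κ) (y : ℝ) => (y : UnitAddCircle)) :=
    IsOpenQuotientMap.piMap fun _ => QuotientAddGroup.isOpenQuotientMap_mk
  set g₀ : UnitAddTorus κ → ℂ := fun t => G fun i => (AddCircle.equivIoc 1 0 (t i)).1 with hg₀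
  have key : ∀ x : κ → ℝ, g₀ (fun i => (x i : UnitAddCircle)) = G x := by
    intro x
    have h1 : ∀ i, ∃ n : ℤ, ((AddCircle.equivIoc 1 0 (x i : UnitAddCircle)).1 : ℝ) = x i + n := by
      intro i
      have h2 : (((AddCircle.equivIoc 1 0 (x i : UnitAddCircle)).1 : ℝ) : UnitAddCircle) = (x i : UnitAddCircle) :=
        (AddCircle.equivIoc 1 0).symm_apply_apply (x i : UnitAddCircle)
      obtain ⟨n, hn⟩ := AddSubgroup.mem_zmultiples_iff.1 (QuotientAddGroup.eq.1 h2.symm)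
      refine ⟨n, ?_⟩
      rw [zsmul_eq_mul, mul_one] at hn
      linarith
    choose n hn using h1
    show G (fun i => ((AddCircle.equivIoc 1 0 (x i : UnitAddCircle)).1 : ℝ)) = G x
    rw [funext hn]
    exact hper x n
  have hcont : Continuous g₀ := by
    rw [← hq.continuous_comp_iff]
    have : g₀ ∘ (Pi.map fun (_ : κ) (y : ℝ) => (y : UnitAddCircle)) = G := funext key
    rw [this]
    exact hc
  exact ⟨⟨g₀, hcont⟩, key⟩

theorem s4a_mFourier_coe (ℓ : κ → ℤ) (x : κ → ℝ) :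
    UnitAddTorus.mFourier ℓ (fun i => (x i : UnitAddCircle)) = ee (∑ i, (ℓ i : ℝ) * x i) := by
  show ∏ i, fourier (ℓ i) (x i : UnitAddCircle) = _
  simp only [fourier_coe_apply]
  unfold ee
  rw [← Complex.exp_sum]
  congr 1
  push_cast
  rw [Finset.mul_sum, Finset.sum_mul]
  refine Finset.sum_congr rfl fun i _ => ?_
  ring

theorem s4a_fc_eq_coeff (G : (κ → ℝ) → ℂ) (g : C(UnitAddTorus κ, ℂ))
    (hg : ∀ x : κ → ℝ, g (fun i => (x i : UnitAddCircle)) = G x) (ℓ : κ → ℤ) :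
    UnitAddTorus.mFourierCoeff g ℓ = s4a_fc G ℓ := by
  rw [UnitAddTorus.mFourierCoeff_eq_integral g ℓ 0]
  unfold s4a_fc
  simp only [Pi.zero_apply, zero_add]
  refine setIntegral_congr_fun₀ ?_ fun x _ => ?_
  · rw [s4a_fou_cube]
    exact (MeasurableSet.univ_pi fun _ => measurableSet_Ioc).nullMeasurableSet
  · show UnitAddTorus.mFourier (-ℓ) (fun i => (x i : UnitAddCircle)) • g (fun i => (x i : UnitAddCircle)) = _
    rw [s4a_mFourier_coe, hg, smul_eq_mul]
    congr 2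
    rw [← Finset.sum_neg_distrib]
    refine Finset.sum_congr rfl fun i _ => ?_
    rw [Pi.neg_apply]
    push_cast
    ring

theorem s4a_fc_norm_le (G : (κ → ℝ) → ℂ) (X : ℝ) (hX : ∀ x, ‖G x‖ ≤ X) (ℓ : κ → ℤ) : ‖s4a_fc G ℓ‖ ≤ X := by
  unfold s4a_fc
  have h := norm_setIntegral_le_of_norm_le_const (μ := (volume : Measure (κ → ℝ)))
    (s := {x : κ → ℝ | ∀ i, x i ∈ Set.Ioc (0 : ℝ) 1})
    (f := fun x => ee (-(∑ i, (ℓ i : ℝ) * x i)) * G x) (C := X)
    (by rw [s4a_fou_vol]; exact ENNReal.one_lt_top)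
    (fun x _ => by rw [norm_mul, s4a_fou_ee_norm, one_mul]; exact hX x)
  rwa [Measure.real, s4a_fou_vol, ENNReal.toReal_one, mul_one] at h

theorem s4a_fc_translate (G : (κ → ℝ) → ℂ) (hc : Continuous G) (hper : s4a_Per G) (h : κ → ℝ) (ℓ : κ → ℤ) :
    s4a_fc (fun x => G (fun i => x i + h i)) ℓ = ee (∑ i, (ℓ i : ℝ) * h i) * s4a_fc G ℓ := by
  obtain ⟨g, hg⟩ := s4a_torus_lift G hc hper
  rw [← s4a_fc_eq_coeff G g hg ℓ, UnitAddTorus.mFourierCoeff_eq_integral g ℓ h]
  have hmp := (measurePreserving_add_right (volume : Measure (κ → ℝ)) h).setIntegral_preimage_emb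
    (measurableEmbedding_addRight h)
    (fun y : κ → ℝ => UnitAddTorus.mFourier (-ℓ) (fun i => (y i : UnitAddCircle)) • g (fun i => (y i : UnitAddCircle)))
    {x : κ → ℝ | ∀ i, x i ∈ Set.Ioc (h i) (h i + 1)}
  rw [← hmp, ← integral_const_mul]
  have hset : (fun x : κ → ℝ => x + h) ⁻¹' {x : κ → ℝ | ∀ i, x i ∈ Set.Ioc (h i) (h i + 1)}
      = {x : κ → ℝ | ∀ i, x i ∈ Set.Ioc (0 : ℝ) 1} := by
    ext x
    simp only [Set.mem_preimage, Set.mem_ofPred_eq, Pi.add_apply, Set.mem_Ioc]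
    refine forall_congr' fun i => ?_
    constructor
    · rintro ⟨h1, h2⟩
      exact ⟨by linarith, by linarith⟩
    · rintro ⟨h1, h2⟩
      exact ⟨by linarith, by linarith⟩
  rw [hset]
  unfold s4a_fc
  refine setIntegral_congr_fun₀ ?_ fun x _ => ?_
  · rw [s4a_fou_cube]
    exact (MeasurableSet.univ_pi fun _ => measurableSet_Ioc).nullMeasurableSet
  · show ee (-(∑ i, (ℓ i : ℝ) * x i)) * G (fun i => x i + h i) = ee (∑ i, (ℓ i : ℝ) * h i) *
      (UnitAddTorus.mFourier (-ℓ) (fun i => ((x + h) i : UnitAddCircle)) • g (fun i => ((x + h) i : UnitAddCircle)))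
    rw [s4a_mFourier_coe, hg, smul_eq_mul, ← mul_assoc, ← s4a_fou_ee_add]
    congr 2
    simp only [Pi.neg_apply, Pi.add_apply, Int.cast_neg, mul_add, Finset.sum_add_distrib, neg_mul,
      Finset.sum_neg_distrib]
    ring

theorem s4a_fc_sub (G G' : (κ → ℝ) → ℂ) (hc : Continuous G) (hc' : Continuous G') (ℓ : κ → ℤ) :
    s4a_fc (fun x => G x - G' x) ℓ = s4a_fc G ℓ - s4a_fc G' ℓ := by
  unfold s4a_fc
  rw [← integral_sub (s4a_fou_integrableOn G hc ℓ) (s4a_fou_integrableOn G' hc' ℓ)]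
  simp only [mul_sub]

theorem s4a_fc_hasSum (G : (κ → ℝ) → ℂ) (hc : Continuous G) (hper : s4a_Per G) (hs : Summable (s4a_fc G))
    (x : κ → ℝ) : HasSum (fun ℓ : κ → ℤ => s4a_fc G ℓ * ee (∑ i, (ℓ i : ℝ) * x i)) (G x) := by
  obtain ⟨g, hg⟩ := s4a_torus_lift G hc hper
  have e : UnitAddTorus.mFourierCoeff g = s4a_fc G := funext fun ℓ => s4a_fc_eq_coeff G g hg ℓ
  have h := UnitAddTorus.hasSum_mFourier_series_apply_of_summable (f := g) (by rw [e]; exact hs)
    (fun i => (x i : UnitAddCircle))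
  rw [hg, e] at h
  simpa only [s4a_mFourier_coe, smul_eq_mul] using h

end Claimed.Agent.R258
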