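/-
Row 258, block [S4a] (architect helper78).  FILE Kernel: admissible kernels in the coordinates `(y_a, y_b) = (x + a t, x + b t)`.
Leaves: P-S4a-INT2 (everything up to `s4a_int2_abs`), P-S4a-KERNEL (`s4a_kernel_*`).
Uses Defs (R258/Defs.lean: `Cell`, `Admissible`), CellApi (facts on `len`), and the STATEMENTS of Gev.lean, LatFourier.lean, Br.lean.   Paper: charts.tex l.630-640, 664-672.

PLANS.
* `s4a_adm_*`: `Admissible.supp` with `j = a, b`; `Cell.right = left + len`; `y_b - y_a = (b - a) t`, `|b - a| ≥ 1`, both points in an interval of length `(1 - 2c0) len < len`.  `s4a_adm_bound`: `Admissible.deriv` with `n = 0` (`norm_iteratedFDeriv_zero`, `pow_zero`).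
* `s4a_int2`: for fixed `t` translate `x ↦ x - a t`; then for fixed `y` substitute `t ↦ (b-a) t` (`MeasureTheory.integral_comp_mul_left`-type: `∫ G(y + s t) dt = |s|⁻¹ ∫ G`).
  Integrability on the product: `MeasureTheory.integrable_prod_iff'` (or: the map `(x,t) ↦ (x + a t, x + b t)` is a linear equivalence of `ℝ × ℝ` with determinant `b - a`: `MeasureTheory.Measure.map_linearMap_addHaar_eq_smul_addHaar`, and `Integrable.prod_mul`/`Integrable.mul_prod`).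
* `s4a_kernel_fourier`.  `r = I.len`, `x_I = I.left`.  For `σ : Fin 2 → ℝ` put `y_a = x_I + r σ 0`, `y_b = x_I + r σ 1`, `t = r (σ 1 - σ 0)/(b - a)`, `x = y_a - a t`:  an affine map `Φ σ = L σ + v` into `ℝ × ℝ` with `‖L‖ ≤ 7 r` (sup norms).
    `W̃ σ = w (Φ σ) * ee (Λ ((σ 1 - σ 0)/(b-a))²)`.
  (i) support: `W̃ σ ≠ 0 ⟹ σ 0, σ 1 ∈ [c0, 1 - c0]`.  (ii) `‖D^n (w ∘ Φ)‖ ≤ (7r)^n ‖D^n w‖ ≤ 7^n (C0 (n+2))^(C0 (n+2))` (as in `s4a_Gev.comp_affine`).
  (iii) the phase: `s4a_gev_ee_quad` on `s4a_box (Fin 2) 1` with `M = Λ/(b-a)² [[1,-1],[-1,1]]`, `σ = 0`, `c = 0`, `D = 1 + 8|Λ|`:  `‖D^j‖ ≤ (2π D)^j s4a_w j`.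
  (iv) `norm_iteratedFDeriv_mul_le` at order `5` (and order `0`): on the box `‖D^5 W̃‖ ≤ 2^5 · max_{n ≤ 5} 7^n (C0(n+2))^(C0(n+2)) · (2π(1 + 8|Λ|))^5 · s4a_w 5 ≤ Ck' (1+|Λ|)^5`; off the closed box `[0,1]²` all derivatives vanish (`s4a_iteratedFDeriv_eq_zero`).
  (v) `s4a_lattice_fourier` with `κ = Fin 2`, `R = 1`, `K = 1`, `γ n = W̃` (constant family), `m = 5 ≥ 2·2`: `∑_n W̃(σ - n) = ∑_ℓ α_ℓ e(ℓ·σ)`, `‖α ℓ‖ (1+‖ℓ‖)^5 ≤ 5² X`.
  (vi) for `σ ∈ [0,1)²` only `n = 0` contributes (`σ_i - n_i ∈ [c0, 1-c0] ⊆ (0,1)` forces `n_i = 0`): `tsum_eq_single 0`.   Given `x, t` with `y_a, y_b ∈ I.set = [x_I, x_I + r)` take `σ = ((y_a - x_I)/r, (y_b - x_I)/r)`; then `Φ σ = (x,t)`, `(σ 1 - σ 0)/(b-a) = t/r`.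
-/
import Claimed.Agent.R258.S4a.LatFourier
import Claimed.Agent.R258.S4a.Br
import Claimed.Agent.R258.Pack006

set_option autoImplicit false
open MeasureTheory
open scoped ENNReal ContDiff ComplexConjugate

namespace Claimed.Agent.R258

/-! ### admissible kernels -/

theorem s4a_adm_mem {c0 C0 : ℝ} (hc0 : 0 < c0) {I : Cell} {w : ℝ × ℝ → ℂ} (h : Admissible c0 C0 I w) (p : ℝ × ℝ)
    (hp : w p ≠ 0) (j : Fin 4) : p.1 + (j : ℝ) * p.2 ∈ I.set := by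
  have h1 := h.supp p hp j
  have h2 : 0 < c0 * I.len := mul_pos hc0 (cell_len_pos I)
  exact ⟨by linarith [h1.1], by linarith [h1.2]⟩

theorem s4a_adm_t_lt {c0 C0 : ℝ} (hc0 : 0 < c0) {I : Cell} {w : ℝ × ℝ → ℂ} (h : Admissible c0 C0 I w) (p : ℝ × ℝ)
    (hp : w p ≠ 0) : |p.2| < I.len := by
  have h0 := h.supp p hp 0
  have h1 := h.supp p hp 1
  have h2 : 0 < c0 * I.len := mul_pos hc0 (cell_len_pos I)
  have h3 := cell_right_eq I
  simp only [Fin.val_zero, Nat.cast_zero, zero_mul, add_zero, Fin.val_one, Nat.cast_one, one_mul] at h0 h1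
  rw [abs_lt]
  constructor <;> linarith [h0.1, h0.2, h1.1, h1.2]

/-- two points of the progression in `I` force `|t| < |I|` -/
theorem s4a_t_lt_of_mem {I : Cell} {a b : Fin 4} (hab : a ≠ b) {x t : ℝ} (ha : x + (a : ℝ) * t ∈ I.set)
    (hb : x + (b : ℝ) * t ∈ I.set) : |t| < I.len := by
  have h3 := cell_right_eq I
  have h4 : |((b : ℝ) - (a : ℝ)) * t| < I.len := by
    rw [abs_lt]
    constructor <;> nlinarith [ha.1, ha.2, hb.1, hb.2]
  have h5 : (1 : ℝ) ≤ |(b : ℝ) - (a : ℝ)| := by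
    have h6 : ((b : ℕ) : ℤ) - ((a : ℕ) : ℤ) ≠ 0 := by
      intro h
      apply hab
      ext
      omega
    have h7 : (1 : ℤ) ≤ |((b : ℕ) : ℤ) - ((a : ℕ) : ℤ)| := Int.one_le_abs h6
    have h8 : ((|((b : ℕ) : ℤ) - ((a : ℕ) : ℤ)| : ℤ) : ℝ) = |(b : ℝ) - (a : ℝ)| := by
      push_cast
      rfl
    rw [← h8]
    exact_mod_cast h7
  rw [abs_mul] at h4
  calc |t| = 1 * |t| := (one_mul _).symm
    _ ≤ |(b : ℝ) - (a : ℝ)| * |t| := mul_le_mul_of_nonneg_right h5 (abs_nonneg t)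
    _ < I.len := h4

theorem s4a_adm_bound {c0 C0 : ℝ} {I : Cell} {w : ℝ × ℝ → ℂ} (h : Admissible c0 C0 I w) (p : ℝ × ℝ) :
    ‖w p‖ ≤ (C0 * 2) ^ (C0 * 2) := by
  have h1 := h.deriv 0 p
  simpa using h1

theorem s4a_adm_continuous {c0 C0 : ℝ} {I : Cell} {w : ℝ × ℝ → ℂ} (h : Admissible c0 C0 I w) : Continuous w :=
  h.smooth.continuous

/-! ### the change of variables `(x,t) ↦ (x + a t, x + b t)` -/

/-- the linear map `(x,t) ↦ (x + a t, x + b t)` -/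
noncomputable def s4a_shear (a b : ℝ) : (ℝ × ℝ) →ₗ[ℝ] (ℝ × ℝ) :=
  (LinearMap.fst ℝ ℝ ℝ + a • LinearMap.snd ℝ ℝ ℝ).prod (LinearMap.fst ℝ ℝ ℝ + b • LinearMap.snd ℝ ℝ ℝ)

theorem s4a_shear_eqns_cite : True := by
  have := @s4a_shear.eq_1
  trivial

theorem s4a_shear_apply (a b : ℝ) (p : ℝ × ℝ) : s4a_shear a b p = (p.1 + a * p.2, p.1 + b * p.2) := by
  simp [s4a_shear]

theorem s4a_shear_det (a b : ℝ) : LinearMap.det (s4a_shear a b) = b - a := by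
  rw [← LinearMap.det_toMatrix (Module.Basis.finTwoProd ℝ), Matrix.det_fin_two]
  simp [LinearMap.toMatrix_apply, s4a_shear_apply]

theorem s4a_shear_map (a b : ℝ) (hab : a ≠ b) :
    Measure.map (s4a_shear a b) (volume : Measure (ℝ × ℝ)) = ENNReal.ofReal |b - a|⁻¹ • volume := by
  have h := Measure.map_linearMap_addHaar_eq_smul_addHaar (μ := (volume : Measure (ℝ × ℝ)))
    (f := s4a_shear a b) (by rw [s4a_shear_det]; exact sub_ne_zero.2 hab.symm)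
  rw [h, s4a_shear_det, abs_inv]

/-- change of variables for an integrable function of `(u, v) = (x + a t, x + b t)` -/
theorem s4a_shear_integral (a b : ℝ) (hab : a ≠ b) (H : ℝ × ℝ → ℂ) (hH : Integrable H) :
    Integrable (fun p : ℝ × ℝ => H (p.1 + a * p.2, p.1 + b * p.2)) ∧
      ∫ p : ℝ × ℝ, H (p.1 + a * p.2, p.1 + b * p.2) = ((|b - a|⁻¹ : ℝ) : ℂ) * ∫ q, H q := by
  have hm : Measurable (s4a_shear a b) := (LinearMap.continuous_of_finiteDimensional _).measurable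
  have hmap := s4a_shear_map a b hab
  have hH' : Integrable H (Measure.map (s4a_shear a b) volume) := by
    rw [hmap]
    exact hH.smul_measure ENNReal.ofReal_ne_top
  have e : (fun p : ℝ × ℝ => H (p.1 + a * p.2, p.1 + b * p.2)) = H ∘ s4a_shear a b := by
    funext p
    simp [s4a_shear_apply]
  constructor
  · rw [e]
    exact (integrable_map_measure hH'.aestronglyMeasurable hm.aemeasurable).1 hH'
  · have h1 := integral_map hm.aemeasurable hH'.aestronglyMeasurable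
    simp only [s4a_shear_apply] at h1
    rw [← h1, hmap, integral_smul_measure, ENNReal.toReal_ofReal (by positivity), Complex.real_smul]

/-- iterated form with a bounded kernel in `t` -/
theorem s4a_int2_kernel (a b : ℝ) (hab : a ≠ b) (K F G : ℝ → ℂ) (X : ℝ) (hKm : Measurable K) (hKb : ∀ t, ‖K t‖ ≤ X)
    (hF : Integrable F) (hG : Integrable G) :
    Integrable (fun p : ℝ × ℝ => K p.2 * F (p.1 + a * p.2) * G (p.1 + b * p.2)) ∧
      ∫ p : ℝ × ℝ, K p.2 * F (p.1 + a * p.2) * G (p.1 + b * p.2) = ∫ y, F y * ∫ t, K t * G (y + (b - a) * t) := by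
  have hs : b - a ≠ 0 := sub_ne_zero.2 hab.symm
  have hsa : |b - a| ≠ 0 := abs_ne_zero.2 hs
  set s : ℝ := b - a with hsdef
  set H : ℝ × ℝ → ℂ := fun q => K ((q.2 - q.1) / s) * (F q.1 * G q.2) with hHdef
  have hFG : Integrable (fun q : ℝ × ℝ => F q.1 * G q.2) := hF.mul_prod hG
  have hH : Integrable H := by
    refine hFG.bdd_mul (c := X) ?_ (Filter.Eventually.of_forall fun q => hKb _)
    exact (hKm.comp ((measurable_snd.sub measurable_fst).div_const s)).aestronglyMeasurable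
  obtain ⟨h1, h2⟩ := s4a_shear_integral a b hab H hH
  have e : (fun p : ℝ × ℝ => H (p.1 + a * p.2, p.1 + b * p.2))
      = fun p : ℝ × ℝ => K p.2 * F (p.1 + a * p.2) * G (p.1 + b * p.2) := by
    funext p
    have : (p.1 + b * p.2 - (p.1 + a * p.2)) / s = p.2 := by
      rw [hsdef]
      field_simp
      ring
    simp only [hHdef, this]
    ring
  rw [e] at h1 h2
  refine ⟨h1, ?_⟩
  have h7 : ∫ q, H q = ∫ u, ∫ v, H (u, v) := integral_prod H hH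
  rw [h2, h7, ← integral_const_mul]
  refine integral_congr_ae (Filter.Eventually.of_forall fun u => ?_)
  simp only [hHdef]
  have e1 : ∫ v, K ((v - u) / s) * (F u * G v) = F u * ∫ v, K ((v - u) / s) * G v := by
    rw [← integral_const_mul]
    refine integral_congr_ae (Filter.Eventually.of_forall fun v => ?_)
    ring
  have e2 : ∫ v, K ((v - u) / s) * G v = ((|s| : ℝ) : ℂ) * ∫ t, K t * G (u + s * t) := by
    have h3 := integral_add_left_eq_self (μ := volume) (fun v => K ((v - u) / s) * G v) u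
    have h4 := Measure.integral_comp_mul_left (fun w => K ((u + w - u) / s) * G (u + w)) s
    rw [h3] at h4
    have h5 : ∀ t, (u + s * t - u) / s = t := fun t => by field_simp; ring
    simp only [h5] at h4
    rw [h4, Complex.real_smul, ← mul_assoc, ← Complex.ofReal_mul, abs_inv, mul_inv_cancel₀ hsa,
      Complex.ofReal_one, one_mul]
  rw [e1, e2]
  have h6 : ((|s|⁻¹ : ℝ) : ℂ) * ((|s| : ℝ) : ℂ) = 1 := by
    rw [← Complex.ofReal_mul, inv_mul_cancel₀ hsa, Complex.ofReal_one]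
  calc ((|s|⁻¹ : ℝ) : ℂ) * (F u * (((|s| : ℝ) : ℂ) * ∫ t, K t * G (u + s * t)))
      = (((|s|⁻¹ : ℝ) : ℂ) * ((|s| : ℝ) : ℂ)) * (F u * ∫ t, K t * G (u + s * t)) := by ring
    _ = _ := by rw [h6, one_mul]

theorem s4a_int2 (a b : ℝ) (hab : a ≠ b) (F G : ℝ → ℂ) (hF : Integrable F) (hG : Integrable G) :
    Integrable (fun p : ℝ × ℝ => F (p.1 + a * p.2) * G (p.1 + b * p.2)) ∧
      ∫ p : ℝ × ℝ, F (p.1 + a * p.2) * G (p.1 + b * p.2) = ((|b - a|⁻¹ : ℝ) : ℂ) * ((∫ y, F y) * ∫ y, G y) := by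
  obtain ⟨h1, h2⟩ := s4a_shear_integral a b hab (fun q => F q.1 * G q.2) (hF.mul_prod hG)
  refine ⟨h1, ?_⟩
  have h7 : ∫ q : ℝ × ℝ, F q.1 * G q.2 = (∫ y, F y) * ∫ y, G y := integral_prod_mul F G
  rw [h2, h7]

/-- functions in `L²(I)`, cut off to `I` -/
theorem s4a_ind_facts (I : Cell) (f : ℝ → ℂ) (hfm : Measurable f) (hf : s4b_L2 I f) :
    Measurable (I.set.indicator f) ∧ Integrable (I.set.indicator f) ∧ Integrable (fun y => ‖I.set.indicator f y‖ ^ 2) ∧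
      (∀ y, y ∉ Set.Icc I.left I.right → I.set.indicator f y = 0) ∧
      Real.sqrt (∫ y, ‖I.set.indicator f y‖ ^ 2) = Real.sqrt I.len * nnorm 2 I f ∧
      ∫ y, ‖I.set.indicator f y‖ ≤ I.len * nnorm 2 I f := by
  have hIm := cell_measurableSet I
  have hlen := cell_len_pos I
  have hf' : MemLp f 2 (volume.restrict I.set) := hf
  have hsq : IntegrableOn (fun y => ‖f y‖ ^ 2) I.set :=
    (memLp_two_iff_integrable_sq_norm hfm.aestronglyMeasurable).1 hf'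
  have : IsFiniteMeasure (volume.restrict I.set) := ⟨by
    rw [Measure.restrict_apply_univ]; exact lt_top_iff_ne_top.2 (cell_volume_ne_top I)⟩
  have h1 : IntegrableOn f I.set := hf'.integrable (by norm_num)
  have e2 : (fun y => ‖I.set.indicator f y‖ ^ 2) = I.set.indicator fun y => ‖f y‖ ^ 2 := by
    funext y
    by_cases hy : y ∈ I.set
    · simp [Set.indicator_of_mem hy]
    · simp [Set.indicator_of_notMem hy]
  have e1 : (fun y => ‖I.set.indicator f y‖) = I.set.indicator fun y => ‖f y‖ := by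
    funext y
    by_cases hy : y ∈ I.set
    · simp [Set.indicator_of_mem hy]
    · simp [Set.indicator_of_notMem hy]
  have hS0 : 0 ≤ ∫ y in I.set, ‖f y‖ ^ 2 := integral_nonneg fun y => by positivity
  have hnn : nnorm 2 I f = Real.sqrt (I.len⁻¹ * ∫ y in I.set, ‖f y‖ ^ 2) := by
    unfold nnorm
    simp only [Real.rpow_two, Real.sqrt_eq_rpow]
  have e3 : Real.sqrt (∫ y in I.set, ‖f y‖ ^ 2) = Real.sqrt I.len * nnorm 2 I f := by
    rw [hnn, ← Real.sqrt_mul hlen.le, ← mul_assoc, mul_inv_cancel₀ hlen.ne', one_mul]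
  refine ⟨hfm.indicator hIm, (integrable_indicator_iff hIm).2 h1, ?_, fun y hy => ?_, ?_, ?_⟩
  · rw [e2]
    exact (integrable_indicator_iff hIm).2 hsq
  · exact Set.indicator_of_notMem (fun h => hy ⟨h.1, h.2.le⟩) _
  · rw [e2, integral_indicator hIm, e3]
  · rw [e1, integral_indicator hIm]
    have h2 := integral_mul_le_Lp_mul_Lq_of_nonneg (μ := volume.restrict I.set) (p := 2) (q := 2)
      Real.HolderConjugate.two_two (f := fun _ => (1 : ℝ)) (g := fun y => ‖f y‖)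
      (Filter.Eventually.of_forall fun _ => zero_le_one) (Filter.Eventually.of_forall fun _ => norm_nonneg _)
      (memLp_const 1) (by simpa using hf'.norm)
    simp only [one_mul, Real.rpow_two, ← Real.sqrt_eq_rpow, cell_integral_const, one_pow, mul_one] at h2
    rw [e3, ← mul_assoc, Real.mul_self_sqrt hlen.le] at h2
    exact h2

/-! ### Fourier series of the kernel -/

theorem s4a_norm_iteratedFDeriv_comp_affine_le {E F : Type*} [NormedAddCommGroup E] [NormedSpace ℝ E]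
    [NormedAddCommGroup F] [NormedSpace ℝ F] (f : F → ℂ) (hf : ContDiff ℝ ∞ f) (L : E →L[ℝ] F) (v : F) (n : ℕ) (x : E) :
    ‖iteratedFDeriv ℝ n (fun x => f (L x + v)) x‖ ≤ ‖L‖ ^ n * ‖iteratedFDeriv ℝ n f (L x + v)‖ := by
  have h1 : (fun x => f (L x + v)) = (fun z => f (z + v)) ∘ L := rfl
  have h2 : ContDiff ℝ ∞ fun z => f (z + v) := hf.comp (contDiff_id.add contDiff_const)
  rw [h1, L.iteratedFDeriv_comp_right h2 x (by exact_mod_cast le_top), iteratedFDeriv_comp_add_right]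
  refine (ContinuousMultilinearMap.norm_compContinuousLinearMap_le _ _).trans ?_
  simp [Finset.prod_const, mul_comm]

theorem s4a_w_mono {j m : ℕ} (h : j ≤ m) : s4a_w j ≤ s4a_w m := by
  have h1 := s4a_w_mul_le h
  have h2 := s4a_one_le_w (m - j)
  have h3 := s4a_w_pos j
  nlinarith

/-- the linear part of `σ ↦ (x, t)` -/
noncomputable def s4a_kerL (r A s : ℝ) : (Fin 2 → ℝ) →L[ℝ] ℝ × ℝ :=
  (r • ContinuousLinearMap.proj (R := ℝ) (φ := fun _ : Fin 2 => ℝ) 0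
      - (A * r / s) • (ContinuousLinearMap.proj (R := ℝ) (φ := fun _ : Fin 2 => ℝ) 1
        - ContinuousLinearMap.proj (R := ℝ) (φ := fun _ : Fin 2 => ℝ) 0)).prod
    ((r / s) • (ContinuousLinearMap.proj (R := ℝ) (φ := fun _ : Fin 2 => ℝ) 1
        - ContinuousLinearMap.proj (R := ℝ) (φ := fun _ : Fin 2 => ℝ) 0))

theorem s4a_kerL_eqns_cite : True := by
  have := @s4a_kerL.eq_1
  trivial

theorem s4a_kerL_apply (r A s : ℝ) (σ : Fin 2 → ℝ) :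
    s4a_kerL r A s σ = (r * σ 0 - A * r / s * (σ 1 - σ 0), r / s * (σ 1 - σ 0)) := by
  simp [s4a_kerL]

theorem s4a_kerL_norm_le {r A s : ℝ} (hr : 0 ≤ r) (hA : |A| ≤ 3) (hs : 1 ≤ |s|) : ‖s4a_kerL r A s‖ ≤ 7 * r := by
  refine ContinuousLinearMap.opNorm_le_bound _ (by positivity) fun σ => ?_
  rw [s4a_kerL_apply]
  have h0 : |σ 0| ≤ ‖σ‖ := norm_le_pi_norm σ 0
  have h1 : |σ 1| ≤ ‖σ‖ := norm_le_pi_norm σ 1
  have hd : |σ 1 - σ 0| ≤ 2 * ‖σ‖ := by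
    calc |σ 1 - σ 0| ≤ |σ 1| + |σ 0| := abs_sub _ _
      _ ≤ 2 * ‖σ‖ := by linarith
  have hs0 : 0 < |s| := by linarith
  have hrs : |r / s| ≤ r := by
    rw [abs_div, abs_of_nonneg hr]
    exact div_le_self hr hs
  have hArs : |A * r / s| ≤ 3 * r := by
    rw [mul_div_assoc, abs_mul]
    exact mul_le_mul hA hrs (abs_nonneg _) (by norm_num)
  have hn : 0 ≤ ‖σ‖ := norm_nonneg σ
  rw [Prod.norm_def, Real.norm_eq_abs, Real.norm_eq_abs]
  refine max_le ?_ ?_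
  · calc |r * σ 0 - A * r / s * (σ 1 - σ 0)| ≤ |r * σ 0| + |A * r / s * (σ 1 - σ 0)| := abs_sub _ _
      _ = r * |σ 0| + |A * r / s| * |σ 1 - σ 0| := by rw [abs_mul, abs_mul, abs_of_nonneg hr]
      _ ≤ r * ‖σ‖ + 3 * r * (2 * ‖σ‖) :=
          add_le_add (mul_le_mul_of_nonneg_left h0 hr) (mul_le_mul hArs hd (abs_nonneg _) (by positivity))
      _ = 7 * r * ‖σ‖ := by ring
  · calc |r / s * (σ 1 - σ 0)| = |r / s| * |σ 1 - σ 0| := abs_mul _ _
      _ ≤ r * (2 * ‖σ‖) := mul_le_mul hrs hd (abs_nonneg _) hr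
      _ ≤ 7 * r * ‖σ‖ := by nlinarith

/-- the phase `e(Λ ((σ 1 - σ 0)/s)²)` on the unit box -/
theorem s4a_kernel_phase (Λ s : ℝ) (hs : 1 ≤ |s|) :
    s4a_Gev (s4a_box (Fin 2) 1) (2 * Real.pi * (1 + 8 * |Λ|)) 1
      (fun σ : Fin 2 → ℝ => ee (Λ * ((σ 1 - σ 0) / s) ^ 2)) := by
  have hs0 : s ≠ 0 := by
    intro h
    rw [h, abs_zero] at hs
    linarith
  have hs2 : 1 ≤ s ^ 2 := by
    rw [← sq_abs]
    nlinarith
  set M : Fin 2 → Fin 2 → ℝ := fun i j => if i = j then Λ / s ^ 2 else -(Λ / s ^ 2) with hM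
  have hμ : |Λ / s ^ 2| ≤ |Λ| := by
    rw [abs_div, abs_of_pos (by positivity : (0 : ℝ) < s ^ 2)]
    exact div_le_self (abs_nonneg _) hs2
  have hsum : ∑ i, ∑ j, |M i j| = 4 * |Λ / s ^ 2| := by
    simp [Fin.sum_univ_two, hM, abs_neg]
    ring
  have hΛ : 0 ≤ |Λ| := abs_nonneg _
  have h := s4a_gev_ee_quad M (0 : Fin 2 → ℝ) 0 1 (1 + 8 * |Λ|) zero_le_one (by linarith)
    (by rw [hsum]; simp; linarith) (by rw [hsum]; nlinarith)
  have e : (fun w : Fin 2 → ℝ => ee ((∑ i, ∑ j, w i * M i j * w j) + s4a_dot 0 w + 0))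
      = fun σ : Fin 2 → ℝ => ee (Λ * ((σ 1 - σ 0) / s) ^ 2) := by
    funext σ
    congr 1
    simp [Fin.sum_univ_two, hM, s4a_dot]
    field_simp
    ring
  rwa [e] at h

/-- the constant of `s4a_kernel_fourier` (before the factor `25`) -/
noncomputable def s4a_kerC (C0 : ℝ) : ℝ :=
  2 ^ 5 * (7 ^ 5 * (7 * C0) ^ (7 * C0)) * ((16 * Real.pi) ^ 5 * s4a_w 5)

theorem s4a_kerC_eqns_cite : True := by
  have := @s4a_kerC.eq_1
  trivial

theorem s4a_adm_affine_bound {c0 C0 : ℝ} (hC0 : 1 ≤ C0) {I : Cell} {w : ℝ × ℝ → ℂ} (h : Admissible c0 C0 I w)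
    (L : (Fin 2 → ℝ) →L[ℝ] ℝ × ℝ) (hL : ‖L‖ ≤ 7 * I.len) (v : ℝ × ℝ) (n : ℕ) (hn : n ≤ 5) (σ : Fin 2 → ℝ) :
    ‖iteratedFDeriv ℝ n (fun σ => w (L σ + v)) σ‖ ≤ 7 ^ 5 * (7 * C0) ^ (7 * C0) := by
  have hr := cell_len_pos I
  have h1 := s4a_norm_iteratedFDeriv_comp_affine_le w h.smooth L v n σ
  have h2 := h.deriv n (L σ + v)
  have hn' : (n : ℝ) + 2 ≤ 7 := by
    have : (n : ℝ) ≤ 5 := by exact_mod_cast hn
    linarith
  have hn0 : (0 : ℝ) ≤ n := Nat.cast_nonneg n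
  have hb1 : 0 ≤ C0 * ((n : ℝ) + 2) := by positivity
  have hb2 : C0 * ((n : ℝ) + 2) ≤ 7 * C0 := by nlinarith
  have h3 : (C0 * ((n : ℝ) + 2)) ^ (C0 * ((n : ℝ) + 2)) ≤ (7 * C0) ^ (7 * C0) :=
    (Real.rpow_le_rpow hb1 hb2 hb1).trans (Real.rpow_le_rpow_of_exponent_le (by linarith) hb2)
  have h4 : 0 ≤ (C0 * ((n : ℝ) + 2)) ^ (C0 * ((n : ℝ) + 2)) := Real.rpow_nonneg hb1 _
  calc ‖iteratedFDeriv ℝ n (fun σ => w (L σ + v)) σ‖
      ≤ ‖L‖ ^ n * ‖iteratedFDeriv ℝ n w (L σ + v)‖ := h1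
    _ ≤ (7 * I.len) ^ n * ((I.len ^ n)⁻¹ * (C0 * ((n : ℝ) + 2)) ^ (C0 * ((n : ℝ) + 2))) :=
        mul_le_mul (pow_le_pow_left₀ (norm_nonneg _) hL n) h2 (norm_nonneg _) (by positivity)
    _ = 7 ^ n * (C0 * ((n : ℝ) + 2)) ^ (C0 * ((n : ℝ) + 2)) := by
        rw [mul_pow]
        field_simp
    _ ≤ 7 ^ 5 * (7 * C0) ^ (7 * C0) :=
        mul_le_mul (pow_le_pow_right₀ (by norm_num) hn) h3 h4 (by positivity)

/-- product rule at order `n ≤ 5` on the unit box -/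
theorem s4a_kernel_prod_bound {g₁ g₂ : (Fin 2 → ℝ) → ℂ} {B₁ D : ℝ} (hB₁ : 0 ≤ B₁) (hD : 1 ≤ D) (h₁ : ContDiff ℝ ∞ g₁)
    (hb₁ : ∀ n ≤ 5, ∀ σ, ‖iteratedFDeriv ℝ n g₁ σ‖ ≤ B₁)
    (h₂ : s4a_Gev (s4a_box (Fin 2) 1) (2 * Real.pi * D) 1 g₂) (n : ℕ) (hn : n ≤ 5) (σ : Fin 2 → ℝ)
    (hσ : σ ∈ s4a_box (Fin 2) 1) :
    ‖iteratedFDeriv ℝ n (fun y => g₁ y * g₂ y) σ‖ ≤ 2 ^ 5 * B₁ * ((2 * Real.pi * D) ^ 5 * s4a_w 5) := by
  have hπ : 1 ≤ 2 * Real.pi * D := by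
    have := Real.pi_gt_three
    nlinarith
  have hG0 : 0 ≤ (2 * Real.pi * D) ^ 5 * s4a_w 5 := mul_nonneg (by positivity) (s4a_w_pos 5).le
  have h := norm_iteratedFDeriv_mul_le (𝕜 := ℝ) h₁ h₂.smooth σ (n := n) (by exact_mod_cast le_top)
  refine h.trans ?_
  have hterm : ∀ i ∈ Finset.range (n + 1), (n.choose i : ℝ) * ‖iteratedFDeriv ℝ i g₁ σ‖ * ‖iteratedFDeriv ℝ (n - i) g₂ σ‖
      ≤ (n.choose i : ℝ) * (B₁ * ((2 * Real.pi * D) ^ 5 * s4a_w 5)) := by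
    intro i hi
    have hi' : i ≤ n := Nat.lt_succ_iff.1 (Finset.mem_range.1 hi)
    have h3 := h₂.bound (n - i) σ hσ
    have h4 : ‖iteratedFDeriv ℝ (n - i) g₂ σ‖ ≤ (2 * Real.pi * D) ^ 5 * s4a_w 5 := by
      refine h3.trans ?_
      rw [one_mul]
      exact mul_le_mul (pow_le_pow_right₀ hπ (by omega)) (s4a_w_mono (by omega)) (s4a_w_pos _).le (by positivity)
    rw [mul_assoc]
    exact mul_le_mul_of_nonneg_left (mul_le_mul (hb₁ i (hi'.trans hn) σ) h4 (norm_nonneg _) hB₁) (Nat.cast_nonneg _)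
  refine (Finset.sum_le_sum hterm).trans ?_
  rw [← Finset.sum_mul]
  have hc : (∑ i ∈ Finset.range (n + 1), (n.choose i : ℝ)) = 2 ^ n := by
    exact_mod_cast Nat.sum_range_choose n
  rw [hc]
  have h5 := mul_le_mul_of_nonneg_right (pow_le_pow_right₀ (by norm_num : (1 : ℝ) ≤ 2) hn) (mul_nonneg hB₁ hG0)
  calc _ ≤ _ := h5
    _ = _ := by ring

/-- the kernel in normalised coordinates -/
theorem s4a_kernel_core {c0 C0 : ℝ} (hc0 : 0 < c0) (hC0 : 1 ≤ C0) {I : Cell} {w : ℝ × ℝ → ℂ} (Λ : ℝ)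
    (h : Admissible c0 C0 I w) {A s : ℝ} (hA : |A| ≤ 3) (hs : 1 ≤ |s|)
    (hsupp : ∀ p : ℝ × ℝ, w p ≠ 0 →
      (I.left + c0 * I.len ≤ p.1 + A * p.2 ∧ p.1 + A * p.2 ≤ I.right - c0 * I.len) ∧
      (I.left + c0 * I.len ≤ p.1 + (A + s) * p.2 ∧ p.1 + (A + s) * p.2 ≤ I.right - c0 * I.len))
    (W : (Fin 2 → ℝ) → ℂ)
    (hW : W = fun σ => w (s4a_kerL I.len A s σ + (I.left, 0)) * ee (Λ * ((σ 1 - σ 0) / s) ^ 2)) :
    ContDiff ℝ ∞ W ∧ (∀ σ, W σ ≠ 0 → ∀ i, c0 ≤ σ i ∧ σ i ≤ 1 - c0) ∧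
      (∀ σ, ‖W σ‖ ≤ s4a_kerC C0 * (1 + |Λ|) ^ 5) ∧ ∀ σ, ‖iteratedFDeriv ℝ 5 W σ‖ ≤ s4a_kerC C0 * (1 + |Λ|) ^ 5 := by
  have hr := cell_len_pos I
  have hs0 : s ≠ 0 := by
    intro h
    rw [h, abs_zero] at hs
    linarith
  have hΛ : 0 ≤ |Λ| := abs_nonneg _
  have hL := s4a_kerL_norm_le hr.le hA hs
  have hph := s4a_kernel_phase Λ s hs
  have hsm₁ : ContDiff ℝ ∞ fun σ => w (s4a_kerL I.len A s σ + (I.left, 0)) :=
    h.smooth.comp ((s4a_kerL I.len A s).contDiff.add contDiff_const)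
  have hb₁ : ∀ n ≤ 5, ∀ σ, ‖iteratedFDeriv ℝ n (fun σ => w (s4a_kerL I.len A s σ + (I.left, 0))) σ‖
      ≤ 7 ^ 5 * (7 * C0) ^ (7 * C0) := fun n hn σ => s4a_adm_affine_bound hC0 h _ hL _ n hn σ
  have hB₁ : (0 : ℝ) ≤ 7 ^ 5 * (7 * C0) ^ (7 * C0) :=
    mul_nonneg (by positivity) (Real.rpow_nonneg (by linarith) _)
  have hsuppW : ∀ σ, W σ ≠ 0 → ∀ i, c0 ≤ σ i ∧ σ i ≤ 1 - c0 := by
    intro σ hσ
    have hw : w (s4a_kerL I.len A s σ + (I.left, 0)) ≠ 0 := by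
      intro h0
      apply hσ
      rw [hW]
      simp only [h0, zero_mul]
    obtain ⟨⟨h1, h2⟩, h3, h4⟩ := hsupp _ hw
    rw [s4a_kerL_apply] at h1 h2 h3 h4
    simp only [Prod.mk_add_mk, add_zero] at h1 h2 h3 h4
    have e1 : I.len * σ 0 - A * I.len / s * (σ 1 - σ 0) + I.left + A * (I.len / s * (σ 1 - σ 0))
        = I.left + I.len * σ 0 := by ring
    have e2 : I.len * σ 0 - A * I.len / s * (σ 1 - σ 0) + I.left + (A + s) * (I.len / s * (σ 1 - σ 0))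
        = I.left + I.len * σ 1 := by
      field_simp
      ring
    rw [e1] at h1 h2
    rw [e2] at h3 h4
    rw [cell_right_eq] at h2 h4
    have k1 : c0 ≤ σ 0 := by
      have : I.len * c0 ≤ I.len * σ 0 := by linarith
      exact le_of_mul_le_mul_left this hr
    have k2 : σ 0 ≤ 1 - c0 := by
      have : I.len * σ 0 ≤ I.len * (1 - c0) := by linarith
      exact le_of_mul_le_mul_left this hr
    have k3 : c0 ≤ σ 1 := by
      have : I.len * c0 ≤ I.len * σ 1 := by linarith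
      exact le_of_mul_le_mul_left this hr
    have k4 : σ 1 ≤ 1 - c0 := by
      have : I.len * σ 1 ≤ I.len * (1 - c0) := by linarith
      exact le_of_mul_le_mul_left this hr
    intro i
    fin_cases i
    · exact ⟨k1, k2⟩
    · exact ⟨k3, k4⟩
  have hoff : ∀ σ, σ ∉ s4a_box (Fin 2) 1 → W σ = 0 := by
    intro σ hσ
    by_contra hne
    apply hσ
    intro i
    have := hsuppW σ hne i
    rw [abs_le]
    constructor <;> linarith [this.1, this.2]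
  have hconst : 2 ^ 5 * (7 ^ 5 * (7 * C0) ^ (7 * C0)) * ((2 * Real.pi * (1 + 8 * |Λ|)) ^ 5 * s4a_w 5)
      ≤ s4a_kerC C0 * (1 + |Λ|) ^ 5 := by
    have h1 : (2 * Real.pi * (1 + 8 * |Λ|)) ^ 5 ≤ (16 * Real.pi) ^ 5 * (1 + |Λ|) ^ 5 := by
      rw [← mul_pow]
      refine pow_le_pow_left₀ (by positivity) ?_ 5
      nlinarith [Real.pi_pos]
    have h2 := s4a_w_pos 5
    unfold s4a_kerC
    calc 2 ^ 5 * (7 ^ 5 * (7 * C0) ^ (7 * C0)) * ((2 * Real.pi * (1 + 8 * |Λ|)) ^ 5 * s4a_w 5)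
        ≤ 2 ^ 5 * (7 ^ 5 * (7 * C0) ^ (7 * C0)) * (((16 * Real.pi) ^ 5 * (1 + |Λ|) ^ 5) * s4a_w 5) :=
          mul_le_mul_of_nonneg_left (mul_le_mul_of_nonneg_right h1 h2.le) (by positivity)
      _ = _ := by ring
  have hX0 : 0 ≤ s4a_kerC C0 * (1 + |Λ|) ^ 5 :=
    le_trans (mul_nonneg (by positivity) (mul_nonneg (by positivity) (s4a_w_pos 5).le)) hconst
  have hbd : ∀ n ≤ 5, ∀ σ, ‖iteratedFDeriv ℝ n W σ‖ ≤ s4a_kerC C0 * (1 + |Λ|) ^ 5 := by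
    intro n hn σ
    by_cases hσ : σ ∈ s4a_box (Fin 2) 1
    · rw [hW]
      exact (s4a_kernel_prod_bound hB₁ (by linarith) hsm₁ hb₁ hph n hn σ hσ).trans hconst
    · rw [s4a_iteratedFDeriv_eq_zero (s4a_box_closed 1) hoff n hσ, norm_zero]
      exact hX0
  refine ⟨by rw [hW]; exact hsm₁.mul hph.smooth, hsuppW, fun σ => ?_, hbd 5 le_rfl⟩
  have := hbd 0 (by norm_num) σ
  rwa [norm_iteratedFDeriv_zero] at this

/-- **Fourier expansion of an admissible kernel times a bounded quadratic phase**, on `{y_a, y_b ∈ I}` (periodic extension with period `|I|`). -/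
theorem s4a_kernel_fourier (c0 C0 : ℝ) (hc0 : 0 < c0) (hC0 : 1 ≤ C0) : ∃ Ck : ℝ, 1 ≤ Ck ∧ ∀ a b : Fin 4, a ≠ b →
    ∀ (I : Cell) (w : ℝ × ℝ → ℂ) (Λ : ℝ), Admissible c0 C0 I w →
    ∃ α : (Fin 2 → ℤ) → ℂ, (∀ ℓ, ‖α ℓ‖ * (1 + ‖ℓ‖) ^ 5 ≤ Ck * (1 + |Λ|) ^ 5) ∧
      ∀ x t : ℝ, x + (a : ℝ) * t ∈ I.set → x + (b : ℝ) * t ∈ I.set →
        HasSum (fun ℓ : Fin 2 → ℤ => α ℓ *
            ee (((ℓ 0 : ℝ) * (x + (a : ℝ) * t - I.left) + (ℓ 1 : ℝ) * (x + (b : ℝ) * t - I.left)) / I.len))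
          (w (x, t) * ee (Λ * (t / I.len) ^ 2)) := by
  have hC : 1 ≤ s4a_kerC C0 := by
    unfold s4a_kerC
    have h1 : (1 : ℝ) ≤ (7 * C0) ^ (7 * C0) := Real.one_le_rpow (by linarith) (by linarith)
    have h2 := s4a_one_le_w 5
    have h3 : (1 : ℝ) ≤ (16 * Real.pi) ^ 5 := one_le_pow₀ (by nlinarith [Real.pi_gt_three])
    have h4 : (1 : ℝ) ≤ 7 ^ 5 * (7 * C0) ^ (7 * C0) := by nlinarith
    have h5 : (1 : ℝ) ≤ (16 * Real.pi) ^ 5 * s4a_w 5 := by nlinarith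
    have h6 : (1 : ℝ) ≤ 2 ^ 5 * (7 ^ 5 * (7 * C0) ^ (7 * C0)) := by nlinarith
    nlinarith
  refine ⟨25 * s4a_kerC C0, by linarith, fun a b hab I w Λ h => ?_⟩
  have hr := cell_len_pos I
  obtain ⟨A, hAdef⟩ : ∃ A : ℝ, A = (a : ℝ) := ⟨_, rfl⟩
  obtain ⟨s, hsdef⟩ : ∃ s : ℝ, s = (b : ℝ) - (a : ℝ) := ⟨_, rfl⟩
  have hAs : A + s = (b : ℝ) := by rw [hAdef, hsdef]; ring
  have hA : |A| ≤ 3 := by
    rw [hAdef, abs_of_nonneg (Nat.cast_nonneg _)]
    have : (a : ℕ) ≤ 3 := by omega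
    exact_mod_cast this
  have hs : 1 ≤ |s| := by
    have h6 : ((b : ℕ) : ℤ) - ((a : ℕ) : ℤ) ≠ 0 := by
      intro h
      apply hab
      ext
      omega
    have h7 : (1 : ℤ) ≤ |((b : ℕ) : ℤ) - ((a : ℕ) : ℤ)| := Int.one_le_abs h6
    have h8 : ((|((b : ℕ) : ℤ) - ((a : ℕ) : ℤ)| : ℤ) : ℝ) = |(b : ℝ) - (a : ℝ)| := by
      push_cast
      rfl
    rw [hsdef, ← h8]
    exact_mod_cast h7
  have hs0 : s ≠ 0 := by
    intro h
    rw [h, abs_zero] at hs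
    linarith
  obtain ⟨W, hW⟩ : ∃ W : (Fin 2 → ℝ) → ℂ,
      W = fun σ => w (s4a_kerL I.len A s σ + (I.left, 0)) * ee (Λ * ((σ 1 - σ 0) / s) ^ 2) := ⟨_, rfl⟩
  obtain ⟨hsm, hsupp, hb0, hb5⟩ := s4a_kernel_core hc0 hC0 Λ h hA hs
    (fun p hp => ⟨by rw [hAdef]; exact h.supp p hp a, by rw [hAs]; exact h.supp p hp b⟩) W hW
  obtain ⟨α, hα, hsum⟩ := s4a_lattice_fourier (κ := Fin 2) 1 le_rfl 1 zero_le_one (fun _ => W) (fun _ _ => rfl)
    (fun _ => hsm) (fun _ σ hσ i => by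
      have := hsupp σ hσ i
      rw [abs_le]
      constructor <;> linarith [this.1, this.2]) 5 (by simp) (s4a_kerC C0 * (1 + |Λ|) ^ 5)
    (fun _ => hb0) (fun _ => hb5)
  refine ⟨α, fun ℓ => (hα ℓ).trans (le_of_eq ?_), fun x t ha hb => ?_⟩
  · simp only [Fintype.card_fin, Nat.cast_one, one_pow, mul_one]
    ring
  obtain ⟨σ, hσ⟩ : ∃ σ : Fin 2 → ℝ, σ = ![(x + (a : ℝ) * t - I.left) / I.len, (x + (b : ℝ) * t - I.left) / I.len] :=
    ⟨_, rfl⟩
  have hσ0 : σ 0 = (x + (a : ℝ) * t - I.left) / I.len := by rw [hσ]; rfl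
  have hσ1 : σ 1 = (x + (b : ℝ) * t - I.left) / I.len := by rw [hσ]; rfl
  have hrange : ∀ i, 0 ≤ σ i ∧ σ i < 1 := by
    have hR := cell_right_eq I
    intro i
    fin_cases i
    · show 0 ≤ σ 0 ∧ σ 0 < 1
      rw [hσ0]
      exact ⟨div_nonneg (by linarith [ha.1]) hr.le, by rw [div_lt_one hr]; linarith [ha.2]⟩
    · show 0 ≤ σ 1 ∧ σ 1 < 1
      rw [hσ1]
      exact ⟨div_nonneg (by linarith [hb.1]) hr.le, by rw [div_lt_one hr]; linarith [hb.2]⟩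
  have hlat : s4a_latsum (fun _ : Fin 2 → ℤ => W) σ = W σ := by
    unfold s4a_latsum
    rw [tsum_eq_single (0 : Fin 2 → ℤ)]
    · simp
    · intro n hn
      by_contra hne
      apply hn
      funext i
      have h1 := hsupp _ hne i
      have h2 := hrange i
      have h3 : (n i : ℝ) < 1 := by linarith [h1.1, h2.2]
      have h4 : (-1 : ℝ) < (n i : ℝ) := by linarith [h1.2, h2.1]
      have h5 : n i < 1 := by exact_mod_cast h3
      have h6 : -1 < n i := by exact_mod_cast h4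
      show n i = 0
      omega
  have hdiff : (σ 1 - σ 0) / s = t / I.len := by
    rw [hσ0, hσ1, hsdef]
    rw [hsdef] at hs0
    field_simp
    ring
  have hWσ : W σ = w (x, t) * ee (Λ * (t / I.len) ^ 2) := by
    rw [hW]
    simp only [hdiff]
    congr 2
    rw [s4a_kerL_apply]
    have e2 : I.len / s * (σ 1 - σ 0) = t := by
      have : I.len / s * (σ 1 - σ 0) = I.len * ((σ 1 - σ 0) / s) := by ring
      rw [this, hdiff]
      field_simp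
    have e1 : I.len * σ 0 - A * I.len / s * (σ 1 - σ 0) + I.left = x := by
      have : A * I.len / s * (σ 1 - σ 0) = A * (I.len / s * (σ 1 - σ 0)) := by ring
      rw [this, e2, hσ0, hAdef]
      field_simp
      ring
    simp only [Prod.mk_add_mk, add_zero, e1, e2]
  have hfin := hsum σ
  rw [hlat, hWσ] at hfin
  convert hfin using 3 with ℓ
  rw [Fin.sum_univ_two, hσ0, hσ1]
  simp only [Nat.cast_one, div_one]
  congr 1
  ring

end Claimed.Agent.R258
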