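/-
Row 258, block [S4a] (architect helper78).  FILE Single: **Lemma 4.6 (single-scale separation)**.
Leaves: P-S4a-SINGLE1 (`s4a_zeta_*`, `s4a_AInt_*`, `s4a_form2_term`, `s4a_single_scale_bound` = first assertion), P-S4a-SINGLE2 (`s4a_single_num`, `s4a_single_scale_sep` = second assertion).
Uses the STATEMENTS of Conv.lean, Kernel.lean, Expand.lean, Ops.lean, Lat.lean, Qp.lean.   Paper: charts.tex l.606-692.

FIRST ASSERTION.  `|form2 I w a b Q f g| ≤ Cs A ‖f‖_{2,I} ‖g‖_{2,I}` whenever `|∫ Q(ru) ζ(u) e(-ξu) du| ≤ A` for all `ξ` (`r = |I|`).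
 PLAN.  `α` from `s4a_kernel_fourier` with `Λ = 0` (`ee 0 = 1`).  `w p ≠ 0` forces `y_a, y_b ∈ I` and `|t| < r`, so `ζ(t/r) = 1` and, with `F_ℓ(y) = 1_I(y) e(ℓ₀ (y - x_I)/r) f(y)`, `G_ℓ(y) = 1_I(y) e(ℓ₁ (y - x_I)/r) g(y)`, `K(t) = Q(t) ζ(t/r)`:
      `w(x,t) Q(t) f(y_a) g(y_b) = ∑_ℓ α_ℓ K(t) F_ℓ(y_a) G_ℓ(y_b)`   for ALL `(x,t)` (both sides vanish unless `y_a, y_b ∈ I`; on `I × I` note `w(x,t) = w(x,t) ζ(t/r)` since `|t| < r` by `s4a_t_lt_of_mem`).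
   Interchange `∑_ℓ` and `∫∫` (`MeasureTheory.hasSum_integral_of_summable_integral_norm`, or `integral_tsum`): `∑ ‖α ℓ‖ < ∞` (`s4a_lat_weighted`, `M = 1`, `card (Fin 2) = 2`, `5 = 1 + 2·2`) and `∫∫ |K| |1_I f|(y_a) |1_I g|(y_b) < ∞` (`s4a_int2_kernel` for the norms).
   Each term: `s4a_form2_term` `≤ (r A) (√r ‖f‖_{2,I}) (√r ‖g‖_{2,I})`.   Total: `r⁻² · ∑‖α ℓ‖ · r² A ‖f‖ ‖g‖`, `∑ ‖α ℓ‖ ≤ 16 Ck`.  So `Cs = 16 Ck`.
 `s4a_form2_term`: `s4a_int2_kernel` + `s4a_conv_bound` (`s = b - a ≠ 0`, `ρ₀ = 2r`, `X = 1`, `[x₁,x₂] = [I.left, I.right]`), `Amax = r A` by `s4a_AInt_scale`.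
 `s4a_AInt_scale`: substitution `t = r u` (`MeasureTheory.integral_comp_mul_left`): `∫ Q(t) ζ(t/r) e(-ξ t) dt = r ∫ Q(ru) ζ(u) e(-(ξ r) u) du`.

SECOND ASSERTION (simplified: NO bumps; the separated factors are pure linear phases, to be multiplied by `ψ_a, ψ_b`).  If `δ ≤ |∫ Q(ru) ζ(u) e(-ξu) du|` for some `ξ`, then for `y_a, y_b ∈ I`
      `|w(x,t) Q(t) - ∑_ν c_ν e(μ_ν y_a) e(μ'_ν y_b)| ≤ ε`,   `∑ |c_ν| ≤ D`, number of terms `≤ D`, `D = s4b_qp C (log H + log 1/δ + log 1/ε)`.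
 PLAN.  `r = I.len`, `Q' = s4a_dil Q r` (`Q'.eval u = Q.eval (r u)`, same complexity; `Q'.d = Q.d`, `Q'.C = Q.C` definitionally).  `s4a_AInt Q.eval r ξ = s4a_AInt Q'.eval 1 ξ`.   `hW : s4a_Weyl1` gives `Pf` with bound `B = s4b_qp C_W (log H + log 1/δ) ≥ 1`; `Λ = Q'.lam + s4a_quad Q'.C Pf Q'.th`, `|Λ| ≤ B`.
   `s4a_chart_expand_trunc` for `Q'`, `B`, `ε₁ = ε / (2 W₀)`, `W₀ = (2C0)^(2C0) ≥ 1`: finite `S`, coefficients `a`, valid for `|u| ≤ 1` (`|(1-Pf)th'_i u| ≤ B`).   `s4a_kernel_fourier` with this `Λ`: `α`; truncate at `‖ℓ'‖ < T₁` (`s4a_lat_truncate`, `M = 1`): error `≤ 16 Ck (1+B)^5 / T₁`.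
   With `u = t/r`, `t = (y_b - y_a)/(b-a)`:  `w(x,t) Q(t) = w(x,t) Q'(u) ≈ w(x,t) e(Λ u²) e(β' u) ∑_{ℓ∈S} a_ℓ e(γ_ℓ u) ≈ ∑_{ℓ ∈ S} ∑_{‖ℓ'‖<T₁} a_ℓ α_ℓ' e((β' + γ_ℓ) u) e((ℓ'₀ (y_a - x_I) + ℓ'₁ (y_b - x_I))/r)`,
   errors `W₀ ε₁ = ε/2` and `(∑_S ‖a ℓ‖) · 16 Ck (1+B)^5 / T₁ ≤ ε/2` for `T₁ = 32 Ck (1+B)^5 D_a / ε`.   Index type `X = S × {ℓ' | ‖ℓ'‖ < T₁}` (finite);  `μ = ℓ'₀/r - (β'+γ_ℓ)/(r (b-a))`, `μ' = ℓ'₁/r + (β'+γ_ℓ)/(r (b-a))`, `c = a_ℓ α_ℓ' e(-(ℓ'₀+ℓ'₁) x_I / r)`.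
   Numerics (`s4a_single_num` or inline) with Qp.lean: `x = log H + log 1/δ + log 1/ε`; `log B = pl C_W (..) ≤ pl C_W x`: compositions by `s4a_qp_comp`; `Ck, W₀` are constants depending on `(c0, C0)` only (`≤ qp ⌈Ck⌉₊ x`).
-/
import Claimed.Agent.R258.S4a.Conv
import Claimed.Agent.R258.S4a.Kernel
import Claimed.Agent.R258.S4a.Expand
import Claimed.Agent.R258.S4a.Ops
import Claimed.Agent.R258.S4a.QpAuto

set_option autoImplicit false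
open MeasureTheory
open scoped ENNReal ContDiff ComplexConjugate

namespace Claimed.Agent.R258

/-! ### the cutoff `ζ` -/

theorem s4a_zeta_range (u : ℝ) : 0 ≤ s4a_zeta u ∧ s4a_zeta u ≤ 1 := by
  have h1 := Real.smoothTransition.nonneg (2 - u)
  have h2 := Real.smoothTransition.nonneg (2 + u)
  have h3 := Real.smoothTransition.le_one (2 - u)
  have h4 := Real.smoothTransition.le_one (2 + u)
  unfold s4a_zeta
  exact ⟨mul_nonneg h1 h2, by nlinarith⟩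

theorem s4a_zeta_one (u : ℝ) (hu : |u| ≤ 1) : s4a_zeta u = 1 := by
  obtain ⟨h1, h2⟩ := abs_le.1 hu
  unfold s4a_zeta
  rw [Real.smoothTransition.one_of_one_le (by linarith), Real.smoothTransition.one_of_one_le (by linarith), one_mul]

theorem s4a_zeta_supp (u : ℝ) (hu : 2 ≤ |u|) : s4a_zeta u = 0 := by
  unfold s4a_zeta
  rcases le_abs.1 hu with h | h
  · rw [Real.smoothTransition.zero_of_nonpos (by linarith), zero_mul]
  · rw [Real.smoothTransition.zero_of_nonpos (x := 2 + u) (by linarith), mul_zero]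

theorem s4a_zeta_contDiff : ContDiff ℝ ∞ s4a_zeta := by
  unfold s4a_zeta
  exact (Real.smoothTransition.contDiff.comp (contDiff_const.sub contDiff_id)).mul
    (Real.smoothTransition.contDiff.comp (contDiff_const.add contDiff_id))

/-- `ζ` is Lipschitz (a smooth compactly supported function) -/
theorem s4a_zeta_lipschitz : ∃ L : ℝ, 1 ≤ L ∧ ∀ u v : ℝ, |s4a_zeta u - s4a_zeta v| ≤ L * |u - v| := by
  have hcs : HasCompactSupport s4a_zeta := by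
    refine HasCompactSupport.intro (K := Set.Icc (-2) 2) isCompact_Icc ?_
    intro x hx
    apply s4a_zeta_supp
    by_contra h
    push Not at h
    exact hx ⟨(abs_lt.1 h).1.le, (abs_lt.1 h).2.le⟩
  obtain ⟨C, hC⟩ := ContDiff.lipschitzWith_of_hasCompactSupport hcs s4a_zeta_contDiff (by simp)
  refine ⟨max 1 C, le_max_left _ _, fun u v => ?_⟩
  have h := hC.dist_le_mul u v
  rw [Real.dist_eq, Real.dist_eq] at h
  refine le_trans h ?_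
  gcongr
  exact le_max_right _ _

theorem s4a_zeta_measurable : Measurable s4a_zeta := s4a_zeta_contDiff.continuous.measurable

/-! ### the Fourier integrals `A_r` -/

theorem s4a_AInt_le (Q : ℝ → ℂ) (hQ : ∀ t, ‖Q t‖ ≤ 1) (r ξ : ℝ) : ‖s4a_AInt Q r ξ‖ ≤ 4 := by
  have hg : Integrable (Set.indicator (Set.Icc (-2 : ℝ) 2) (fun _ => (1 : ℝ))) := by
    rw [integrable_indicator_iff measurableSet_Icc]
    exact integrableOn_const (by simp)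
  have hb : ∀ u : ℝ, ‖Q (r * u) * (s4a_zeta u : ℂ) * ee (-(ξ * u))‖ ≤ Set.indicator (Set.Icc (-2 : ℝ) 2) (fun _ => (1 : ℝ)) u := by
    intro u
    rw [norm_mul, norm_mul, s4a_ee_norm, mul_one, Complex.norm_real, Real.norm_eq_abs, abs_of_nonneg (s4a_zeta_range u).1]
    by_cases hu : u ∈ Set.Icc (-2 : ℝ) 2
    · rw [Set.indicator_of_mem hu]
      have h1 := hQ (r * u)
      have h2 := s4a_zeta_range u
      have h3 := norm_nonneg (Q (r * u))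
      nlinarith
    · rw [Set.indicator_of_notMem hu, s4a_zeta_supp u, mul_zero]
      by_contra h
      push Not at h
      exact hu ⟨(abs_lt.1 h).1.le, (abs_lt.1 h).2.le⟩
  have h := norm_integral_le_of_norm_le hg (Filter.Eventually.of_forall hb)
  refine le_trans h ?_
  rw [integral_indicator measurableSet_Icc, setIntegral_const]
  simp
  norm_num

theorem s4a_AInt_scale (Q : ℝ → ℂ) (r : ℝ) (hr : 0 < r) (ξ : ℝ) :
    ∫ t : ℝ, (Q t * (s4a_zeta (t / r) : ℂ)) * ee (-(ξ * t)) = (r : ℂ) * s4a_AInt Q r (ξ * r) := by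
  have h := MeasureTheory.Measure.integral_comp_mul_left (fun t : ℝ => (Q t * (s4a_zeta (t / r) : ℂ)) * ee (-(ξ * t))) r
  have h2 : s4a_AInt Q r (ξ * r) = ∫ u : ℝ, (Q (r * u) * (s4a_zeta (r * u / r) : ℂ)) * ee (-(ξ * (r * u))) := by
    unfold s4a_AInt
    congr 1
    funext u
    rw [mul_div_cancel_left₀ _ hr.ne', mul_assoc ξ r u]
  rw [h2, h, abs_of_pos (inv_pos.2 hr), Complex.real_smul, ← mul_assoc]
  push_cast
  rw [mul_inv_cancel₀ (by exact_mod_cast hr.ne'), one_mul]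

theorem s4a_AInt_dil (Q : Chart) (r ξ : ℝ) : s4a_AInt Q.eval r ξ = s4a_AInt (s4a_dil Q r).eval 1 ξ := by
  unfold s4a_AInt
  congr 1
  funext u
  rw [s4a_dil_eval, one_mul]

/-- `‖s4a_AInt Q r ξ‖ ≤ s4a_Ar Q r` for bounded `Q` -/
theorem s4a_AInt_le_Ar (Q : ℝ → ℂ) (hQ : ∀ t, ‖Q t‖ ≤ 1) (r ξ : ℝ) : ‖s4a_AInt Q r ξ‖ ≤ s4a_Ar Q r := by
  unfold s4a_Ar
  refine le_ciSup (f := fun ξ => ‖s4a_AInt Q r ξ‖) ⟨4, ?_⟩ ξ
  rintro _ ⟨ξ', rfl⟩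
  exact s4a_AInt_le Q hQ r ξ'

/-! ### first assertion -/

theorem s4a_fin4_cast_ne {a b : Fin 4} (hab : a ≠ b) : ((a : ℕ) : ℝ) ≠ ((b : ℕ) : ℝ) := by
  intro h
  apply hab
  ext
  exact_mod_cast h

/-- one Fourier term of the kernel -/
theorem s4a_form2_term (a b : Fin 4) (hab : a ≠ b) (I : Cell) (Q F G : ℝ → ℂ) (A : ℝ) (hQm : Measurable Q)
    (hQ : ∀ t, ‖Q t‖ ≤ 1) (hFm : Measurable F) (hGm : Measurable G) (hF : s4b_L2 I F) (hG : s4b_L2 I G)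
    (hA : ∀ ξ, ‖s4a_AInt Q I.len ξ‖ ≤ A) :
    ‖∫ p : ℝ × ℝ, (Q p.2 * (s4a_zeta (p.2 / I.len) : ℂ)) * I.set.indicator F (p.1 + (a : ℝ) * p.2) *
        I.set.indicator G (p.1 + (b : ℝ) * p.2)‖ ≤ I.len ^ 2 * A * nnorm 2 I F * nnorm 2 I G := by
  have hr := cell_len_pos I
  obtain ⟨f1, f2, f3, f4, f5, -⟩ := s4a_ind_facts I F hFm hF
  obtain ⟨g1, g2, g3, g4, g5, -⟩ := s4a_ind_facts I G hGm hG
  have hKm : Measurable (fun t : ℝ => Q t * (s4a_zeta (t / I.len) : ℂ)) :=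
    hQm.mul (Complex.measurable_ofReal.comp (s4a_zeta_measurable.comp (measurable_id.div_const _)))
  have hKb : ∀ t : ℝ, ‖Q t * (s4a_zeta (t / I.len) : ℂ)‖ ≤ 1 := by
    intro t
    rw [norm_mul, Complex.norm_real, Real.norm_eq_abs, abs_of_nonneg (s4a_zeta_range _).1]
    have h1 := hQ t
    have h2 := s4a_zeta_range (t / I.len)
    have h3 := norm_nonneg (Q t)
    nlinarith
  have hKs : ∀ t : ℝ, 2 * I.len < |t| → Q t * (s4a_zeta (t / I.len) : ℂ) = 0 := by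
    intro t ht
    rw [s4a_zeta_supp, Complex.ofReal_zero, mul_zero]
    rw [abs_div, abs_of_pos hr, le_div_iff₀ hr]
    exact ht.le
  have hKA : ∀ ξ : ℝ, ‖∫ t, (Q t * (s4a_zeta (t / I.len) : ℂ)) * ee (-(ξ * t))‖ ≤ I.len * A := by
    intro ξ
    rw [s4a_AInt_scale Q I.len hr ξ, norm_mul, Complex.norm_real, Real.norm_eq_abs, abs_of_pos hr]
    exact mul_le_mul_of_nonneg_left (hA _) hr.le
  have hne := s4a_fin4_cast_ne hab
  rw [(s4a_int2_kernel (a : ℝ) (b : ℝ) hne _ _ _ 1 hKm hKb f2 g2).2]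
  have h := s4a_conv_bound _ hKm 1 (2 * I.len) (I.len * A) hKb hKs hKA ((b : ℝ) - (a : ℝ)) (sub_ne_zero.2 hne.symm)
    I.left I.right _ _ f1 g1 f4 g4 f3 g3
  refine le_trans h (le_of_eq ?_)
  rw [f5, g5]
  have hsq : Real.sqrt I.len * Real.sqrt I.len = I.len := Real.mul_self_sqrt hr.le
  calc I.len * A * (Real.sqrt I.len * nnorm 2 I F) * (Real.sqrt I.len * nnorm 2 I G)
      = I.len * (Real.sqrt I.len * Real.sqrt I.len) * A * nnorm 2 I F * nnorm 2 I G := by ring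
    _ = I.len ^ 2 * A * nnorm 2 I F * nnorm 2 I G := by rw [hsq]; ring

/-- multiplication by a unimodular measurable factor -/
theorem s4a_L2_unimod (I : Cell) (f e : ℝ → ℂ) (hem : Measurable e) (he : ∀ y, ‖e y‖ = 1) (hf : s4b_L2 I f) :
    s4b_L2 I (fun y => e y * f y) ∧ nnorm 2 I (fun y => e y * f y) = nnorm 2 I f := by
  constructor
  · refine MemLp.of_le hf (hem.aestronglyMeasurable.mul hf.1) (Filter.Eventually.of_forall fun y => ?_)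
    rw [norm_mul, he, one_mul]
  · unfold nnorm
    simp only [norm_mul, he, one_mul]

/-- `e(n (y - x_I)/|I|) f(y)` -/
noncomputable def s4a_modI (I : Cell) (n : ℤ) (f : ℝ → ℂ) : ℝ → ℂ := fun y => ee ((n : ℝ) * (y - I.left) / I.len) * f y

theorem s4a_modI_facts (I : Cell) (n : ℤ) (f : ℝ → ℂ) (hfm : Measurable f) (hf : s4b_L2 I f) :
    Measurable (s4a_modI I n f) ∧ s4b_L2 I (s4a_modI I n f) ∧ nnorm 2 I (s4a_modI I n f) = nnorm 2 I f ∧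
      ∀ z, ‖I.set.indicator (s4a_modI I n f) z‖ = ‖I.set.indicator f z‖ := by
  have hem : Measurable (fun y : ℝ => ee ((n : ℝ) * (y - I.left) / I.len)) :=
    (s4a_ee_continuous.comp (by fun_prop)).measurable
  have h := s4a_L2_unimod I f _ hem (fun y => s4a_ee_norm _) hf
  refine ⟨hem.mul hfm, h.1, h.2, ?_⟩
  intro z
  by_cases hz : z ∈ I.set
  · rw [Set.indicator_of_mem hz, Set.indicator_of_mem hz]
    unfold s4a_modI
    rw [norm_mul, s4a_ee_norm, one_mul]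
  · rw [Set.indicator_of_notMem hz, Set.indicator_of_notMem hz]

/-- the `ℓ`-th term of the expansion of the integrand of `s4a_form2` -/
noncomputable def s4a_f2t (I : Cell) (a b : Fin 4) (Q f g : ℝ → ℂ) (ℓ : Fin 2 → ℤ) (p : ℝ × ℝ) : ℂ :=
  (Q p.2 * (s4a_zeta (p.2 / I.len) : ℂ)) * I.set.indicator (s4a_modI I (ℓ 0) f) (p.1 + (a : ℝ) * p.2) *
    I.set.indicator (s4a_modI I (ℓ 1) g) (p.1 + (b : ℝ) * p.2)

theorem s4a_f2t_norm (I : Cell) (a b : Fin 4) (Q f g : ℝ → ℂ) (hfm : Measurable f) (hgm : Measurable g) (hf : s4b_L2 I f)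
    (hg : s4b_L2 I g) (ℓ : Fin 2 → ℤ) (p : ℝ × ℝ) : ‖s4a_f2t I a b Q f g ℓ p‖ = ‖s4a_f2t I a b Q f g 0 p‖ := by
  unfold s4a_f2t
  simp only [norm_mul, (s4a_modI_facts I _ f hfm hf).2.2.2, (s4a_modI_facts I _ g hgm hg).2.2.2]

theorem s4a_f2t_integrable (I : Cell) (a b : Fin 4) (hab : a ≠ b) (Q f g : ℝ → ℂ) (hQm : Measurable Q)
    (hQ : ∀ t, ‖Q t‖ ≤ 1) (hfm : Measurable f) (hgm : Measurable g) (hf : s4b_L2 I f)
    (hg : s4b_L2 I g) (ℓ : Fin 2 → ℤ) : Integrable (s4a_f2t I a b Q f g ℓ) := by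
  have hKm : Measurable (fun t : ℝ => Q t * (s4a_zeta (t / I.len) : ℂ)) :=
    hQm.mul (Complex.measurable_ofReal.comp (s4a_zeta_measurable.comp (measurable_id.div_const _)))
  have hKb : ∀ t : ℝ, ‖Q t * (s4a_zeta (t / I.len) : ℂ)‖ ≤ 1 := by
    intro t
    rw [norm_mul, Complex.norm_real, Real.norm_eq_abs, abs_of_nonneg (s4a_zeta_range _).1]
    have h1 := hQ t
    have h2 := s4a_zeta_range (t / I.len)
    have h3 := norm_nonneg (Q t)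
    nlinarith
  obtain ⟨m1, m2, -, -⟩ := s4a_modI_facts I (ℓ 0) f hfm hf
  obtain ⟨n1, n2, -, -⟩ := s4a_modI_facts I (ℓ 1) g hgm hg
  obtain ⟨-, f2, -⟩ := s4a_ind_facts I _ m1 m2
  obtain ⟨-, g2, -⟩ := s4a_ind_facts I _ n1 n2
  exact (s4a_int2_kernel (a : ℝ) (b : ℝ) (s4a_fin4_cast_ne hab) _ _ _ 1 hKm hKb f2 g2).1

theorem s4a_f2t_bound (I : Cell) (a b : Fin 4) (hab : a ≠ b) (Q f g : ℝ → ℂ) (A : ℝ) (hQm : Measurable Q)
    (hQ : ∀ t, ‖Q t‖ ≤ 1) (hfm : Measurable f) (hgm : Measurable g) (hf : s4b_L2 I f)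
    (hg : s4b_L2 I g) (hA : ∀ ξ, ‖s4a_AInt Q I.len ξ‖ ≤ A) (ℓ : Fin 2 → ℤ) :
    ‖∫ p, s4a_f2t I a b Q f g ℓ p‖ ≤ I.len ^ 2 * A * nnorm 2 I f * nnorm 2 I g := by
  obtain ⟨m1, m2, m3, -⟩ := s4a_modI_facts I (ℓ 0) f hfm hf
  obtain ⟨n1, n2, n3, -⟩ := s4a_modI_facts I (ℓ 1) g hgm hg
  have h1 := s4a_form2_term a b hab I Q _ _ A hQm hQ m1 n1 m2 n2 hA
  rw [m3, n3] at h1
  exact h1

/-- the pointwise expansion of the integrand -/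
theorem s4a_f2t_hasSum {c0 C0 : ℝ} (hc0 : 0 < c0) (I : Cell) (a b : Fin 4) (hab : a ≠ b) (w : ℝ × ℝ → ℂ)
    (hw : Admissible c0 C0 I w) (Q f g : ℝ → ℂ) (α : (Fin 2 → ℤ) → ℂ)
    (hsum : ∀ x t : ℝ, x + (a : ℝ) * t ∈ I.set → x + (b : ℝ) * t ∈ I.set →
        HasSum (fun ℓ : Fin 2 → ℤ => α ℓ *
            ee (((ℓ 0 : ℝ) * (x + (a : ℝ) * t - I.left) + (ℓ 1 : ℝ) * (x + (b : ℝ) * t - I.left)) / I.len))
          (w (x, t) * ee (0 * (t / I.len) ^ 2))) (p : ℝ × ℝ) :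
    HasSum (fun ℓ => α ℓ * s4a_f2t I a b Q f g ℓ p) (w p * Q p.2 * f (p.1 + (a : ℝ) * p.2) * g (p.1 + (b : ℝ) * p.2)) := by
  have hr := cell_len_pos I
  by_cases hp : p.1 + (a : ℝ) * p.2 ∈ I.set ∧ p.1 + (b : ℝ) * p.2 ∈ I.set
  · obtain ⟨ha, hb⟩ := hp
    have h1 := hsum p.1 p.2 ha hb
    have ht := s4a_t_lt_of_mem hab ha hb
    have hz : s4a_zeta (p.2 / I.len) = 1 := by
      apply s4a_zeta_one
      rw [abs_div, abs_of_pos hr, div_le_one hr]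
      exact ht.le
    have h2 := h1.mul_right (Q p.2 * f (p.1 + (a : ℝ) * p.2) * g (p.1 + (b : ℝ) * p.2))
    rw [zero_mul, s4a_ee_zero, mul_one] at h2
    have e1 : (fun ℓ => α ℓ * s4a_f2t I a b Q f g ℓ p) = fun ℓ => α ℓ * ee (((ℓ 0 : ℝ) * (p.1 + (a : ℝ) * p.2 - I.left) +
        (ℓ 1 : ℝ) * (p.1 + (b : ℝ) * p.2 - I.left)) / I.len) * (Q p.2 * f (p.1 + (a : ℝ) * p.2) * g (p.1 + (b : ℝ) * p.2)) := by
      funext ℓ
      unfold s4a_f2t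
      rw [Set.indicator_of_mem ha, Set.indicator_of_mem hb, hz, add_div, s4a_ee_add]
      unfold s4a_modI
      push_cast
      ring
    have e2 : w p * Q p.2 * f (p.1 + (a : ℝ) * p.2) * g (p.1 + (b : ℝ) * p.2) =
        w (p.1, p.2) * (Q p.2 * f (p.1 + (a : ℝ) * p.2) * g (p.1 + (b : ℝ) * p.2)) := by
      show w (p.1, p.2) * Q p.2 * f (p.1 + (a : ℝ) * p.2) * g (p.1 + (b : ℝ) * p.2) = _
      ring
    rw [e1, e2]
    exact h2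
  · have hw0 : w p = 0 := by
      by_contra h
      exact hp ⟨s4a_adm_mem hc0 hw p h a, s4a_adm_mem hc0 hw p h b⟩
    rw [hw0, zero_mul, zero_mul, zero_mul]
    have : (fun ℓ => α ℓ * s4a_f2t I a b Q f g ℓ p) = fun _ => 0 := by
      funext ℓ
      unfold s4a_f2t
      by_cases ha : p.1 + (a : ℝ) * p.2 ∈ I.set
      · have hb : p.1 + (b : ℝ) * p.2 ∉ I.set := fun hb => hp ⟨ha, hb⟩
        rw [Set.indicator_of_notMem hb, mul_zero, mul_zero]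
      · rw [Set.indicator_of_notMem ha, mul_zero, zero_mul, mul_zero]
    rw [this]
    exact hasSum_zero

/-- **Lemma 4.6, first assertion.** -/
theorem s4a_single_scale_bound (c0 C0 : ℝ) (hc0 : 0 < c0) (hC0 : 1 ≤ C0) : ∃ Cs : ℝ, 1 ≤ Cs ∧ ∀ a b : Fin 4, a ≠ b →
    ∀ (I : Cell) (w : ℝ × ℝ → ℂ) (Q f g : ℝ → ℂ) (A : ℝ), Admissible c0 C0 I w → Measurable Q → (∀ t, ‖Q t‖ ≤ 1) →
    Measurable f → Measurable g → s4b_L2 I f → s4b_L2 I g → (∀ ξ, ‖s4a_AInt Q I.len ξ‖ ≤ A) →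
    ‖s4a_form2 I w a b Q f g‖ ≤ Cs * A * nnorm 2 I f * nnorm 2 I g := by
  obtain ⟨Ck, hCk1, hk⟩ := s4a_kernel_fourier c0 C0 hc0 hC0
  refine ⟨16 * Ck, by linarith, ?_⟩
  intro a b hab I w Q f g A hw hQm hQ hfm hgm hf hg hA
  obtain ⟨α, hα, hsum⟩ := hk a b hab I w 0 hw
  clear hk
  have hr := cell_len_pos I
  have hA0 : 0 ≤ A := le_trans (norm_nonneg _) (hA 0)
  -- summability of the coefficients
  have hα' : ∀ ℓ, ‖α ℓ‖ * (1 + ‖ℓ‖) ^ (1 + 2 * Fintype.card (Fin 2)) ≤ Ck := by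
    intro ℓ
    have := hα ℓ
    simpa using this
  obtain ⟨hs1, hs2⟩ := s4a_lat_weighted α 1 Ck (by linarith) hα'
  have hle : ∀ ℓ, ‖α ℓ‖ ≤ ‖α ℓ‖ * (1 + ‖ℓ‖) ^ 1 := by
    intro ℓ
    have h1 := norm_nonneg ℓ
    have h2 := norm_nonneg (α ℓ)
    nlinarith
  have hsα : Summable fun ℓ => ‖α ℓ‖ := Summable.of_nonneg_of_le (fun _ => norm_nonneg _) hle hs1
  have hsα16 : ∑' ℓ, ‖α ℓ‖ ≤ 16 * Ck := by
    refine le_trans (hsα.tsum_le_tsum hle hs1) (le_trans hs2 ?_)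
    simp
    norm_num
  have hint : ∀ ℓ, Integrable (fun p => α ℓ * s4a_f2t I a b Q f g ℓ p) := fun ℓ =>
    (s4a_f2t_integrable I a b hab Q f g hQm hQ hfm hgm hf hg ℓ).const_mul _
  have hsumI : Summable fun ℓ => ∫ p, ‖α ℓ * s4a_f2t I a b Q f g ℓ p‖ := by
    simp_rw [norm_mul, s4a_f2t_norm I a b Q f g hfm hgm hf hg _ _, integral_const_mul]
    exact hsα.mul_right _
  have hmain := hasSum_integral_of_summable_integral_norm hint hsumI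
  have htsum : (fun p => ∑' ℓ, α ℓ * s4a_f2t I a b Q f g ℓ p) =
      fun p : ℝ × ℝ => w p * Q p.2 * f (p.1 + (a : ℝ) * p.2) * g (p.1 + (b : ℝ) * p.2) := by
    funext p
    exact (s4a_f2t_hasSum hc0 I a b hab w hw Q f g α hsum p).tsum_eq
  rw [htsum] at hmain
  have hnf : 0 ≤ nnorm 2 I f := Real.rpow_nonneg (mul_nonneg (inv_nonneg.2 hr.le) (integral_nonneg fun _ => by positivity)) _
  have hng : 0 ≤ nnorm 2 I g := Real.rpow_nonneg (mul_nonneg (inv_nonneg.2 hr.le) (integral_nonneg fun _ => by positivity)) _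
  have hterm : ∀ ℓ, ‖∫ p, α ℓ * s4a_f2t I a b Q f g ℓ p‖ ≤ ‖α ℓ‖ * (I.len ^ 2 * A * nnorm 2 I f * nnorm 2 I g) := by
    intro ℓ
    rw [integral_const_mul, norm_mul]
    exact mul_le_mul_of_nonneg_left (s4a_f2t_bound I a b hab Q f g A hQm hQ hfm hgm hf hg hA ℓ) (norm_nonneg _)
  have hfinal := hmain.norm_le_of_bounded (hsα.hasSum.mul_right _) hterm
  unfold s4a_form2
  rw [norm_mul, Complex.norm_real, Real.norm_eq_abs, abs_of_pos (inv_pos.2 (pow_pos hr 2))]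
  have hX : 0 ≤ I.len ^ 2 * A * nnorm 2 I f * nnorm 2 I g := by positivity
  calc (I.len ^ 2)⁻¹ * ‖∫ p : ℝ × ℝ, w p * Q p.2 * f (p.1 + (a : ℝ) * p.2) * g (p.1 + (b : ℝ) * p.2)‖
      ≤ (I.len ^ 2)⁻¹ * ((∑' ℓ, ‖α ℓ‖) * (I.len ^ 2 * A * nnorm 2 I f * nnorm 2 I g)) := by gcongr
    _ ≤ (I.len ^ 2)⁻¹ * ((16 * Ck) * (I.len ^ 2 * A * nnorm 2 I f * nnorm 2 I g)) := by gcongr
    _ = 16 * Ck * A * nnorm 2 I f * nnorm 2 I g := by
        field_simp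

/-! ### second assertion -/

theorem s4a_sep_core (wv Qv E0 E1 P1 ZT : ℂ) (W0 ε1 η Da : ℝ) (hw : ‖wv‖ ≤ W0) (hQ : ‖Qv - E0 * E1 * P1‖ ≤ ε1)
    (hZ : ‖wv * E0 - ZT‖ ≤ η) (hP : ‖P1‖ ≤ Da) (hE1 : ‖E1‖ = 1) :
    ‖wv * Qv - E1 * P1 * ZT‖ ≤ W0 * ε1 + η * Da := by
  have e : wv * Qv - E1 * P1 * ZT = wv * (Qv - E0 * E1 * P1) + (wv * E0 - ZT) * (E1 * P1) := by ring
  rw [e]
  refine le_trans (norm_add_le _ _) ?_
  rw [norm_mul, norm_mul, norm_mul, hE1, one_mul]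
  have h1 := norm_nonneg wv
  have h2 := norm_nonneg (Qv - E0 * E1 * P1)
  have h3 := norm_nonneg (wv * E0 - ZT)
  have h4 := norm_nonneg P1
  have h5 : ‖wv‖ * ‖Qv - E0 * E1 * P1‖ ≤ W0 * ε1 := mul_le_mul hw hQ h2 (by linarith)
  have h6 : ‖wv * E0 - ZT‖ * ‖P1‖ ≤ η * Da := mul_le_mul hZ hP h4 (by linarith)
  linarith

/-- numerics of the second assertion -/
theorem s4a_single_num (CW Cq : ℕ) (Ck W0 : ℝ) (hCk : 1 ≤ Ck) (hW0 : 1 ≤ W0) : ∃ C : ℕ, ∀ H δ ε : ℝ, Real.exp 2 ≤ H →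
    0 < δ → δ < 1 / 2 → 0 < ε → ε < 1 / 2 →
    s4b_qp Cq (Real.log H + Real.log (s4b_qp CW (Real.log H + Real.log (1 / δ)))) *
        (16 * (Ck * (1 + s4b_qp CW (Real.log H + Real.log (1 / δ))) ^ 5)) ≤
      s4b_qp C (Real.log H + Real.log (1 / δ) + Real.log (1 / ε)) ∧
    s4b_qp Cq (Real.log H + Real.log (s4b_qp CW (Real.log H + Real.log (1 / δ))) + Real.log (1 / (ε / (2 * W0)))) *
        (2 * (2 * (16 * (Ck * (1 + s4b_qp CW (Real.log H + Real.log (1 / δ))) ^ 5)) *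
          s4b_qp Cq (Real.log H + Real.log (s4b_qp CW (Real.log H + Real.log (1 / δ)))) / ε) + 1) ^ 2 ≤
      s4b_qp C (Real.log H + Real.log (1 / δ) + Real.log (1 / ε)) := by
  let V : ℝ × ℝ × ℝ → Prop := fun p => Real.exp 2 ≤ p.1 ∧ 0 < p.2.1 ∧ p.2.1 < 1 / 2 ∧ 0 < p.2.2 ∧ p.2.2 < 1 / 2
  let x : ℝ × ℝ × ℝ → ℝ := fun p => Real.log p.1 + Real.log (1 / p.2.1) + Real.log (1 / p.2.2)
  have hH1 : ∀ p, V p → 1 ≤ p.1 := fun p hp => le_trans (Real.one_le_exp (by norm_num)) hp.1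
  have hlH : ∀ p, V p → 0 ≤ Real.log p.1 := fun p hp => Real.log_nonneg (hH1 p hp)
  have hd1 : ∀ p, V p → 1 ≤ 1 / p.2.1 := fun p hp => by
    rw [le_div_iff₀ hp.2.1]; linarith [hp.2.2.1]
  have he1 : ∀ p, V p → 1 ≤ 1 / p.2.2 := fun p hp => by
    rw [le_div_iff₀ hp.2.2.2.1]; linarith [hp.2.2.2.2]
  have hld : ∀ p, V p → 0 ≤ Real.log (1 / p.2.1) := fun p hp => Real.log_nonneg (hd1 p hp)
  have hle : ∀ p, V p → 0 ≤ Real.log (1 / p.2.2) := fun p hp => Real.log_nonneg (he1 p hp)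
  have hx : ∀ p, V p → 0 ≤ x p := fun p hp => by
    have := hlH p hp; have := hld p hp; have := hle p hp
    show 0 ≤ Real.log p.1 + Real.log (1 / p.2.1) + Real.log (1 / p.2.2)
    linarith
  have c : ∀ c : ℝ, 0 ≤ c → s4a_IsQP V x (fun _ => c) := fun c hc => s4a_IsQP.const hx c hc
  have cp : ∀ c : ℝ, 0 ≤ c → s4a_IsPL V x (fun _ => c) := fun c hc => s4a_IsPL.const hx c hc
  have plH : s4a_IsPL V x (fun p => Real.log p.1) := (s4a_IsPL.size hx).mono hlH (fun p hp => by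
    have := hld p hp; have := hle p hp
    show Real.log p.1 ≤ Real.log p.1 + Real.log (1 / p.2.1) + Real.log (1 / p.2.2)
    linarith)
  have plHd : s4a_IsPL V x (fun p => Real.log p.1 + Real.log (1 / p.2.1)) := (s4a_IsPL.size hx).mono
    (fun p hp => add_nonneg (hlH p hp) (hld p hp)) (fun p hp => by
    have := hle p hp
    show Real.log p.1 + Real.log (1 / p.2.1) ≤ Real.log p.1 + Real.log (1 / p.2.1) + Real.log (1 / p.2.2)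
    linarith)
  have ple : s4a_IsPL V x (fun p => Real.log (1 / p.2.2)) := (s4a_IsPL.size hx).mono hle (fun p hp => by
    have := hld p hp; have := hlH p hp
    show Real.log (1 / p.2.2) ≤ Real.log p.1 + Real.log (1 / p.2.1) + Real.log (1 / p.2.2)
    linarith)
  have qB : s4a_IsQP V x (fun p => s4b_qp CW (Real.log p.1 + Real.log (1 / p.2.1))) := s4a_IsQP.comp hx CW plHd
  have plB : s4a_IsPL V x (fun p => Real.log (s4b_qp CW (Real.log p.1 + Real.log (1 / p.2.1)))) :=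
    qB.log (fun p hp => s4a_qp_one_le CW (add_nonneg (hlH p hp) (hld p hp)))
  have qDa : s4a_IsQP V x (fun p => s4b_qp Cq (Real.log p.1 + Real.log (s4b_qp CW (Real.log p.1 + Real.log (1 / p.2.1))))) :=
    s4a_IsQP.comp hx Cq (plH.add hx plB)
  have qY : s4a_IsQP V x (fun p => 16 * (Ck * (1 + s4b_qp CW (Real.log p.1 + Real.log (1 / p.2.1))) ^ 5)) :=
    (c 16 (by norm_num)).mul hx ((c Ck (by linarith)).mul hx (((c 1 (by norm_num)).add hx qB).pow_const hx 5))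
  have qe : s4a_IsQP V x (fun p => 1 / p.2.2) :=
    s4a_IsQP.of_log ple (fun p hp => by linarith [he1 p hp]) (fun p _ => le_rfl)
  have ple1 : s4a_IsPL V x (fun p => Real.log (1 / (p.2.2 / (2 * W0)))) := by
    refine ((cp (Real.log (2 * W0)) (Real.log_nonneg (by linarith))).add hx ple).mono ?_ ?_
    · intro p hp
      apply Real.log_nonneg
      rw [one_div_div, le_div_iff₀ hp.2.2.2.1]
      linarith [hp.2.2.2.2]
    · intro p hp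
      rw [one_div_div, ← Real.log_mul (by positivity) (by have := he1 p hp; positivity)]
      apply le_of_eq
      congr 1
      ring
  have q1 := qDa.mul hx qY
  have qT : s4a_IsQP V x (fun p => 2 * (16 * (Ck * (1 + s4b_qp CW (Real.log p.1 + Real.log (1 / p.2.1))) ^ 5)) *
          s4b_qp Cq (Real.log p.1 + Real.log (s4b_qp CW (Real.log p.1 + Real.log (1 / p.2.1)))) / p.2.2) := by
    refine ((((c 2 (by norm_num)).mul hx qY).mul hx qDa).mul hx qe).mono ?_ ?_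
    · intro p hp
      have h1 := (s4a_qp_pos CW (Real.log p.1 + Real.log (1 / p.2.1))).le
      have h2 := (s4a_qp_pos Cq (Real.log p.1 + Real.log (s4b_qp CW (Real.log p.1 + Real.log (1 / p.2.1))))).le
      have h3 := hp.2.2.2.1.le
      have h4 : 0 ≤ Ck := by linarith
      positivity
    · intro p hp
      apply le_of_eq
      ring
  have q2 := (s4a_IsQP.comp hx Cq ((plH.add hx plB).add hx ple1)).mul hx
    ((((c 2 (by norm_num)).mul hx qT).add hx (c 1 (by norm_num))).pow_const hx 2)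
  obtain ⟨C, hC⟩ := s4a_IsQP.elim₂ hx q1 q2
  refine ⟨C, fun H δ ε h1 h2 h3 h4 h5 => ?_⟩
  exact hC (H, δ, ε) ⟨h1, h2, h3, h4, h5⟩

/-- assembling the two truncated expansions -/
theorem s4a_sep_assemble (a b : Fin 4) (hab : a ≠ b) (I : Cell) (w : ℝ × ℝ → ℂ) (Qe : ℝ → ℂ) {κ : Type} (S : Finset κ)
    (a₁ : κ → ℂ) (γ : κ → ℝ) (Λ β' ε₁ W0 Da Y T₁ : ℝ) (hwb : ∀ p, ‖w p‖ ≤ W0) (hS3 : ∑ ℓ ∈ S, ‖a₁ ℓ‖ ≤ Da)
    (hS4 : ∀ u : ℝ, |u| ≤ 1 → ‖Qe (I.len * u) - ee (Λ * u ^ 2 + β' * u) * ∑ ℓ ∈ S, a₁ ℓ * ee (γ ℓ * u)‖ ≤ ε₁)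
    (α : (Fin 2 → ℤ) → ℂ) (hs : Summable fun ℓ => ‖α ℓ‖ * (1 + ‖ℓ‖) ^ 1) (hY : ∑' ℓ, ‖α ℓ‖ * (1 + ‖ℓ‖) ^ 1 ≤ Y)
    (hsum : ∀ x t : ℝ, x + (a : ℝ) * t ∈ I.set → x + (b : ℝ) * t ∈ I.set →
        HasSum (fun ℓ : Fin 2 → ℤ => α ℓ *
            ee (((ℓ 0 : ℝ) * (x + (a : ℝ) * t - I.left) + (ℓ 1 : ℝ) * (x + (b : ℝ) * t - I.left)) / I.len))
          (w (x, t) * ee (Λ * (t / I.len) ^ 2))) (hT : 0 < T₁) :
    ∃ (X : Type) (_ : Fintype X) (c : X → ℂ) (μ μ' : X → ℝ),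
      ∑ ν, ‖c ν‖ ≤ Da * Y ∧ (Fintype.card X : ℝ) ≤ (S.card : ℝ) * (2 * T₁ + 1) ^ 2 ∧
      ∀ x t : ℝ, x + (a : ℝ) * t ∈ I.set → x + (b : ℝ) * t ∈ I.set →
        ‖w (x, t) * Qe t - ∑ ν, c ν * (ee (μ ν * (x + (a : ℝ) * t)) * ee (μ' ν * (x + (b : ℝ) * t)))‖ ≤
          W0 * ε₁ + Y / T₁ ^ 1 * Da := by
  classical
  have hr := cell_len_pos I
  have hne := s4a_fin4_cast_ne hab
  have hba : ((b : ℕ) : ℝ) - ((a : ℕ) : ℝ) ≠ 0 := sub_ne_zero.2 hne.symm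
  set Bl : Finset (Fin 2 → ℤ) := (s4a_lat_ball_finite (ι := Fin 2) T₁).toFinset with hBl
  have hDa0 : 0 ≤ Da := le_trans (Finset.sum_nonneg fun _ _ => norm_nonneg _) hS3
  have hBlsum : ∑ ℓ ∈ Bl, ‖α ℓ‖ ≤ Y := by
    refine le_trans ?_ hY
    refine le_trans (Finset.sum_le_sum fun ℓ _ => ?_) (hs.sum_le_tsum Bl fun ℓ _ => by positivity)
    have h1 := norm_nonneg ℓ
    have h2 := norm_nonneg (α ℓ)
    nlinarith
  refine ⟨↥(S ×ˢ Bl), inferInstance,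
    fun ν => a₁ ν.1.1 * α ν.1.2 * ee (-(((ν.1.2 0 : ℝ) + (ν.1.2 1 : ℝ)) * I.left / I.len)),
    fun ν => (ν.1.2 0 : ℝ) / I.len - (β' + γ ν.1.1) / (I.len * ((b : ℝ) - (a : ℝ))),
    fun ν => (ν.1.2 1 : ℝ) / I.len + (β' + γ ν.1.1) / (I.len * ((b : ℝ) - (a : ℝ))), ?_, ?_, ?_⟩
  · rw [Finset.sum_coe_sort (S ×ˢ Bl) (fun ν => ‖a₁ ν.1 * α ν.2 * ee (-(((ν.2 0 : ℝ) + (ν.2 1 : ℝ)) * I.left / I.len))‖),
      Finset.sum_product]
    simp only [norm_mul, s4a_ee_norm, mul_one]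
    rw [← Finset.sum_mul_sum]
    exact mul_le_mul hS3 hBlsum (Finset.sum_nonneg fun _ _ => norm_nonneg _) hDa0
  · rw [Fintype.card_coe, Finset.card_product]
    push_cast
    have h1 := s4a_lat_ball_card (ι := Fin 2) T₁ hT.le
    rw [Set.ncard_eq_toFinset_card _ (s4a_lat_ball_finite (ι := Fin 2) T₁), Fintype.card_fin] at h1
    exact mul_le_mul_of_nonneg_left h1 (Nat.cast_nonneg _)
  · intro x t ha hb
    have ht := s4a_t_lt_of_mem hab ha hb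
    have hu : |t / I.len| ≤ 1 := by
      rw [abs_div, abs_of_pos hr, div_le_one hr]
      exact ht.le
    have h4 := hS4 (t / I.len) hu
    rw [mul_div_cancel₀ _ hr.ne', s4a_ee_add, ] at h4
    have htr := s4a_lat_truncate α (fun ℓ => ee (((ℓ 0 : ℝ) * (x + (a : ℝ) * t - I.left) +
      (ℓ 1 : ℝ) * (x + (b : ℝ) * t - I.left)) / I.len)) (fun ℓ => (s4a_ee_norm _).le) 1 Y T₁ hT hs hY _ (hsum x t ha hb)
    have hP1 : ‖∑ ℓ ∈ S, a₁ ℓ * ee (γ ℓ * (t / I.len))‖ ≤ Da := by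
      refine le_trans (norm_sum_le _ _) (le_trans (le_of_eq ?_) hS3)
      simp only [norm_mul, s4a_ee_norm, mul_one]
    have hcore := s4a_sep_core _ _ _ _ _ _ W0 ε₁ _ Da (hwb (x, t)) h4 htr hP1 (s4a_ee_norm _)
    refine le_trans (le_of_eq ?_) hcore
    congr 2
    rw [Finset.sum_coe_sort (S ×ˢ Bl) (fun ν => a₁ ν.1 * α ν.2 * ee (-(((ν.2 0 : ℝ) + (ν.2 1 : ℝ)) * I.left / I.len)) *
      (ee (((ν.2 0 : ℝ) / I.len - (β' + γ ν.1) / (I.len * ((b : ℝ) - (a : ℝ)))) * (x + (a : ℝ) * t)) *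
        ee (((ν.2 1 : ℝ) / I.len + (β' + γ ν.1) / (I.len * ((b : ℝ) - (a : ℝ)))) * (x + (b : ℝ) * t)))),
      Finset.sum_product, Finset.mul_sum S _ (ee (β' * (t / I.len))), Finset.sum_mul_sum]
    refine Finset.sum_congr rfl fun ℓ _ => Finset.sum_congr rfl fun ℓ' _ => ?_
    have e : ee (-(((ℓ' 0 : ℝ) + (ℓ' 1 : ℝ)) * I.left / I.len)) *
      (ee (((ℓ' 0 : ℝ) / I.len - (β' + γ ℓ) / (I.len * ((b : ℝ) - (a : ℝ)))) * (x + (a : ℝ) * t)) *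
        ee (((ℓ' 1 : ℝ) / I.len + (β' + γ ℓ) / (I.len * ((b : ℝ) - (a : ℝ)))) * (x + (b : ℝ) * t))) =
      ee (β' * (t / I.len)) * ee (γ ℓ * (t / I.len)) * ee (((ℓ' 0 : ℝ) * (x + (a : ℝ) * t - I.left) +
      (ℓ' 1 : ℝ) * (x + (b : ℝ) * t - I.left)) / I.len) := by
      rw [← s4a_ee_add, ← s4a_ee_add, ← s4a_ee_add, ← s4a_ee_add]
      congr 1
      field_simp
      ring
    calc _ = a₁ ℓ * α ℓ' * (ee (-(((ℓ' 0 : ℝ) + (ℓ' 1 : ℝ)) * I.left / I.len)) *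
      (ee (((ℓ' 0 : ℝ) / I.len - (β' + γ ℓ) / (I.len * ((b : ℝ) - (a : ℝ)))) * (x + (a : ℝ) * t)) *
        ee (((ℓ' 1 : ℝ) / I.len + (β' + γ ℓ) / (I.len * ((b : ℝ) - (a : ℝ)))) * (x + (b : ℝ) * t)))) := by ring
      _ = _ := by rw [e]; ring

/-- **Lemma 4.6, second assertion** (from the Weyl alternative `s4a_Weyl1`). -/
theorem s4a_single_scale_sep (hW : s4a_Weyl1) (c0 C0 : ℝ) (hc0 : 0 < c0) (hC0 : 1 ≤ C0) : ∃ C : ℕ, ∀ a b : Fin 4, a ≠ b →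
    ∀ (I : Cell) (w : ℝ × ℝ → ℂ) (Q : Chart) (H δ ε : ℝ), Admissible c0 C0 I w → Q.Cplx H → 0 < δ → δ < 1 / 2 → 0 < ε →
    ε < 1 / 2 → (∃ ξ, δ ≤ ‖s4a_AInt Q.eval I.len ξ‖) →
    ∃ (X : Type) (_ : Fintype X) (c : X → ℂ) (μ μ' : X → ℝ),
      ∑ ν, ‖c ν‖ ≤ s4b_qp C (Real.log H + Real.log (1 / δ) + Real.log (1 / ε)) ∧
      (Fintype.card X : ℝ) ≤ s4b_qp C (Real.log H + Real.log (1 / δ) + Real.log (1 / ε)) ∧
      ∀ x t : ℝ, x + (a : ℝ) * t ∈ I.set → x + (b : ℝ) * t ∈ I.set →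
        ‖w (x, t) * Q.eval t - ∑ ν, c ν * (ee (μ ν * (x + (a : ℝ) * t)) * ee (μ' ν * (x + (b : ℝ) * t)))‖ ≤ ε := by
  obtain ⟨CW, hCW⟩ := hW
  obtain ⟨Cq, hCq⟩ := s4a_chart_expand_trunc
  obtain ⟨Ck, hCk1, hk⟩ := s4a_kernel_fourier c0 C0 hc0 hC0
  have hW0 : (1 : ℝ) ≤ (C0 * 2) ^ (C0 * 2) := Real.one_le_rpow (by linarith) (by linarith)
  obtain ⟨C, hC⟩ := s4a_single_num CW Cq Ck _ hCk1 hW0
  refine ⟨C, ?_⟩
  intro a b hab I w Q H δ ε hw hQ hδ0 hδ1 hε0 hε1 hξ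
  obtain ⟨hnum1, hnum2⟩ := hC H δ ε hQ.H_ge hδ0 hδ1 hε0 hε1
  clear hC
  generalize s4b_qp C (Real.log H + Real.log (1 / δ) + Real.log (1 / ε)) = D at hnum1 hnum2 ⊢
  generalize hW0def : (C0 * 2) ^ (C0 * 2) = W0 at hW0 hnum2
  have hr := cell_len_pos I
  have hH1 : 1 ≤ H := le_trans (Real.one_le_exp (by norm_num)) hQ.H_ge
  have hlH : 0 ≤ Real.log H := Real.log_nonneg hH1
  have hld : 0 ≤ Real.log (1 / δ) := Real.log_nonneg (by rw [le_div_iff₀ hδ0]; linarith)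
  have hQ' : (s4a_dil Q I.len).Cplx H := s4a_dil_cplx hQ _
  obtain ⟨ξ, hξ⟩ := hξ
  rw [s4a_AInt_dil] at hξ
  obtain ⟨Pf, hP1, hP2, hP3, hP4, hP5⟩ := hCW (s4a_dil Q I.len) H δ hQ' hδ0 hδ1 ⟨ξ, hξ⟩
  have hB1 : 1 ≤ s4b_qp CW (Real.log H + Real.log (1 / δ)) := s4a_qp_one_le CW (add_nonneg hlH hld)
  generalize s4b_qp CW (Real.log H + Real.log (1 / δ)) = B at hnum1 hnum2 hP3 hP4 hP5 hB1
  have hε1' : ε / (2 * W0) < 1 / 2 := by
    rw [div_lt_iff₀ (by linarith)]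
    nlinarith
  obtain ⟨S, a₁, hS1, -, hS3, hS4⟩ := hCq (s4a_dil Q I.len) H B (ε / (2 * W0)) Pf hQ' hB1 (by positivity) hε1' hP3 hP1 hP2
  generalize hΛ : (s4a_dil Q I.len).lam + s4a_quad (s4a_dil Q I.len).C Pf (s4a_dil Q I.len).th = Λ at hP5 hS4
  generalize hDa : s4b_qp Cq (Real.log H + Real.log B) = Da at hnum1 hnum2 hS3
  generalize hcS : s4b_qp Cq (Real.log H + Real.log B + Real.log (1 / (ε / (2 * W0)))) = DS at hnum2 hS1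
  obtain ⟨α, hα, hsum⟩ := hk a b hab I w Λ hw
  clear hk hCq hCW
  have hDa1 : 0 < Da := by rw [← hDa]; exact s4a_qp_pos _ _
  have hα' : ∀ ℓ, ‖α ℓ‖ * (1 + ‖ℓ‖) ^ (1 + 2 * Fintype.card (Fin 2)) ≤ Ck * (1 + B) ^ 5 := by
    intro ℓ
    have h1 := hα ℓ
    have h2 : Ck * (1 + |Λ|) ^ 5 ≤ Ck * (1 + B) ^ 5 := by gcongr
    simpa using le_trans h1 h2
  obtain ⟨hs1, hs2⟩ := s4a_lat_weighted α 1 (Ck * (1 + B) ^ 5) (by positivity) hα'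
  have hs2' : ∑' ℓ, ‖α ℓ‖ * (1 + ‖ℓ‖) ^ 1 ≤ 16 * (Ck * (1 + B) ^ 5) := by
    refine le_trans hs2 (le_of_eq ?_)
    simp
    norm_num
  have hY0 : 0 < 16 * (Ck * (1 + B) ^ 5) := by positivity
  generalize 16 * (Ck * (1 + B) ^ 5) = Y at hnum1 hnum2 hs2' hY0
  have hT : 0 < 2 * Y * Da / ε := by positivity
  have hS4' : ∀ u : ℝ, |u| ≤ 1 → ‖Q.eval (I.len * u) - ee (Λ * u ^ 2 + (s4a_dil Q I.len).bet * u) *
      ∑ ℓ ∈ S, a₁ ℓ * ee ((∑ i, (ℓ i : ℝ) * (s4a_dil Q I.len).th i /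
        ((s4a_xR (s4a_dil Q I.len).C Pf H B : ℕ) : ℝ)) * u)‖ ≤ ε / (2 * W0) := by
    intro u hu
    rw [← s4a_dil_eval]
    apply hS4 u
    intro i
    rw [abs_mul]
    have h1 := hP4 i
    have h2 := abs_nonneg (s4a_mv (1 - Pf) (s4a_dil Q I.len).th i)
    have h3 := abs_nonneg u
    nlinarith
  obtain ⟨X, hX, c, μ, μ', g1, g2, g3⟩ := s4a_sep_assemble a b hab I w Q.eval S a₁ _ Λ _ _ W0 Da Y (2 * Y * Da / ε)
    (fun p => by rw [← hW0def]; exact s4a_adm_bound hw p) hS3 hS4' α hs1 hs2' hsum hT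
  refine ⟨X, hX, c, μ, μ', le_trans g1 hnum1, le_trans g2 (le_trans ?_ hnum2), ?_⟩
  · gcongr
  · intro x t ha hb
    refine le_trans (g3 x t ha hb) (le_of_eq ?_)
    field_simp
    ring

end Claimed.Agent.R258
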