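/-
Row 258, block [S4a] (architect helper78).  FILE Pair: the end of the proof of Lemma 4.12 = `s4b_PairDetect` (interface with block [S4b], defined in S4b/Defs.lean), from Lemmas 4.5 + 4.6.
Leaves: P-S4a-PAIR1 (`s4a_form_perm`, `s4a_form_tsum`, `s4a_select`, `s4a_form2_approx`), P-S4a-PAIR2 (`s4a_pair_detect`: assembly + numerics).
Uses the STATEMENTS of Sep.lean, Single.lean, Kernel.lean, Ops.lean, Qp.lean.    Paper: charts.tex l.1312-1340.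

PLAN of `s4a_pair_detect`.   Slots `a' = σ 0` (function `Rf`, `‖Rf‖_{2,I} ≤ C1`), `i = σ 1`, `k = σ 2` (atoms), `b' = σ 3` (`v`, `‖v‖_{2,I} ≤ 1`); `slot4 i k a' b'` since `σ` is injective.  `x := log H + log C1 + log (1/δ)`.
 1. `s4a_ap_separation 1`: `c, T, ψa, ψb, Q`, `D₀ = s4b_qp C₅ (log H)`.    `s4a_form_tsum`: `form I w z = ∑_x c_x F_x`, `F_x = s4a_form2 I w a' b' (Q x).eval (ψa_x · Rf) (ψb_x · v)`.
 2. `|F_x| ≤ Y := 4 Cs C1` (`s4a_single_scale_bound` with `A = 4`, `s4a_AInt_le`; `nnorm 2 I (ψ · f) ≤ nnorm 2 I f` for `|ψ| ≤ 1`: `s4a_nnorm_mul_le`).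
 3. `s4a_select`: some `x` with `T x ≤ T₀ := 2 Y D₀ / δ` and `δ₁ := δ / (2 D₀) ≤ |F_x|`.   Complexity of `ψa x`, `Q x`: `H₁ := D₀ T₀`.
 4. `δ₂ := δ₁ / (2 Cs C1)` (`< 1/2`).  If `‖s4a_AInt (Q x).eval I.len ξ‖ ≤ δ₂` for all `ξ`, then `|F_x| ≤ Cs δ₂ C1 = δ₁/2 < δ₁`: contradiction.  So `∃ ξ, δ₂ ≤ ‖…‖` (`not_forall`, `not_le`, `le_of_lt`).
 5. `s4a_single_scale_sep hW` with `H₁, δ₂, ε₂ := δ₁ / (4 C1)` (`< 1/2`): `c', μ, μ'`, `D₁ = s4b_qp C₆ (log H₁ + log 1/δ₂ + log 1/ε₂)`.   `s4a_form2_approx`:  `|F_x - |b'-a'|⁻¹ ∑_ν c'_ν m_ν m'_ν| ≤ ε₂ C1 = δ₁/4`,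
    `m_ν = ⨍_I e(μ_ν y) ψa_x(y) Rf(y) dy`, `m'_ν = ⨍_I e(μ'_ν y) ψb_x(y) v(y) dy`, `|m'_ν| ≤ ‖v‖_{2,I} ≤ 1`, `|b'-a'|⁻¹ ≤ 1`.   Hence `∑ |c'_ν| |m_ν| ≥ 3δ₁/4`, so some `|m_ν| ≥ δ₁ / (2 D₁)` (`D₁ ≥ ∑|c'_ν|`, and the sum is nonempty).
 6. `φ := s4a_conj (s4a_mod (ψa x) 0 (μ ν) 0)`: bounded, complexity `H₁`, `conj (φ.eval y) = e(μ_ν y) ψa_x(y)`, so `s4b_mom I Rf φ.eval = m_ν`.
 7. Numerics with Qp.lean: `H₁, 2 D₁/δ₁ ≤ s4b_qp C x`  (`log H₁, log 1/δ₂, log 1/ε₂ ≤ pl _ x`, then `s4a_qp_comp`); `Cs` is a constant depending only on `(c0, C0)`; complexity is monotone (`s4a_cplx_mono`).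
-/
import Claimed.Agent.R258.S4a.Sep
import Claimed.Agent.R258.S4a.Single

set_option autoImplicit false
open MeasureTheory
open scoped ENNReal ContDiff ComplexConjugate

namespace Claimed.Agent.R258

theorem s4a_L2_sq_integrable {I : Cell} {f : ℝ → ℂ} (hf : s4b_L2 I f) :
    IntegrableOn (fun y => ‖f y‖ ^ (2 : ℝ)) I.set := by
  have h := MemLp.integrable_norm_rpow hf (by norm_num) (by norm_num)
  have e : (2 : ℝ≥0∞).toReal = 2 := by norm_num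
  rw [e] at h
  exact h

/-- multiplication by a function bounded by one does not increase the normalized `L²` norm, and preserves the class -/
theorem s4a_nnorm_mul_le (I : Cell) (ψ f : ℝ → ℂ) (hψm : Measurable ψ) (hψ : ∀ y, ‖ψ y‖ ≤ 1) (hfm : Measurable f)
    (hf : s4b_L2 I f) :
    Measurable (fun y => ψ y * f y) ∧ s4b_L2 I (fun y => ψ y * f y) ∧ nnorm 2 I (fun y => ψ y * f y) ≤ nnorm 2 I f := by
  have hle : ∀ y, ‖ψ y * f y‖ ≤ ‖f y‖ := by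
    intro y
    rw [norm_mul]
    have := hψ y
    have := norm_nonneg (f y)
    nlinarith [norm_nonneg (ψ y)]
  refine ⟨hψm.mul hfm, MemLp.of_le hf (hψm.mul hfm).aestronglyMeasurable (Filter.Eventually.of_forall hle), ?_⟩
  unfold nnorm
  have hr := cell_len_pos I
  apply Real.rpow_le_rpow (mul_nonneg (inv_nonneg.2 hr.le) (integral_nonneg fun _ => by positivity)) _ (by norm_num)
  apply mul_le_mul_of_nonneg_left _ (inv_nonneg.2 hr.le)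
  apply integral_mono_of_nonneg (Filter.Eventually.of_forall fun _ => by positivity) (s4a_L2_sq_integrable hf)
  exact Filter.Eventually.of_forall fun y => Real.rpow_le_rpow (norm_nonneg _) (hle y) (by norm_num)

/-- atoms are measurable -/
theorem s4a_eval_measurable {a : Chart} {H : ℝ} (h : a.Cplx H) : Measurable a.eval := by
  have hee : Measurable ee := s4a_ee_continuous.measurable
  have h1 : Measurable fun y : ℝ => a.unit * ee (a.lam * y ^ 2 + a.bet * y) :=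
    measurable_const.mul (hee.comp (by fun_prop))
  have hchi : Measurable a.chi := h.smooth.continuous.measurable
  have hterm : ∀ n : Fin a.d → ℤ, Measurable fun y : ℝ => a.chi (fun i => a.th i * y - (n i : ℝ)) *
      ee (s4a_bil a.C (fun i => a.th i * y) fun i => a.th i * y - (n i : ℝ)) := by
    intro n
    refine (hchi.comp (by fun_prop)).mul (hee.comp ?_)
    unfold s4a_bil
    fun_prop
  have h2 : Measurable fun y : ℝ => s4a_br a.C a.chi (fun i => a.th i * y) := by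
    refine measurable_of_tendsto_metrizable' (Filter.atTop : Filter (Finset (Fin a.d → ℤ)))
      (f := fun s y => ∑ n ∈ s, a.chi (fun i => a.th i * y - (n i : ℝ)) *
      ee (s4a_bil a.C (fun i => a.th i * y) fun i => a.th i * y - (n i : ℝ))) ?_ ?_
    · intro s
      exact Finset.measurable_sum _ fun n _ => hterm n
    · rw [tendsto_pi_nhds]
      intro y
      exact (s4a_br_summable a.C h.supp (fun i => a.th i * y)).hasSum
  have : a.eval = fun y => a.unit * ee (a.lam * y ^ 2 + a.bet * y) * s4a_br a.C a.chi (fun i => a.th i * y) := by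
    funext y
    exact s4a_eval_eq a y
  rw [this]
  exact h1.mul h2

/-- the four-fold product in the order given by a permutation of the slots -/
theorem s4a_form_perm (I : Cell) (w : ℝ × ℝ → ℂ) (σ : Equiv.Perm (Fin 4)) (z : Fin 4 → ℝ → ℂ) :
    form I w z = ((I.len ^ 2)⁻¹ : ℝ) * ∫ p : ℝ × ℝ, w p * (z (σ 1) (p.1 + ((σ 1 : Fin 4) : ℝ) * p.2) *
      z (σ 2) (p.1 + ((σ 2 : Fin 4) : ℝ) * p.2)) * z (σ 0) (p.1 + ((σ 0 : Fin 4) : ℝ) * p.2) *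
      z (σ 3) (p.1 + ((σ 3 : Fin 4) : ℝ) * p.2) := by
  unfold form
  congr 2
  funext p
  rw [← Equiv.prod_comp σ, Fin.prod_univ_four]
  ring

/-- pigeonhole with shells -/
theorem s4a_select {X : Type} (c : X → ℂ) (T : X → ℝ) (F : X → ℂ) (z : ℂ) (δ Y D₀ : ℝ) (hδ : 0 < δ) (hY : 0 < Y)
    (hD₀ : 0 < D₀) (hT : ∀ x, 1 ≤ T x) (hs : Summable fun x => ‖c x‖ * T x ^ 1) (hD : ∑' x, ‖c x‖ * T x ^ 1 ≤ D₀)
    (hF : ∀ x, ‖F x‖ ≤ Y) (hz : HasSum (fun x => c x * F x) z) (hzδ : δ < ‖z‖) :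
    ∃ x, T x ≤ 2 * Y * D₀ / δ ∧ δ / (2 * D₀) ≤ ‖F x‖ := by
  by_contra hcon
  push Not at hcon
  have hb : ∀ x, ‖c x * F x‖ ≤ (‖c x‖ * T x ^ 1) * (δ / (2 * D₀)) := by
    intro x
    rw [norm_mul, pow_one]
    have hc0 := norm_nonneg (c x)
    have hT1 := hT x
    have hq : 0 < δ / (2 * D₀) := by positivity
    by_cases hx : T x ≤ 2 * Y * D₀ / δ
    · have h1 := (hcon x hx).le
      calc ‖c x‖ * ‖F x‖ ≤ ‖c x‖ * (δ / (2 * D₀)) := by gcongr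
        _ = ‖c x‖ * 1 * (δ / (2 * D₀)) := by ring
        _ ≤ ‖c x‖ * T x * (δ / (2 * D₀)) := by gcongr
    · push Not at hx
      have h2 : Y ≤ T x * (δ / (2 * D₀)) := by
        have : 2 * Y * D₀ / δ * (δ / (2 * D₀)) = Y := by field_simp
        rw [← this]
        gcongr
      calc ‖c x‖ * ‖F x‖ ≤ ‖c x‖ * Y := by gcongr; exact hF x
        _ ≤ ‖c x‖ * (T x * (δ / (2 * D₀))) := by gcongr
        _ = ‖c x‖ * T x * (δ / (2 * D₀)) := by ring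
  have h := hz.norm_le_of_bounded (hs.hasSum.mul_right _) hb
  have h3 : (∑' x, ‖c x‖ * T x ^ 1) * (δ / (2 * D₀)) ≤ D₀ * (δ / (2 * D₀)) := by gcongr
  have h4 : D₀ * (δ / (2 * D₀)) = δ / 2 := by field_simp
  linarith

/-- a normalized moment against a function bounded by one is at most the normalized `L²` norm -/
theorem s4a_moment_le (I : Cell) (ψ f : ℝ → ℂ) (hψm : Measurable ψ) (hψ : ∀ y, ‖ψ y‖ ≤ 1) (hfm : Measurable f)
    (hf : s4b_L2 I f) : ‖(((I.len)⁻¹ : ℝ) : ℂ) * ∫ y in I.set, ψ y * f y‖ ≤ nnorm 2 I f := by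
  have hr := cell_len_pos I
  obtain ⟨-, f2, -, -, -, f6⟩ := s4a_ind_facts I f hfm hf
  rw [norm_mul, Complex.norm_real, Real.norm_eq_abs, abs_of_pos (inv_pos.2 hr)]
  have h1 : ‖∫ y in I.set, ψ y * f y‖ ≤ ∫ y, ‖I.set.indicator f y‖ := by
    rw [← integral_indicator (cell_measurableSet I)]
    refine norm_integral_le_of_norm_le f2.norm (Filter.Eventually.of_forall fun y => ?_)
    by_cases hy : y ∈ I.set
    · rw [Set.indicator_of_mem hy, Set.indicator_of_mem hy, norm_mul]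
      have := hψ y
      nlinarith [norm_nonneg (f y), norm_nonneg (ψ y)]
    · rw [Set.indicator_of_notMem hy, Set.indicator_of_notMem hy]
  calc I.len⁻¹ * ‖∫ y in I.set, ψ y * f y‖ ≤ I.len⁻¹ * (I.len * nnorm 2 I f) := by
        gcongr
        exact le_trans h1 f6
    _ = nnorm 2 I f := by field_simp

/-- the base integrable function `1_I f(y_a) 1_I g(y_b)` -/
noncomputable def s4a_bfg (I : Cell) (a b : Fin 4) (f g : ℝ → ℂ) (p : ℝ × ℝ) : ℂ :=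
  I.set.indicator f (p.1 + (a : ℝ) * p.2) * I.set.indicator g (p.1 + (b : ℝ) * p.2)

theorem s4a_int2_norm (a b : ℝ) (hab : a ≠ b) (F G : ℝ → ℂ) (hF : Integrable F) (hG : Integrable G) :
    ∫ p : ℝ × ℝ, ‖F (p.1 + a * p.2) * G (p.1 + b * p.2)‖ = |b - a|⁻¹ * ((∫ y, ‖F y‖) * ∫ y, ‖G y‖) := by
  have h := (s4a_int2 a b hab (fun y => ((‖F y‖ : ℝ) : ℂ)) (fun y => ((‖G y‖ : ℝ) : ℂ)) hF.norm.ofReal hG.norm.ofReal).2
  have e1 : ∫ y, ((‖F y‖ : ℝ) : ℂ) = ((∫ y, ‖F y‖ : ℝ) : ℂ) := integral_ofReal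
  have e2 : ∫ y, ((‖G y‖ : ℝ) : ℂ) = ((∫ y, ‖G y‖ : ℝ) : ℂ) := integral_ofReal
  have e3 : ∫ p : ℝ × ℝ, ((‖F (p.1 + a * p.2)‖ : ℝ) : ℂ) * ((‖G (p.1 + b * p.2)‖ : ℝ) : ℂ) =
      ((∫ p : ℝ × ℝ, ‖F (p.1 + a * p.2) * G (p.1 + b * p.2)‖ : ℝ) : ℂ) := by
    have : (fun p : ℝ × ℝ => ((‖F (p.1 + a * p.2)‖ : ℝ) : ℂ) * ((‖G (p.1 + b * p.2)‖ : ℝ) : ℂ)) =
        fun p => ((‖F (p.1 + a * p.2) * G (p.1 + b * p.2)‖ : ℝ) : ℂ) := by
      funext p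
      rw [norm_mul]
      push_cast
      rfl
    rw [this]
    exact integral_ofReal
  rw [e1, e2, e3] at h
  exact_mod_cast h

theorem s4a_bfg_facts (I : Cell) (a b : Fin 4) (hab : a ≠ b) (f g : ℝ → ℂ) (hfm : Measurable f) (hgm : Measurable g)
    (hf : s4b_L2 I f) (hg : s4b_L2 I g) :
    Integrable (s4a_bfg I a b f g) ∧ ∫ p, ‖s4a_bfg I a b f g p‖ ≤ I.len ^ 2 * nnorm 2 I f * nnorm 2 I g := by
  have hr := cell_len_pos I
  obtain ⟨-, f2, -, -, -, f6⟩ := s4a_ind_facts I f hfm hf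
  obtain ⟨-, g2, -, -, -, g6⟩ := s4a_ind_facts I g hgm hg
  have hne := s4a_fin4_cast_ne hab
  refine ⟨(s4a_int2 _ _ hne _ _ f2 g2).1, ?_⟩
  unfold s4a_bfg
  rw [s4a_int2_norm _ _ hne _ _ f2 g2]
  have h1 : |((b : ℕ) : ℝ) - ((a : ℕ) : ℝ)|⁻¹ ≤ 1 := by
    apply inv_le_one_of_one_le₀
    have : (1 : ℤ) ≤ |((b : ℕ) : ℤ) - ((a : ℕ) : ℤ)| := by
      apply Int.one_le_abs
      intro h
      apply hab
      ext
      omega
    exact_mod_cast this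
  have h0 : 0 ≤ |((b : ℕ) : ℝ) - ((a : ℕ) : ℝ)|⁻¹ := by positivity
  have i1 : 0 ≤ ∫ y, ‖I.set.indicator f y‖ := integral_nonneg fun _ => norm_nonneg _
  have i2 : 0 ≤ ∫ y, ‖I.set.indicator g y‖ := integral_nonneg fun _ => norm_nonneg _
  calc |((b : ℕ) : ℝ) - ((a : ℕ) : ℝ)|⁻¹ * ((∫ y, ‖I.set.indicator f y‖) * ∫ y, ‖I.set.indicator g y‖)
      ≤ 1 * ((I.len * nnorm 2 I f) * (I.len * nnorm 2 I g)) := by
        apply mul_le_mul h1 _ (by positivity) (by norm_num)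
        exact mul_le_mul f6 g6 i2 (le_trans i1 f6)
    _ = I.len ^ 2 * nnorm 2 I f * nnorm 2 I g := by ring

theorem s4a_adm_bfg {c0 C0 : ℝ} (hc0 : 0 < c0) {I : Cell} {w : ℝ × ℝ → ℂ} (hw : Admissible c0 C0 I w) (a b : Fin 4)
    (f g : ℝ → ℂ) (p : ℝ × ℝ) :
    w p * (f (p.1 + (a : ℝ) * p.2) * g (p.1 + (b : ℝ) * p.2)) = w p * s4a_bfg I a b f g p := by
  by_cases h : w p = 0
  · rw [h, zero_mul, zero_mul]
  · unfold s4a_bfg
    rw [Set.indicator_of_mem (s4a_adm_mem hc0 hw p h a), Set.indicator_of_mem (s4a_adm_mem hc0 hw p h b)]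

/-- termwise integration of a separated expansion of the product of the two atoms -/
theorem s4a_form_tsum {c0 C0 : ℝ} (hc0 : 0 < c0) (I : Cell) (w : ℝ × ℝ → ℂ) (hw : Admissible c0 C0 I w) (a b : Fin 4)
    (hab : a ≠ b) (P : ℝ × ℝ → ℂ) {X : Type} [Countable X] (c : X → ℂ) (ψa ψb Q : X → ℝ → ℂ) (hc : Summable fun x => ‖c x‖)
    (hm : ∀ x, Measurable (ψa x) ∧ Measurable (ψb x) ∧ Measurable (Q x))
    (hb : ∀ x y, ‖ψa x y‖ ≤ 1 ∧ ‖ψb x y‖ ≤ 1 ∧ ‖Q x y‖ ≤ 1)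
    (hP : ∀ p : ℝ × ℝ, HasSum (fun x => c x * (ψa x (p.1 + (a : ℝ) * p.2) * (ψb x (p.1 + (b : ℝ) * p.2) * Q x p.2))) (P p))
    (f g : ℝ → ℂ) (hfm : Measurable f) (hgm : Measurable g) (hf : s4b_L2 I f) (hg : s4b_L2 I g) :
    HasSum (fun x => c x * s4a_form2 I w a b (Q x) (fun y => ψa x y * f y) (fun y => ψb x y * g y))
      (((I.len ^ 2)⁻¹ : ℝ) * ∫ p : ℝ × ℝ, w p * P p * f (p.1 + (a : ℝ) * p.2) * g (p.1 + (b : ℝ) * p.2)) := by
  obtain ⟨hB, -⟩ := s4a_bfg_facts I a b hab f g hfm hgm hf hg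
  have hwm : Measurable w := (s4a_adm_continuous hw).measurable
  -- the multiplier
  have hMm : ∀ x, Measurable fun p : ℝ × ℝ => c x * (ψa x (p.1 + (a : ℝ) * p.2) * (ψb x (p.1 + (b : ℝ) * p.2) * Q x p.2)) * w p := by
    intro x
    refine (measurable_const.mul (((hm x).1.comp (by fun_prop)).mul (((hm x).2.1.comp (by fun_prop)).mul
      ((hm x).2.2.comp measurable_snd)))).mul hwm
  have hMb : ∀ x p, ‖c x * (ψa x (p.1 + (a : ℝ) * p.2) * (ψb x (p.1 + (b : ℝ) * p.2) * Q x p.2)) * w p‖ ≤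
      ‖c x‖ * (C0 * 2) ^ (C0 * 2) := by
    intro x p
    rw [norm_mul, norm_mul, norm_mul, norm_mul]
    have h1 := (hb x (p.1 + (a : ℝ) * p.2)).1
    have h2 := (hb x (p.1 + (b : ℝ) * p.2)).2.1
    have h3 := (hb x p.2).2.2
    have h4 := s4a_adm_bound hw p
    have h5 : ‖ψa x (p.1 + (a : ℝ) * p.2)‖ * (‖ψb x (p.1 + (b : ℝ) * p.2)‖ * ‖Q x p.2‖) ≤ 1 * (1 * 1) := by gcongr
    calc ‖c x‖ * (‖ψa x (p.1 + (a : ℝ) * p.2)‖ * (‖ψb x (p.1 + (b : ℝ) * p.2)‖ * ‖Q x p.2‖)) * ‖w p‖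
        ≤ ‖c x‖ * (1 * (1 * 1)) * (C0 * 2) ^ (C0 * 2) := by gcongr
      _ = _ := by ring
  have hint : ∀ x, Integrable fun p : ℝ × ℝ =>
      c x * (ψa x (p.1 + (a : ℝ) * p.2) * (ψb x (p.1 + (b : ℝ) * p.2) * Q x p.2)) * w p * s4a_bfg I a b f g p := fun x =>
    hB.bdd_mul (hMm x).aestronglyMeasurable (Filter.Eventually.of_forall (hMb x))
  have hsumI : Summable fun x => ∫ p : ℝ × ℝ,
      ‖c x * (ψa x (p.1 + (a : ℝ) * p.2) * (ψb x (p.1 + (b : ℝ) * p.2) * Q x p.2)) * w p * s4a_bfg I a b f g p‖ := by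
    refine Summable.of_nonneg_of_le (fun x => integral_nonneg fun _ => norm_nonneg _) (fun x => ?_)
      (hc.mul_right ((C0 * 2) ^ (C0 * 2) * ∫ p, ‖s4a_bfg I a b f g p‖))
    calc ∫ p : ℝ × ℝ, ‖c x * (ψa x (p.1 + (a : ℝ) * p.2) * (ψb x (p.1 + (b : ℝ) * p.2) * Q x p.2)) * w p * s4a_bfg I a b f g p‖
        ≤ ∫ p : ℝ × ℝ, ‖c x‖ * (C0 * 2) ^ (C0 * 2) * ‖s4a_bfg I a b f g p‖ := by
          refine integral_mono (hint x).norm (hB.norm.const_mul _) fun p => ?_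
          show ‖_ * s4a_bfg I a b f g p‖ ≤ _
          rw [norm_mul]
          exact mul_le_mul_of_nonneg_right (hMb x p) (norm_nonneg _)
      _ = ‖c x‖ * ((C0 * 2) ^ (C0 * 2) * ∫ p, ‖s4a_bfg I a b f g p‖) := by
          rw [integral_const_mul]; ring
  have hmain := hasSum_integral_of_summable_integral_norm hint hsumI
  have htsum : (fun p : ℝ × ℝ => ∑' x, c x * (ψa x (p.1 + (a : ℝ) * p.2) * (ψb x (p.1 + (b : ℝ) * p.2) * Q x p.2)) * w p *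
      s4a_bfg I a b f g p) = fun p => w p * P p * f (p.1 + (a : ℝ) * p.2) * g (p.1 + (b : ℝ) * p.2) := by
    funext p
    have h1 := ((hP p).mul_right (w p)).mul_right (s4a_bfg I a b f g p)
    rw [h1.tsum_eq]
    have h2 := s4a_adm_bfg hc0 hw a b f g p
    calc P p * w p * s4a_bfg I a b f g p = P p * (w p * s4a_bfg I a b f g p) := by ring
      _ = P p * (w p * (f (p.1 + (a : ℝ) * p.2) * g (p.1 + (b : ℝ) * p.2))) := by rw [h2]
      _ = _ := by ring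
  rw [htsum] at hmain
  have hfin := hmain.mul_left (((I.len ^ 2)⁻¹ : ℝ) : ℂ)
  have hfun : (fun x => c x * s4a_form2 I w a b (Q x) (fun y => ψa x y * f y) (fun y => ψb x y * g y)) =
      fun x => (((I.len ^ 2)⁻¹ : ℝ) : ℂ) * ∫ p : ℝ × ℝ,
        c x * (ψa x (p.1 + (a : ℝ) * p.2) * (ψb x (p.1 + (b : ℝ) * p.2) * Q x p.2)) * w p * s4a_bfg I a b f g p := by
    funext x
    unfold s4a_form2
    rw [mul_left_comm, ← integral_const_mul]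
    congr 2
    funext p
    have h2 := s4a_adm_bfg hc0 hw a b f g p
    calc c x * (w p * Q x p.2 * (ψa x (p.1 + (a : ℝ) * p.2) * f (p.1 + (a : ℝ) * p.2)) *
          (ψb x (p.1 + (b : ℝ) * p.2) * g (p.1 + (b : ℝ) * p.2)))
        = c x * (ψa x (p.1 + (a : ℝ) * p.2) * (ψb x (p.1 + (b : ℝ) * p.2) * Q x p.2)) *
          (w p * (f (p.1 + (a : ℝ) * p.2) * g (p.1 + (b : ℝ) * p.2))) := by ring
      _ = c x * (ψa x (p.1 + (a : ℝ) * p.2) * (ψb x (p.1 + (b : ℝ) * p.2) * Q x p.2)) * (w p * s4a_bfg I a b f g p) := by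
          rw [h2]
      _ = _ := by ring
  rw [hfun]
  exact hfin

/-- the integral of one separated term -/
theorem s4a_sep_term_integral (I : Cell) (a b : Fin 4) (hab : a ≠ b) (μ μ' : ℝ) (f g : ℝ → ℂ) (hfm : Measurable f)
    (hgm : Measurable g) (hf : s4b_L2 I f) (hg : s4b_L2 I g) :
    Integrable (fun p : ℝ × ℝ => (ee (μ * (p.1 + (a : ℝ) * p.2)) * ee (μ' * (p.1 + (b : ℝ) * p.2))) * s4a_bfg I a b f g p) ∧
    ∫ p : ℝ × ℝ, (ee (μ * (p.1 + (a : ℝ) * p.2)) * ee (μ' * (p.1 + (b : ℝ) * p.2))) * s4a_bfg I a b f g p =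
      ((|(b : ℝ) - (a : ℝ)|⁻¹ : ℝ) : ℂ) * ((∫ y in I.set, ee (μ * y) * f y) * ∫ y in I.set, ee (μ' * y) * g y) := by
  obtain ⟨-, f2, -⟩ := s4a_ind_facts I f hfm hf
  obtain ⟨-, g2, -⟩ := s4a_ind_facts I g hgm hg
  have hne := s4a_fin4_cast_ne hab
  have hem : ∀ μ : ℝ, Measurable fun y : ℝ => ee (μ * y) := fun μ => (s4a_ee_continuous.comp (by fun_prop)).measurable
  have F2 : Integrable fun y => ee (μ * y) * I.set.indicator f y :=
    f2.bdd_mul (c := 1) (hem μ).aestronglyMeasurable (Filter.Eventually.of_forall fun y => (s4a_ee_norm _).le)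
  have G2 : Integrable fun y => ee (μ' * y) * I.set.indicator g y :=
    g2.bdd_mul (c := 1) (hem μ').aestronglyMeasurable (Filter.Eventually.of_forall fun y => (s4a_ee_norm _).le)
  have h := s4a_int2 _ _ hne _ _ F2 G2
  have e : (fun p : ℝ × ℝ => (ee (μ * (p.1 + (a : ℝ) * p.2)) * ee (μ' * (p.1 + (b : ℝ) * p.2))) * s4a_bfg I a b f g p) =
      fun p => (ee (μ * (p.1 + (a : ℝ) * p.2)) * I.set.indicator f (p.1 + (a : ℝ) * p.2)) *
        (ee (μ' * (p.1 + (b : ℝ) * p.2)) * I.set.indicator g (p.1 + (b : ℝ) * p.2)) := by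
    funext p
    unfold s4a_bfg
    ring
  have i1 : ∀ (μ : ℝ) (f : ℝ → ℂ), ∫ y, ee (μ * y) * I.set.indicator f y = ∫ y in I.set, ee (μ * y) * f y := by
    intro μ f
    rw [← integral_indicator (cell_measurableSet I)]
    congr 1
    funext y
    by_cases hy : y ∈ I.set
    · rw [Set.indicator_of_mem hy, Set.indicator_of_mem hy]
    · rw [Set.indicator_of_notMem hy, Set.indicator_of_notMem hy, mul_zero]
  rw [e]
  refine ⟨h.1, ?_⟩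
  rw [h.2, i1, i1]

/-- a uniform approximation of the kernel on `I × I` by a separated sum gives an approximation of the two-input form by products of moments -/
theorem s4a_form2_approx {c0 C0 : ℝ} (hc0 : 0 < c0) (I : Cell) (w : ℝ × ℝ → ℂ) (hw : Admissible c0 C0 I w) (a b : Fin 4)
    (hab : a ≠ b) (Q : ℝ → ℂ) (hQm : Measurable Q) {X : Type} [Fintype X] (c : X → ℂ) (μ μ' : X → ℝ) (ε : ℝ) (hε : 0 ≤ ε)
    (happ : ∀ x t : ℝ, x + (a : ℝ) * t ∈ I.set → x + (b : ℝ) * t ∈ I.set →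
      ‖w (x, t) * Q t - ∑ ν, c ν * (ee (μ ν * (x + (a : ℝ) * t)) * ee (μ' ν * (x + (b : ℝ) * t)))‖ ≤ ε)
    (f g : ℝ → ℂ) (hfm : Measurable f) (hgm : Measurable g) (hf : s4b_L2 I f) (hg : s4b_L2 I g) :
    ‖s4a_form2 I w a b Q f g - ((|(b : ℝ) - (a : ℝ)|⁻¹ : ℝ) : ℂ) * ∑ ν, c ν *
        ((((I.len)⁻¹ : ℝ) * ∫ y in I.set, ee (μ ν * y) * f y) * (((I.len)⁻¹ : ℝ) * ∫ y in I.set, ee (μ' ν * y) * g y))‖
      ≤ ε * nnorm 2 I f * nnorm 2 I g := by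
  have hr := cell_len_pos I
  obtain ⟨hB, hBn⟩ := s4a_bfg_facts I a b hab f g hfm hgm hf hg
  have hwm : Measurable w := (s4a_adm_continuous hw).measurable
  have hem : ∀ μ : ℝ, Measurable fun y : ℝ => ee (μ * y) := fun μ => (s4a_ee_continuous.comp (by fun_prop)).measurable
  -- the separated part
  have hS := fun ν => s4a_sep_term_integral I a b hab (μ ν) (μ' ν) f g hfm hgm hf hg
  have hSint : Integrable fun p : ℝ × ℝ => ∑ ν, c ν * ((ee (μ ν * (p.1 + (a : ℝ) * p.2)) * ee (μ' ν * (p.1 + (b : ℝ) * p.2))) *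
      s4a_bfg I a b f g p) := integrable_finsetSum _ fun ν _ => (hS ν).1.const_mul _
  have hSval : ∫ p : ℝ × ℝ, ∑ ν, c ν * ((ee (μ ν * (p.1 + (a : ℝ) * p.2)) * ee (μ' ν * (p.1 + (b : ℝ) * p.2))) *
      s4a_bfg I a b f g p) = ∑ ν, c ν * (((|(b : ℝ) - (a : ℝ)|⁻¹ : ℝ) : ℂ) *
        ((∫ y in I.set, ee (μ ν * y) * f y) * ∫ y in I.set, ee (μ' ν * y) * g y)) := by
    rw [integral_finsetSum _ fun ν _ => (hS ν).1.const_mul _]
    refine Finset.sum_congr rfl fun ν _ => ?_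
    rw [integral_const_mul, (hS ν).2]
  -- the error part
  have hEm : Measurable fun p : ℝ × ℝ => (w p * Q p.2 - ∑ ν, c ν * (ee (μ ν * (p.1 + (a : ℝ) * p.2)) *
      ee (μ' ν * (p.1 + (b : ℝ) * p.2)))) := by
    refine (hwm.mul (hQm.comp measurable_snd)).sub (Finset.measurable_sum _ fun ν _ => ?_)
    exact measurable_const.mul (((hem (μ ν)).comp (by fun_prop)).mul ((hem (μ' ν)).comp (by fun_prop)))
  have hEb : ∀ p : ℝ × ℝ, ‖(w p * Q p.2 - ∑ ν, c ν * (ee (μ ν * (p.1 + (a : ℝ) * p.2)) *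
      ee (μ' ν * (p.1 + (b : ℝ) * p.2)))) * s4a_bfg I a b f g p‖ ≤ ε * ‖s4a_bfg I a b f g p‖ := by
    intro p
    rw [norm_mul]
    by_cases hp : p.1 + (a : ℝ) * p.2 ∈ I.set ∧ p.1 + (b : ℝ) * p.2 ∈ I.set
    · exact mul_le_mul_of_nonneg_right (happ p.1 p.2 hp.1 hp.2) (norm_nonneg _)
    · have : s4a_bfg I a b f g p = 0 := by
        unfold s4a_bfg
        by_cases ha : p.1 + (a : ℝ) * p.2 ∈ I.set
        · have hb : p.1 + (b : ℝ) * p.2 ∉ I.set := fun hb => hp ⟨ha, hb⟩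
          rw [Set.indicator_of_notMem hb, mul_zero]
        · rw [Set.indicator_of_notMem ha, zero_mul]
      rw [this, norm_zero, mul_zero, mul_zero]
  have hEint : Integrable fun p : ℝ × ℝ => (w p * Q p.2 - ∑ ν, c ν * (ee (μ ν * (p.1 + (a : ℝ) * p.2)) *
      ee (μ' ν * (p.1 + (b : ℝ) * p.2)))) * s4a_bfg I a b f g p :=
    Integrable.mono' (hB.norm.const_mul ε) (hEm.aestronglyMeasurable.mul hB.1) (Filter.Eventually.of_forall hEb)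
  have hEn : ‖∫ p : ℝ × ℝ, (w p * Q p.2 - ∑ ν, c ν * (ee (μ ν * (p.1 + (a : ℝ) * p.2)) *
      ee (μ' ν * (p.1 + (b : ℝ) * p.2)))) * s4a_bfg I a b f g p‖ ≤ ε * (I.len ^ 2 * nnorm 2 I f * nnorm 2 I g) := by
    refine le_trans (norm_integral_le_of_norm_le (hB.norm.const_mul ε) (Filter.Eventually.of_forall hEb)) ?_
    rw [integral_const_mul]
    exact mul_le_mul_of_nonneg_left hBn hε
  -- decomposition
  have hdec : ∫ p : ℝ × ℝ, w p * Q p.2 * f (p.1 + (a : ℝ) * p.2) * g (p.1 + (b : ℝ) * p.2) =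
      (∫ p : ℝ × ℝ, (w p * Q p.2 - ∑ ν, c ν * (ee (μ ν * (p.1 + (a : ℝ) * p.2)) *
        ee (μ' ν * (p.1 + (b : ℝ) * p.2)))) * s4a_bfg I a b f g p) +
      ∫ p : ℝ × ℝ, ∑ ν, c ν * ((ee (μ ν * (p.1 + (a : ℝ) * p.2)) * ee (μ' ν * (p.1 + (b : ℝ) * p.2))) *
        s4a_bfg I a b f g p) := by
    rw [← integral_add hEint hSint]
    congr 1
    funext p
    have h2 := s4a_adm_bfg hc0 hw a b f g p
    rw [sub_mul, Finset.sum_mul]
    have h3 : ∑ ν, c ν * (ee (μ ν * (p.1 + (a : ℝ) * p.2)) * ee (μ' ν * (p.1 + (b : ℝ) * p.2))) * s4a_bfg I a b f g p =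
        ∑ ν, c ν * ((ee (μ ν * (p.1 + (a : ℝ) * p.2)) * ee (μ' ν * (p.1 + (b : ℝ) * p.2))) * s4a_bfg I a b f g p) :=
      Finset.sum_congr rfl fun ν _ => by ring
    rw [h3, sub_add_cancel]
    calc w p * Q p.2 * f (p.1 + (a : ℝ) * p.2) * g (p.1 + (b : ℝ) * p.2)
        = Q p.2 * (w p * (f (p.1 + (a : ℝ) * p.2) * g (p.1 + (b : ℝ) * p.2))) := by ring
      _ = Q p.2 * (w p * s4a_bfg I a b f g p) := by rw [h2]
      _ = _ := by ring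
  have hfinal : s4a_form2 I w a b Q f g - ((|(b : ℝ) - (a : ℝ)|⁻¹ : ℝ) : ℂ) * ∑ ν, c ν *
        ((((I.len)⁻¹ : ℝ) * ∫ y in I.set, ee (μ ν * y) * f y) * (((I.len)⁻¹ : ℝ) * ∫ y in I.set, ee (μ' ν * y) * g y)) =
      (((I.len ^ 2)⁻¹ : ℝ) : ℂ) * ∫ p : ℝ × ℝ, (w p * Q p.2 - ∑ ν, c ν * (ee (μ ν * (p.1 + (a : ℝ) * p.2)) *
        ee (μ' ν * (p.1 + (b : ℝ) * p.2)))) * s4a_bfg I a b f g p := by
    unfold s4a_form2
    rw [hdec, hSval, mul_add, add_sub_assoc, Finset.mul_sum, Finset.mul_sum, ← Finset.sum_sub_distrib]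
    rw [Finset.sum_eq_zero, add_zero]
    intro ν _
    push_cast
    ring
  rw [hfinal, norm_mul, Complex.norm_real, Real.norm_eq_abs, abs_of_pos (inv_pos.2 (pow_pos hr 2))]
  calc (I.len ^ 2)⁻¹ * _ ≤ (I.len ^ 2)⁻¹ * (ε * (I.len ^ 2 * nnorm 2 I f * nnorm 2 I g)) := by gcongr
    _ = ε * nnorm 2 I f * nnorm 2 I g := by field_simp

/-- numerics of `s4a_pair_detect` -/
theorem s4a_pair_num (C5 C6 : ℕ) (Cs : ℝ) (hCs : 1 ≤ Cs) : ∃ C : ℕ, ∀ H C1 δ D0 : ℝ, Real.exp 2 ≤ H → 1 ≤ C1 → 0 < δ →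
    δ < 1 / 2 → 1 ≤ D0 → D0 ≤ s4b_qp C5 (Real.log H) →
    D0 * (2 * (4 * Cs * C1) * D0 / δ) ≤ s4b_qp C (Real.log H + Real.log C1 + Real.log (1 / δ)) ∧
    2 * s4b_qp C6 (Real.log (D0 * (2 * (4 * Cs * C1) * D0 / δ)) + Real.log (1 / (δ / (2 * D0) / (2 * Cs * C1))) +
        Real.log (1 / (δ / (2 * D0) / (4 * C1)))) / (δ / (2 * D0)) ≤
      s4b_qp C (Real.log H + Real.log C1 + Real.log (1 / δ)) := by
  let V : ℝ × ℝ × ℝ × ℝ → Prop := fun p => Real.exp 2 ≤ p.1 ∧ 1 ≤ p.2.1 ∧ 0 < p.2.2.1 ∧ p.2.2.1 < 1 / 2 ∧ 1 ≤ p.2.2.2 ∧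
    p.2.2.2 ≤ s4b_qp C5 (Real.log p.1)
  let x : ℝ × ℝ × ℝ × ℝ → ℝ := fun p => Real.log p.1 + Real.log p.2.1 + Real.log (1 / p.2.2.1)
  have hH1 : ∀ p, V p → 1 ≤ p.1 := fun p hp => le_trans (Real.one_le_exp (by norm_num)) hp.1
  have hlH : ∀ p, V p → 0 ≤ Real.log p.1 := fun p hp => Real.log_nonneg (hH1 p hp)
  have hlC : ∀ p, V p → 0 ≤ Real.log p.2.1 := fun p hp => Real.log_nonneg hp.2.1
  have hd1 : ∀ p, V p → 1 ≤ 1 / p.2.2.1 := fun p hp => by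
    rw [le_div_iff₀ hp.2.2.1]; linarith [hp.2.2.2.1]
  have hld : ∀ p, V p → 0 ≤ Real.log (1 / p.2.2.1) := fun p hp => Real.log_nonneg (hd1 p hp)
  have hx : ∀ p, V p → 0 ≤ x p := fun p hp => by
    have := hlH p hp; have := hld p hp; have := hlC p hp
    show 0 ≤ Real.log p.1 + Real.log p.2.1 + Real.log (1 / p.2.2.1)
    linarith
  have c : ∀ c : ℝ, 0 ≤ c → s4a_IsQP V x (fun _ => c) := fun c hc => s4a_IsQP.const hx c hc
  have plH : s4a_IsPL V x (fun p => Real.log p.1) := (s4a_IsPL.size hx).mono hlH (fun p hp => by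
    have := hld p hp; have := hlC p hp
    show Real.log p.1 ≤ Real.log p.1 + Real.log p.2.1 + Real.log (1 / p.2.2.1)
    linarith)
  have plC : s4a_IsPL V x (fun p => Real.log p.2.1) := (s4a_IsPL.size hx).mono hlC (fun p hp => by
    have := hld p hp; have := hlH p hp
    show Real.log p.2.1 ≤ Real.log p.1 + Real.log p.2.1 + Real.log (1 / p.2.2.1)
    linarith)
  have pld : s4a_IsPL V x (fun p => Real.log (1 / p.2.2.1)) := (s4a_IsPL.size hx).mono hld (fun p hp => by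
    have := hlC p hp; have := hlH p hp
    show Real.log (1 / p.2.2.1) ≤ Real.log p.1 + Real.log p.2.1 + Real.log (1 / p.2.2.1)
    linarith)
  have qC : s4a_IsQP V x (fun p => p.2.1) := s4a_IsQP.of_log plC (fun p hp => by linarith [hp.2.1]) (fun p _ => le_rfl)
  have qd : s4a_IsQP V x (fun p => 1 / p.2.2.1) :=
    s4a_IsQP.of_log pld (fun p hp => by linarith [hd1 p hp]) (fun p _ => le_rfl)
  have qD : s4a_IsQP V x (fun p => p.2.2.2) := (s4a_IsQP.comp hx C5 plH).mono (fun p hp => by linarith [hp.2.2.2.2.1])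
    (fun p hp => hp.2.2.2.2.2)
  have hCs0 : 0 ≤ Cs := by linarith
  -- `H₁`
  have qH1 : s4a_IsQP V x (fun p => p.2.2.2 * (2 * (4 * Cs * p.2.1) * p.2.2.2 / p.2.2.1)) := by
    refine (qD.mul hx ((((c 2 (by norm_num)).mul hx ((c (4 * Cs) (by positivity)).mul hx qC)).mul hx qD).mul hx qd)).mono ?_ ?_
    · intro p hp
      have h1 := hp.2.1; have h2 := hp.2.2.1; have h3 := hp.2.2.2.2.1
      positivity
    · intro p hp
      apply le_of_eq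
      ring
  have hH1' : ∀ p, V p → 1 ≤ p.2.2.2 * (2 * (4 * Cs * p.2.1) * p.2.2.2 / p.2.2.1) := by
    intro p hp
    have h1 := hp.2.1; have h2 := hp.2.2.1; have h3 := hp.2.2.2.2.1; have h4 := hd1 p hp
    have e : p.2.2.2 * (2 * (4 * Cs * p.2.1) * p.2.2.2 / p.2.2.1) = 8 * (p.2.2.2 * p.2.2.2) * (Cs * p.2.1) * (1 / p.2.2.1) := by ring
    rw [e]
    have h5 : 1 ≤ p.2.2.2 * p.2.2.2 := by nlinarith
    have h6 : 1 ≤ Cs * p.2.1 := by nlinarith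
    have h7 : 1 ≤ (p.2.2.2 * p.2.2.2) * (Cs * p.2.1) := by nlinarith
    nlinarith
  have plH1 := qH1.log hH1'
  -- `1/δ₂`
  have qd2 : s4a_IsQP V x (fun p => 1 / (p.2.2.1 / (2 * p.2.2.2) / (2 * Cs * p.2.1))) := by
    refine ((((c 4 (by norm_num)).mul hx qD).mul hx ((c Cs hCs0).mul hx qC)).mul hx qd).mono ?_ ?_
    · intro p hp
      have h1 := hp.2.1; have h2 := hp.2.2.1; have h3 := hp.2.2.2.2.1
      positivity
    · intro p hp
      have h1 := hp.2.1; have h2 := hp.2.2.1; have h3 := hp.2.2.2.2.1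
      apply le_of_eq
      field_simp
      ring
  have hd2 : ∀ p, V p → 1 ≤ 1 / (p.2.2.1 / (2 * p.2.2.2) / (2 * Cs * p.2.1)) := by
    intro p hp
    have h1 := hp.2.1; have h2 := hp.2.2.1; have h3 := hp.2.2.2.2.1; have h4 := hd1 p hp
    have e : 1 / (p.2.2.1 / (2 * p.2.2.2) / (2 * Cs * p.2.1)) = 4 * p.2.2.2 * (Cs * p.2.1) * (1 / p.2.2.1) := by
      field_simp
      ring
    rw [e]
    have h6 : 1 ≤ Cs * p.2.1 := by nlinarith
    have h7 : 1 ≤ p.2.2.2 * (Cs * p.2.1) := by nlinarith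
    nlinarith
  have pld2 := qd2.log hd2
  -- `1/ε₂`
  have qe2 : s4a_IsQP V x (fun p => 1 / (p.2.2.1 / (2 * p.2.2.2) / (4 * p.2.1))) := by
    refine ((((c 8 (by norm_num)).mul hx qD).mul hx qC).mul hx qd).mono ?_ ?_
    · intro p hp
      have h1 := hp.2.1; have h2 := hp.2.2.1; have h3 := hp.2.2.2.2.1
      positivity
    · intro p hp
      have h1 := hp.2.1; have h2 := hp.2.2.1; have h3 := hp.2.2.2.2.1
      apply le_of_eq
      field_simp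
      ring
  have he2 : ∀ p, V p → 1 ≤ 1 / (p.2.2.1 / (2 * p.2.2.2) / (4 * p.2.1)) := by
    intro p hp
    have h1 := hp.2.1; have h2 := hp.2.2.1; have h3 := hp.2.2.2.2.1; have h4 := hd1 p hp
    have e : 1 / (p.2.2.1 / (2 * p.2.2.2) / (4 * p.2.1)) = 8 * p.2.2.2 * p.2.1 * (1 / p.2.2.1) := by
      field_simp
      ring
    rw [e]
    have h7 : 1 ≤ p.2.2.2 * p.2.1 := by nlinarith
    nlinarith
  have ple2 := qe2.log he2
  have qD1 := s4a_IsQP.comp hx C6 ((plH1.add hx pld2).add hx ple2)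
  have q2 : s4a_IsQP V x (fun p => 2 * s4b_qp C6 (Real.log (p.2.2.2 * (2 * (4 * Cs * p.2.1) * p.2.2.2 / p.2.2.1)) +
      Real.log (1 / (p.2.2.1 / (2 * p.2.2.2) / (2 * Cs * p.2.1))) +
        Real.log (1 / (p.2.2.1 / (2 * p.2.2.2) / (4 * p.2.1)))) / (p.2.2.1 / (2 * p.2.2.2))) := by
    refine ((((c 4 (by norm_num)).mul hx qD1).mul hx qD).mul hx qd).mono ?_ ?_
    · intro p hp
      have h1 := hp.2.1; have h2 := hp.2.2.1; have h3 := hp.2.2.2.2.1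
      have h4 := (s4a_qp_pos C6 (Real.log (p.2.2.2 * (2 * (4 * Cs * p.2.1) * p.2.2.2 / p.2.2.1)) +
        Real.log (1 / (p.2.2.1 / (2 * p.2.2.2) / (2 * Cs * p.2.1))) +
        Real.log (1 / (p.2.2.1 / (2 * p.2.2.2) / (4 * p.2.1))))).le
      positivity
    · intro p hp
      have h1 := hp.2.1; have h2 := hp.2.2.1; have h3 := hp.2.2.2.2.1
      apply le_of_eq
      generalize s4b_qp C6 _ = Z
      field_simp
      ring
  obtain ⟨C, hC⟩ := s4a_IsQP.elim₂ hx qH1 q2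
  refine ⟨C, fun H C1 δ D0 h1 h2 h3 h4 h5 h6 => ?_⟩
  exact hC (H, C1, δ, D0) ⟨h1, h2, h3, h4, h5, h6⟩

theorem s4a_nnorm_nonneg (I : Cell) (f : ℝ → ℂ) : 0 ≤ nnorm 2 I f :=
  Real.rpow_nonneg (mul_nonneg (inv_nonneg.2 (cell_len_pos I).le) (integral_nonneg fun _ => by positivity)) _

theorem s4a_fin4_inv_le {a b : Fin 4} (hab : a ≠ b) : |((b : ℕ) : ℝ) - ((a : ℕ) : ℝ)|⁻¹ ≤ 1 := by
  apply inv_le_one_of_one_le₀
  have : (1 : ℤ) ≤ |((b : ℕ) : ℤ) - ((a : ℕ) : ℤ)| := by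
    apply Int.one_le_abs
    intro h
    apply hab
    ext
    omega
  exact_mod_cast this

/-- steps 4-5 of `s4a_pair_detect` -/
theorem s4a_pd_moment {c0 C0 : ℝ} (hc0 : 0 < c0) (Cs : ℝ) (hCs1 : 1 ≤ Cs) (C6 : ℕ)
    (hbound : ∀ a b : Fin 4, a ≠ b →
      ∀ (I : Cell) (w : ℝ × ℝ → ℂ) (Q f g : ℝ → ℂ) (A : ℝ), Admissible c0 C0 I w → Measurable Q → (∀ t, ‖Q t‖ ≤ 1) →
      Measurable f → Measurable g → s4b_L2 I f → s4b_L2 I g → (∀ ξ, ‖s4a_AInt Q I.len ξ‖ ≤ A) →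
      ‖s4a_form2 I w a b Q f g‖ ≤ Cs * A * nnorm 2 I f * nnorm 2 I g)
    (hsep : ∀ a b : Fin 4, a ≠ b →
      ∀ (I : Cell) (w : ℝ × ℝ → ℂ) (Q : Chart) (H δ ε : ℝ), Admissible c0 C0 I w → Q.Cplx H → 0 < δ → δ < 1 / 2 → 0 < ε →
      ε < 1 / 2 → (∃ ξ, δ ≤ ‖s4a_AInt Q.eval I.len ξ‖) →
      ∃ (X : Type) (_ : Fintype X) (c : X → ℂ) (μ μ' : X → ℝ),
        ∑ ν, ‖c ν‖ ≤ s4b_qp C6 (Real.log H + Real.log (1 / δ) + Real.log (1 / ε)) ∧
        (Fintype.card X : ℝ) ≤ s4b_qp C6 (Real.log H + Real.log (1 / δ) + Real.log (1 / ε)) ∧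
        ∀ x t : ℝ, x + (a : ℝ) * t ∈ I.set → x + (b : ℝ) * t ∈ I.set →
          ‖w (x, t) * Q.eval t - ∑ ν, c ν * (ee (μ ν * (x + (a : ℝ) * t)) * ee (μ' ν * (x + (b : ℝ) * t)))‖ ≤ ε)
    (a b : Fin 4) (hab : a ≠ b) (I : Cell) (w : ℝ × ℝ → ℂ) (hw : Admissible c0 C0 I w) (Q : Chart) (H₁ C1 δ₁ : ℝ)
    (hQ : Q.Cplx H₁) (hQb : Q.Bdd) (hC1 : 1 ≤ C1) (hδ₁ : 0 < δ₁) (hδ₁' : δ₁ < 1 / 2)
    (f g : ℝ → ℂ) (hfm : Measurable f) (hgm : Measurable g) (hf : s4b_L2 I f) (hg : s4b_L2 I g)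
    (hnf : nnorm 2 I f ≤ C1) (hng : nnorm 2 I g ≤ 1) (hF : δ₁ ≤ ‖s4a_form2 I w a b Q.eval f g‖) :
    ∃ μ : ℝ, δ₁ / (2 * s4b_qp C6 (Real.log H₁ + Real.log (1 / (δ₁ / (2 * Cs * C1))) + Real.log (1 / (δ₁ / (4 * C1))))) ≤
      ‖(((I.len)⁻¹ : ℝ) : ℂ) * ∫ y in I.set, ee (μ * y) * f y‖ := by
  have hQm := s4a_eval_measurable hQ
  have hnf0 := s4a_nnorm_nonneg I f
  have hng0 := s4a_nnorm_nonneg I g
  have hnn : nnorm 2 I f * nnorm 2 I g ≤ C1 := by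
    calc nnorm 2 I f * nnorm 2 I g ≤ C1 * 1 := mul_le_mul hnf hng hng0 (by linarith)
      _ = C1 := mul_one _
  have hδ2 : 0 < δ₁ / (2 * Cs * C1) := by positivity
  have hδ2' : δ₁ / (2 * Cs * C1) < 1 / 2 := by
    rw [div_lt_iff₀ (by positivity)]
    have : 1 ≤ Cs * C1 := by nlinarith
    nlinarith
  have hε2 : 0 < δ₁ / (4 * C1) := by positivity
  have hε2' : δ₁ / (4 * C1) < 1 / 2 := by
    rw [div_lt_iff₀ (by positivity)]
    nlinarith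
  have hξ : ∃ ξ, δ₁ / (2 * Cs * C1) ≤ ‖s4a_AInt Q.eval I.len ξ‖ := by
    by_contra hcon
    push Not at hcon
    have h1 := hbound a b hab I w Q.eval f g _ hw hQm hQb hfm hgm hf hg (fun ξ => (hcon ξ).le)
    have h2 : Cs * (δ₁ / (2 * Cs * C1)) * nnorm 2 I f * nnorm 2 I g ≤ δ₁ / 2 := by
      calc Cs * (δ₁ / (2 * Cs * C1)) * nnorm 2 I f * nnorm 2 I g
          = Cs * (δ₁ / (2 * Cs * C1)) * (nnorm 2 I f * nnorm 2 I g) := by ring
        _ ≤ Cs * (δ₁ / (2 * Cs * C1)) * C1 := by gcongr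
        _ = δ₁ / 2 := by field_simp
    linarith
  obtain ⟨X, hX, c, μ, μ', hc, -, happ⟩ := hsep a b hab I w Q H₁ _ _ hw hQ hδ2 hδ2' hε2 hε2' hξ
  have hD1 : 0 < s4b_qp C6 (Real.log H₁ + Real.log (1 / (δ₁ / (2 * Cs * C1))) + Real.log (1 / (δ₁ / (4 * C1)))) :=
    s4a_qp_pos _ _
  generalize s4b_qp C6 (Real.log H₁ + Real.log (1 / (δ₁ / (2 * Cs * C1))) + Real.log (1 / (δ₁ / (4 * C1)))) = D1 at hc hD1 ⊢
  have h3 := s4a_form2_approx hc0 I w hw a b hab Q.eval hQm c μ μ' _ hε2.le happ f g hfm hgm hf hg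
  have h4 : δ₁ / (4 * C1) * nnorm 2 I f * nnorm 2 I g ≤ δ₁ / 4 := by
    calc δ₁ / (4 * C1) * nnorm 2 I f * nnorm 2 I g = δ₁ / (4 * C1) * (nnorm 2 I f * nnorm 2 I g) := by ring
      _ ≤ δ₁ / (4 * C1) * C1 := by gcongr
      _ = δ₁ / 4 := by field_simp
  by_contra hcon
  push Not at hcon
  have hem : ∀ μ : ℝ, Measurable fun y : ℝ => ee (μ * y) := fun μ => (s4a_ee_continuous.comp (by fun_prop)).measurable
  have h5 : ‖((|(b : ℝ) - (a : ℝ)|⁻¹ : ℝ) : ℂ) * ∑ ν, c ν *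
        ((((I.len)⁻¹ : ℝ) * ∫ y in I.set, ee (μ ν * y) * f y) * (((I.len)⁻¹ : ℝ) * ∫ y in I.set, ee (μ' ν * y) * g y))‖ ≤
      δ₁ / 2 := by
    rw [norm_mul, Complex.norm_real, Real.norm_eq_abs, abs_of_nonneg (by positivity)]
    have h6 : ‖∑ ν, c ν * ((((I.len)⁻¹ : ℝ) * ∫ y in I.set, ee (μ ν * y) * f y) *
        (((I.len)⁻¹ : ℝ) * ∫ y in I.set, ee (μ' ν * y) * g y))‖ ≤ ∑ ν, ‖c ν‖ * (δ₁ / (2 * D1)) := by
      refine le_trans (norm_sum_le _ _) (Finset.sum_le_sum fun ν _ => ?_)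
      rw [norm_mul, norm_mul]
      have h7 := (hcon (μ ν)).le
      have h8 := le_trans (s4a_moment_le I _ g (hem (μ' ν)) (fun y => (s4a_ee_norm _).le) hgm hg) hng
      have h9 : ‖(((I.len)⁻¹ : ℝ) : ℂ) * ∫ y in I.set, ee (μ ν * y) * f y‖ *
          ‖(((I.len)⁻¹ : ℝ) : ℂ) * ∫ y in I.set, ee (μ' ν * y) * g y‖ ≤ δ₁ / (2 * D1) * 1 :=
        mul_le_mul h7 h8 (norm_nonneg _) (by positivity)
      rw [mul_one] at h9
      exact mul_le_mul_of_nonneg_left h9 (norm_nonneg _)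
    rw [← Finset.sum_mul] at h6
    have h10 : (∑ ν, ‖c ν‖) * (δ₁ / (2 * D1)) ≤ D1 * (δ₁ / (2 * D1)) := by gcongr
    have h11 : D1 * (δ₁ / (2 * D1)) = δ₁ / 2 := by field_simp
    have h12 := s4a_fin4_inv_le hab
    have h13 : 0 ≤ |((b : ℕ) : ℝ) - ((a : ℕ) : ℝ)|⁻¹ := by positivity
    calc |((b : ℕ) : ℝ) - ((a : ℕ) : ℝ)|⁻¹ * _ ≤ 1 * (δ₁ / 2) := by
          apply mul_le_mul h12 (by linarith) (norm_nonneg _) (by norm_num)
      _ = δ₁ / 2 := one_mul _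
  have h14 := norm_sub_norm_le (s4a_form2 I w a b Q.eval f g) (((|(b : ℝ) - (a : ℝ)|⁻¹ : ℝ) : ℂ) * ∑ ν, c ν *
        ((((I.len)⁻¹ : ℝ) * ∫ y in I.set, ee (μ ν * y) * f y) * (((I.len)⁻¹ : ℝ) * ∫ y in I.set, ee (μ' ν * y) * g y)))
  linarith

/-- **The interface `s4b_PairDetect`** -/
theorem s4a_pair_detect (hW : s4a_Weyl1) (c0 C0 : ℝ) (hc0 : 0 < c0) (hC0 : 1 ≤ C0) : s4b_PairDetect c0 C0 := by
  obtain ⟨C5, h5⟩ := s4a_ap_separation 1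
  obtain ⟨Cs, hCs1, hbound⟩ := s4a_single_scale_bound c0 C0 hc0 hC0
  obtain ⟨C6, hsep⟩ := s4a_single_scale_sep hW c0 C0 hc0 hC0
  obtain ⟨C, hC⟩ := s4a_pair_num C5 C6 Cs hCs1
  refine ⟨C, ?_⟩
  intro H C1 δ I w σ z a b hC1 hδ0 hδ1 hw hab hbb haH hbH hz1 hz2 hm0 hm3 hL0 hL3 hn0 hn3 hform
  have hH1 : 1 ≤ H := le_trans (Real.one_le_exp (by norm_num)) haH.H_ge
  have hD0 : 1 ≤ s4b_qp C5 (Real.log H) := s4a_qp_one_le C5 (Real.log_nonneg hH1)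
  obtain ⟨hnum1, hnum2⟩ := hC H C1 δ _ haH.H_ge hC1 hδ0 hδ1 hD0 le_rfl
  clear hC
  have hslot : slot4 (σ 1) (σ 2) (σ 0) (σ 3) :=
    ⟨σ.injective.ne (by decide), σ.injective.ne (by decide), σ.injective.ne (by decide), σ.injective.ne (by decide),
      σ.injective.ne (by decide), σ.injective.ne (by decide)⟩
  have h03 : σ 0 ≠ σ 3 := σ.injective.ne (by decide)
  obtain ⟨X, hX, c, T, ψa, ψb, Q, hT1, hs, hsum, hcp, hbd, -, -, hid⟩ := h5 (σ 1) (σ 2) (σ 0) (σ 3) hslot a b H haH hbH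
  clear h5
  generalize s4b_qp C (Real.log H + Real.log C1 + Real.log (1 / δ)) = D at hnum1 hnum2 ⊢
  generalize s4b_qp C5 (Real.log H) = D0 at hD0 hnum1 hnum2 hsum hcp
  -- step 1
  have hsc : Summable fun x => ‖c x‖ := by
    refine Summable.of_nonneg_of_le (fun _ => norm_nonneg _) (fun x => ?_) hs
    have h1 := hT1 x
    have h2 := norm_nonneg (c x)
    nlinarith
  have hts := s4a_form_tsum hc0 I w hw (σ 0) (σ 3) h03
    (fun p => a.eval (p.1 + ((σ 1 : Fin 4) : ℝ) * p.2) * b.eval (p.1 + ((σ 2 : Fin 4) : ℝ) * p.2)) c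
    (fun x => (ψa x).eval) (fun x => (ψb x).eval) (fun x => (Q x).eval) hsc
    (fun x => ⟨s4a_eval_measurable (hcp x).1, s4a_eval_measurable (hcp x).2.1, s4a_eval_measurable (hcp x).2.2⟩)
    (fun x y => ⟨(hbd x).1 y, (hbd x).2.1 y, (hbd x).2.2 y⟩) (fun p => hid p.1 p.2) (z (σ 0)) (z (σ 3)) hm0 hm3 hL0 hL3
  have hfz : form I w z = (((I.len ^ 2)⁻¹ : ℝ) : ℂ) * ∫ p : ℝ × ℝ, w p *
      (a.eval (p.1 + ((σ 1 : Fin 4) : ℝ) * p.2) * b.eval (p.1 + ((σ 2 : Fin 4) : ℝ) * p.2)) *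
      z (σ 0) (p.1 + ((σ 0 : Fin 4) : ℝ) * p.2) * z (σ 3) (p.1 + ((σ 3 : Fin 4) : ℝ) * p.2) := by
    rw [s4a_form_perm I w σ z, hz1, hz2]
  rw [← hfz] at hts
  -- step 2
  have hfa := fun x => s4a_nnorm_mul_le I (ψa x).eval (z (σ 0)) (s4a_eval_measurable (hcp x).1) (hbd x).1 hm0 hL0
  have hfb := fun x => s4a_nnorm_mul_le I (ψb x).eval (z (σ 3)) (s4a_eval_measurable (hcp x).2.1) (hbd x).2.1 hm3 hL3
  have hFb : ∀ x, ‖s4a_form2 I w (σ 0) (σ 3) (Q x).eval (fun y => (ψa x).eval y * z (σ 0) y)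
      (fun y => (ψb x).eval y * z (σ 3) y)‖ ≤ 4 * Cs * C1 := by
    intro x
    have h1 := hbound (σ 0) (σ 3) h03 I w (Q x).eval _ _ 4 hw (s4a_eval_measurable (hcp x).2.2) (hbd x).2.2
      (hfa x).1 (hfb x).1 (hfa x).2.1 (hfb x).2.1 (fun ξ => s4a_AInt_le _ (hbd x).2.2 _ _)
    refine le_trans h1 ?_
    have h2 := le_trans (hfa x).2.2 hn0
    have h3 := le_trans (hfb x).2.2 hn3
    have h4 := s4a_nnorm_nonneg I (fun y => (ψa x).eval y * z (σ 0) y)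
    have h5 := s4a_nnorm_nonneg I (fun y => (ψb x).eval y * z (σ 3) y)
    calc Cs * 4 * nnorm 2 I (fun y => (ψa x).eval y * z (σ 0) y) * nnorm 2 I (fun y => (ψb x).eval y * z (σ 3) y)
        ≤ Cs * 4 * C1 * 1 := by gcongr
      _ = 4 * Cs * C1 := by ring
  -- step 3
  obtain ⟨x, hxT, hxF⟩ := s4a_select c T _ _ δ (4 * Cs * C1) D0 hδ0 (by positivity) (by linarith) hT1 hs hsum hFb hts hform
  have hmono : D0 * T x ≤ D0 * (2 * (4 * Cs * C1) * D0 / δ) := by gcongr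
  have hδ₁ : 0 < δ / (2 * D0) := by positivity
  have hδ₁' : δ / (2 * D0) < 1 / 2 := by
    rw [div_lt_iff₀ (by positivity)]
    nlinarith
  -- steps 4, 5
  obtain ⟨μ, hμ⟩ := s4a_pd_moment hc0 Cs hCs1 C6 hbound hsep (σ 0) (σ 3) h03 I w hw (Q x) _ C1 _
    (s4a_cplx_mono (hcp x).2.2 hmono) (hbd x).2.2 hC1 hδ₁ hδ₁' _ _ (hfa x).1 (hfb x).1 (hfa x).2.1 (hfb x).2.1
    (le_trans (hfa x).2.2 hn0) (le_trans (hfb x).2.2 hn3) hxF
  -- step 6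
  refine ⟨s4a_conj (s4a_mod (ψa x) 0 μ 0), s4a_conj_bdd (s4a_mod_bdd (hbd x).1 _ _ _),
    s4a_conj_cplx (s4a_mod_cplx (s4a_cplx_mono (hcp x).1 (le_trans hmono hnum1)) _ _ _), ?_⟩
  have hmom : s4b_mom I (z (σ 0)) (s4a_conj (s4a_mod (ψa x) 0 μ 0)).eval =
      (((I.len)⁻¹ : ℝ) : ℂ) * ∫ y in I.set, ee (μ * y) * ((ψa x).eval y * z (σ 0) y) := by
    unfold s4b_mom
    congr 2
    funext y
    rw [s4a_conj_eval, Complex.conj_conj, s4a_mod_eval]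
    have : (0 : ℝ) * y ^ 2 + μ * y + 0 = μ * y := by ring
    rw [this]
    ring
  rw [hmom]
  refine le_trans ?_ hμ
  have hZ := s4a_qp_pos C6 (Real.log (D0 * (2 * (4 * Cs * C1) * D0 / δ)) + Real.log (1 / (δ / (2 * D0) / (2 * Cs * C1))) +
        Real.log (1 / (δ / (2 * D0) / (4 * C1))))
  generalize s4b_qp C6 (Real.log (D0 * (2 * (4 * Cs * C1) * D0 / δ)) + Real.log (1 / (δ / (2 * D0) / (2 * Cs * C1))) +
        Real.log (1 / (δ / (2 * D0) / (4 * C1)))) = Z at hnum2 hZ ⊢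
  have hpos : 0 < 2 * Z / (δ / (2 * D0)) := by positivity
  calc D⁻¹ ≤ (2 * Z / (δ / (2 * D0)))⁻¹ := inv_anti₀ hpos hnum2
    _ = δ / (2 * D0) / (2 * Z) := by rw [inv_div]

end Claimed.Agent.R258
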