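/-
Row 258, block [S4a] (architect helper78).  FILE SepAlg = leaf P-S4a-SEPALG: the exact ALGEBRAIC part of Lemma 4.5 (progression separation) on `ℝ^ι` (charts.tex l.520-575, simplified).
Uses the STATEMENTS of Br.lean, Cut.lean, Lat.lean.

SETTING.  `y_i = y_a + p t`, `y_b = y_a + q t` (`p = i - a`, `q = b - a ≠ 0`), `u = θ y_a`, `τ = θ t`.  Rational coefficients
      `sa = (q-p)/q`,  `sb = p/q`,  `st = p (p-q)`       (`= -α_a, -α_b, S` of the paper).
BILINEAR IDENTITY (`s4a_sep_bil`): `⟨u + pτ, d_a + p d⟩ = sa ⟨u, d_a⟩ + sb ⟨u + qτ, d_a + q d⟩ + st ⟨τ, d⟩`  (expand; `sa + sb = 1`, `sb q = p`, `sb q² + st = p²`).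
SIMPLIFICATION w.r.t. the paper: ONE partition of unity (in `τ`) and ONE equality cutoff, no integer parameters `k_i, k_b`, no extra linear phases:
      `s4a_br C chi (u + pτ) = s4a_br C₃ Amp (u, u + qτ, τ)`,        (`s4a_sep_identity`)
  `C₃ = diag(sa C, sb C, st C)` on `ι ⊕ (ι ⊕ ι)`,   `Amp(x_a, x_b, x_t) = chi(x_a + p x_t) ρ(x_t) E(x_b - x_a - q x_t)`.
PROOF of `s4a_sep_identity`.  The term of the right side with index `(m_a, m_b, m)`: put `d_a = u - m_a`, `d_b = u + qτ - m_b`, `d = τ - m`.  Then `d_b - d_a - q d = m_a + q m - m_b ∈ ℤ^ι`, so `E(...) = 1` if `m_b = m_a + q m` and `0` otherwise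
  (`s4a_tens_eqc_int`).  If `m_b = m_a + q m` then `d_b = d_a + q d` and by `s4a_sep_bil` the phase is `⟨u + pτ, d_a + p d⟩`, and `d_a + p d = (u + pτ) - (m_a + p m)`.
  So (all sums have finite support) RHS `= ∑_m ρ(τ - m) ∑_{m_a} chi((u+pτ) - (m_a + p m)) e(⟨u+pτ, (u+pτ) - (m_a+pm)⟩) = ∑_m ρ(τ-m) · s4a_br C chi (u+pτ)` (`Equiv.addRight (p m)`), and `∑_m ρ(τ - m) = 1` (`s4a_tens_rho_hasSum`).
  Suggested Lean route: `Equiv.tsum_eq` with `(Equiv.sumArrowEquivProdArrow ..)` twice to get a sum over `(m_a, (m_b, m))`; summability from finite support (`s4a_lat_sum_le` on `ι ⊕ (ι ⊕ ι)`, the support of `Amp` is in a box: see `s4a_sAmp_supp`);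
  `Summable.tsum_prod`/`tsum_comm'`; inner sum over `m_b` by `tsum_eq_single (m_a + q m)`.
* `s4a_br_hasSum`: `s4a_br C (F v) u = ∑_{n ∈ N₀} F v (u - n) e(..)` for the finite set `N₀ = {n | ∀ i, |u i - n i| ≤ K}` (independent of `v`; `tsum_eq_sum`); the same for `G` (`G x = 0` off the box since all `F v x = 0`: `HasSum.unique`); `hasSum_sum`, `HasSum.mul_right`.
* `s4a_br_tri`: `s4a_br_mul` twice (unfold `s4a_C3`, `s4a_tri`, `s4a_pa`, ...).
-/
import Claimed.Agent.R258.S4a.Br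
import Claimed.Agent.R258.S4a.Cut

set_option autoImplicit false
open MeasureTheory
open scoped ENNReal ContDiff ComplexConjugate

namespace Claimed.Agent.R258

/-- three copies of the index type -/
abbrev s4a_T3 (ι : Type) : Type := ι ⊕ (ι ⊕ ι)

section
variable {ι : Type} {α : Type*}

def s4a_pa (x : s4a_T3 ι → α) : ι → α := fun i => x (Sum.inl i)
def s4a_pb (x : s4a_T3 ι → α) : ι → α := fun i => x (Sum.inr (Sum.inl i))
def s4a_pt (x : s4a_T3 ι → α) : ι → α := fun i => x (Sum.inr (Sum.inr i))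
def s4a_tri (xa xb xt : ι → α) : s4a_T3 ι → α := Sum.elim xa (Sum.elim xb xt)

end

variable {ι : Type} [Fintype ι]

/-- `diag(sa C, sb C, st C)` -/
def s4a_C3 (sa sb st : ℚ) (C : Matrix ι ι ℚ) : Matrix (s4a_T3 ι) (s4a_T3 ι) ℚ :=
  Matrix.fromBlocks (sa • C) 0 0 (Matrix.fromBlocks (sb • C) 0 0 (st • C))

/-- the three rational coefficients -/
def s4a_sa (p q : ℤ) : ℚ := ((q : ℚ) - p) / q
def s4a_sb (p q : ℤ) : ℚ := (p : ℚ) / q
def s4a_st (p q : ℤ) : ℚ := (p : ℚ) * ((p : ℚ) - q)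

/-- the coupled amplitude -/
noncomputable def s4a_sAmp (S : ℝ → ℝ) (p q : ℤ) (chi : (ι → ℝ) → ℂ) (x : s4a_T3 ι → ℝ) : ℂ :=
  chi (fun i => s4a_pa x i + (p : ℝ) * s4a_pt x i) * s4a_tens (s4a_rho S) (s4a_pt x) *
    s4a_tens (s4a_eqc S) (fun i => s4a_pb x i - s4a_pa x i - (q : ℝ) * s4a_pt x i)

theorem s4a_sep_bil (C : Matrix ι ι ℚ) (p q : ℤ) (hq : q ≠ 0) (u τ da d : ι → ℝ) :
    s4a_bil C (fun i => u i + (p : ℝ) * τ i) (fun i => da i + (p : ℝ) * d i) =
      (s4a_sa p q : ℝ) * s4a_bil C u da +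
        (s4a_sb p q : ℝ) * s4a_bil C (fun i => u i + (q : ℝ) * τ i) (fun i => da i + (q : ℝ) * d i) +
        (s4a_st p q : ℝ) * s4a_bil C τ d := by
  have hq' : (q : ℝ) ≠ 0 := by exact_mod_cast hq
  unfold s4a_bil s4a_sa s4a_sb s4a_st
  push_cast
  simp only [Finset.mul_sum, ← Finset.sum_add_distrib]
  refine Finset.sum_congr rfl fun i _ => Finset.sum_congr rfl fun j _ => ?_
  field_simp
  ring

/-- the scalar versions: `y_i² = sa y_a² + sb y_b² + st t²`, `y_i = sa y_a + sb y_b` -/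
theorem s4a_sep_sq (p q : ℤ) (hq : q ≠ 0) (y t : ℝ) :
    (y + (p : ℝ) * t) ^ 2 = (s4a_sa p q : ℝ) * y ^ 2 + (s4a_sb p q : ℝ) * (y + (q : ℝ) * t) ^ 2 + (s4a_st p q : ℝ) * t ^ 2 := by
  have hq' : (q : ℝ) ≠ 0 := by exact_mod_cast hq
  unfold s4a_sa s4a_sb s4a_st
  push_cast
  field_simp
  ring

theorem s4a_sep_lin (p q : ℤ) (hq : q ≠ 0) (y t : ℝ) :
    y + (p : ℝ) * t = (s4a_sa p q : ℝ) * y + (s4a_sb p q : ℝ) * (y + (q : ℝ) * t) := by
  have hq' : (q : ℝ) ≠ 0 := by exact_mod_cast hq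
  unfold s4a_sa s4a_sb
  push_cast
  field_simp
  ring

/-- heights of the three coefficients -/
theorem s4a_sep_height (p q : ℤ) (hq : q ≠ 0) (hp3 : |p| ≤ 3) (hq3 : |q| ≤ 3) :
    qHeight (s4a_sa p q) ≤ 18 ∧ qHeight (s4a_sb p q) ≤ 18 ∧ qHeight (s4a_st p q) ≤ 18 := by
  rw [abs_le] at hp3 hq3
  obtain ⟨hp1, hp2⟩ := hp3
  obtain ⟨hq1, hq2⟩ := hq3
  interval_cases p <;> interval_cases q <;> first | exact absurd rfl hq | decide +kernel

theorem s4a_C3_bil (sa sb st : ℚ) (C : Matrix ι ι ℚ) (x z : s4a_T3 ι → ℝ) :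
    s4a_bil (s4a_C3 sa sb st C) x z =
      (sa : ℝ) * s4a_bil C (s4a_pa x) (s4a_pa z) + (sb : ℝ) * s4a_bil C (s4a_pb x) (s4a_pb z) +
        (st : ℝ) * s4a_bil C (s4a_pt x) (s4a_pt z) := by
  simp only [s4a_bil, s4a_C3, Fintype.sum_sum_type, Matrix.fromBlocks_apply₁₁, Matrix.fromBlocks_apply₁₂,
    Matrix.fromBlocks_apply₂₁, Matrix.fromBlocks_apply₂₂, Matrix.zero_apply, Matrix.smul_apply, smul_eq_mul,
    Rat.cast_zero, Rat.cast_mul, mul_zero, zero_mul, Finset.sum_const_zero, add_zero, zero_add, s4a_pa, s4a_pb,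
    s4a_pt, Finset.mul_sum]
  rw [add_assoc]
  congr 1
  · refine Finset.sum_congr rfl fun i _ => Finset.sum_congr rfl fun j _ => ?_
    ring
  · congr 1
    · refine Finset.sum_congr rfl fun i _ => Finset.sum_congr rfl fun j _ => ?_
      ring
    · refine Finset.sum_congr rfl fun i _ => Finset.sum_congr rfl fun j _ => ?_
      ring

theorem s4a_sAmp_supp {A : ℝ} {S : ℝ → ℝ} (hS : s4a_Step A S) (p q : ℤ) (hp3 : |p| ≤ 3) (hq3 : |q| ≤ 3)
    {chi : (ι → ℝ) → ℂ} {K : ℝ} (hs : ∀ x, chi x ≠ 0 → ∀ i, |x i| ≤ K) (x : s4a_T3 ι → ℝ)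
    (hx : s4a_sAmp S p q chi x ≠ 0) (j : s4a_T3 ι) : |x j| ≤ K + 7 := by
  unfold s4a_sAmp at hx
  have h1 : chi (fun i => s4a_pa x i + (p : ℝ) * s4a_pt x i) ≠ 0 := fun h => hx (by rw [h, zero_mul, zero_mul])
  have h2 : s4a_tens (s4a_rho S) (s4a_pt x) ≠ 0 := fun h => hx (by rw [h, mul_zero, zero_mul])
  have h3 : s4a_tens (s4a_eqc S) (fun i => s4a_pb x i - s4a_pa x i - (q : ℝ) * s4a_pt x i) ≠ 0 :=
    fun h => hx (by rw [h, mul_zero])
  have hp : |(p : ℝ)| ≤ 3 := by exact_mod_cast hp3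
  have hq : |(q : ℝ)| ≤ 3 := by exact_mod_cast hq3
  have key : ∀ i : ι, |s4a_pa x i| ≤ K + 7 ∧ |s4a_pb x i| ≤ K + 7 ∧ |s4a_pt x i| ≤ K + 7 := by
    intro i
    have k1 := abs_le.1 (hs _ h1 i)
    have k2 := abs_lt.1 (s4a_tens_supp (s4a_rho_supp hS) _ h2 i)
    have k3 := abs_lt.1 (s4a_tens_supp (s4a_eqc_supp hS) _ h3 i)
    have hpt : |(p : ℝ) * s4a_pt x i| ≤ 3 := by
      rw [abs_mul]
      have : |s4a_pt x i| ≤ 1 := (abs_lt.2 k2).le
      nlinarith [abs_nonneg (p : ℝ), abs_nonneg (s4a_pt x i)]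
    have hqt : |(q : ℝ) * s4a_pt x i| ≤ 3 := by
      rw [abs_mul]
      have : |s4a_pt x i| ≤ 1 := (abs_lt.2 k2).le
      nlinarith [abs_nonneg (q : ℝ), abs_nonneg (s4a_pt x i)]
    have hpt' := abs_le.1 hpt
    have hqt' := abs_le.1 hqt
    refine ⟨abs_le.2 ⟨by linarith [k1.1, hpt'.2], by linarith [k1.2, hpt'.1]⟩,
      abs_le.2 ⟨by linarith [k1.1, hpt'.2, k3.1, hqt'.1], by linarith [k1.2, hpt'.1, k3.2, hqt'.2]⟩,
      abs_le.2 ⟨by linarith [k1.1, k1.2, k2.1], by linarith [k1.1, k1.2, k2.2]⟩⟩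
  rcases j with i | i | i
  · exact (key i).1
  · exact (key i).2.1
  · exact (key i).2.2

/-- **the separation identity** -/
theorem s4a_sep_identity {A : ℝ} {S : ℝ → ℝ} (hS : s4a_Step A S) (p q : ℤ) (hq : q ≠ 0) (hp3 : |p| ≤ 3) (hq3 : |q| ≤ 3)
    (C : Matrix ι ι ℚ) {chi : (ι → ℝ) → ℂ} {K : ℝ} (hs : ∀ x, chi x ≠ 0 → ∀ i, |x i| ≤ K) (u τ : ι → ℝ) :
    s4a_br C chi (fun i => u i + (p : ℝ) * τ i) =
      s4a_br (s4a_C3 (s4a_sa p q) (s4a_sb p q) (s4a_st p q) C) (s4a_sAmp S p q chi)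
        (s4a_tri u (fun i => u i + (q : ℝ) * τ i) τ) := by
  set U : ι → ℝ := fun i => u i + (p : ℝ) * τ i with hU
  set X : s4a_T3 ι → ℝ := s4a_tri u (fun i => u i + (q : ℝ) * τ i) τ with hX
  -- the two factors
  set f : (ι → ℤ) → ℂ := fun n => chi (fun i => U i - (n i : ℝ)) * ee (s4a_bil C U fun i => U i - (n i : ℝ)) with hf
  set h : (ι → ℤ) → ℂ := fun m => s4a_tens (s4a_rho S) fun i => τ i - (m i : ℝ) with hh
  have hfs : Summable f := s4a_br_summable C hs U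
  have hhs : HasSum h 1 := s4a_tens_rho_hasSum hS τ
  -- the terms of the right side
  set T : (s4a_T3 ι → ℤ) → ℂ := fun N => s4a_sAmp S p q chi (fun j => X j - (N j : ℝ)) *
    ee (s4a_bil (s4a_C3 (s4a_sa p q) (s4a_sb p q) (s4a_st p q) C) X fun j => X j - (N j : ℝ)) with hT
  set g : (ι → ℤ) × (ι → ℤ) → (s4a_T3 ι → ℤ) := fun P => s4a_tri P.1 (fun k => P.1 k + q * P.2 k) P.2 with hg
  have hginj : Function.Injective g := by
    intro P Q hPQ
    have h1 : P.1 = Q.1 := by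
      funext k
      exact congrFun hPQ (Sum.inl k)
    have h2 : P.2 = Q.2 := by
      funext k
      exact congrFun hPQ (Sum.inr (Sum.inr k))
    exact Prod.ext h1 h2
  have hE : ∀ N : s4a_T3 ι → ℤ,
      s4a_tens (s4a_eqc S) (fun i => s4a_pb (fun j => X j - (N j : ℝ)) i - s4a_pa (fun j => X j - (N j : ℝ)) i
        - (q : ℝ) * s4a_pt (fun j => X j - (N j : ℝ)) i)
      = if (fun k => s4a_pa N k + q * s4a_pt N k - s4a_pb N k) = 0 then 1 else 0 := by
    intro N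
    rw [← s4a_tens_eqc_int hS]
    congr 1
    funext i
    simp only [s4a_pa, s4a_pb, s4a_pt, hX, s4a_tri, Sum.elim_inl, Sum.elim_inr]
    push_cast
    ring
  have hsupp : Function.support T ⊆ Set.range g := by
    intro N hN
    have h1 : s4a_sAmp S p q chi (fun j => X j - (N j : ℝ)) ≠ 0 := fun h0 => hN (by simp only [hT, h0, zero_mul])
    unfold s4a_sAmp at h1
    rw [hE N] at h1
    have hz : (fun k => s4a_pa N k + q * s4a_pt N k - s4a_pb N k) = 0 := by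
      by_contra hne
      rw [if_neg hne, mul_zero] at h1
      exact h1 rfl
    refine ⟨(s4a_pa N, s4a_pt N), ?_⟩
    funext j
    rcases j with k | k | k
    · rfl
    · have := congrFun hz k
      simp only [Pi.zero_apply] at this
      show s4a_pa N k + q * s4a_pt N k = s4a_pb N k
      linarith
    · rfl
  have hTg : ∀ P : (ι → ℤ) × (ι → ℤ), T (g P) = f (fun k => P.1 k + p * P.2 k) * h P.2 := by
    intro P
    have hz : (fun k => s4a_pa (g P) k + q * s4a_pt (g P) k - s4a_pb (g P) k) = 0 := by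
      funext k
      simp [hg, s4a_pa, s4a_pb, s4a_pt, s4a_tri]
    have e1 : (fun i => s4a_pa (fun j => X j - ((g P) j : ℝ)) i + (p : ℝ) * s4a_pt (fun j => X j - ((g P) j : ℝ)) i)
        = fun i => U i - ((P.1 i + p * P.2 i : ℤ) : ℝ) := by
      funext i
      simp only [s4a_pa, s4a_pt, hX, hg, hU, s4a_tri, Sum.elim_inl, Sum.elim_inr]
      push_cast
      ring
    have e2 : s4a_pt (fun j => X j - ((g P) j : ℝ)) = fun i => τ i - (P.2 i : ℝ) := rfl
    have e3 : s4a_bil (s4a_C3 (s4a_sa p q) (s4a_sb p q) (s4a_st p q) C) X (fun j => X j - ((g P) j : ℝ))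
        = s4a_bil C U fun i => U i - ((P.1 i + p * P.2 i : ℤ) : ℝ) := by
      rw [s4a_C3_bil]
      have k1 := s4a_sep_bil C p q hq u τ (fun i => u i - (P.1 i : ℝ)) (fun i => τ i - (P.2 i : ℝ))
      have a1 : (fun i => u i - (P.1 i : ℝ) + (p : ℝ) * (τ i - (P.2 i : ℝ)))
          = fun i => U i - ((P.1 i + p * P.2 i : ℤ) : ℝ) := by
        funext i
        simp only [hU]
        push_cast
        ring
      have a2 : s4a_pb (fun j => X j - ((g P) j : ℝ))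
          = fun i => u i - (P.1 i : ℝ) + (q : ℝ) * (τ i - (P.2 i : ℝ)) := by
        funext i
        simp only [s4a_pb, hX, hg, s4a_tri, Sum.elim_inl, Sum.elim_inr]
        push_cast
        ring
      rw [a1] at k1
      rw [k1, a2]
      rfl
    simp only [hT]
    unfold s4a_sAmp
    rw [hE (g P), if_pos hz, mul_one, e1, e2, e3]
    simp only [hf, hh]
    ring
  -- reindexing
  let E2 : (ι → ℤ) × (ι → ℤ) ≃ (ι → ℤ) × (ι → ℤ) :=
    { toFun := fun P => (fun k => P.1 k + p * P.2 k, P.2)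
      invFun := fun P => (fun k => P.1 k - p * P.2 k, P.2)
      left_inv := fun P => by
        refine Prod.ext ?_ rfl
        funext k
        simp
      right_inv := fun P => by
        refine Prod.ext ?_ rfl
        funext k
        simp }
  have hR : s4a_br (s4a_C3 (s4a_sa p q) (s4a_sb p q) (s4a_st p q) C) (s4a_sAmp S p q chi) X = ∑' N, T N := rfl
  have hLs : s4a_br C chi U = ∑' n, f n := rfl
  rw [hR, hLs, ← hginj.tsum_eq hsupp]
  simp only [hTg]
  have h3 : ∑' P : (ι → ℤ) × (ι → ℤ), f (fun k => P.1 k + p * P.2 k) * h P.2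
      = ∑' P : (ι → ℤ) × (ι → ℤ), f P.1 * h P.2 :=
    E2.tsum_eq (fun P : (ι → ℤ) × (ι → ℤ) => f P.1 * h P.2)
  rw [h3, ← tsum_mul_tsum_of_summable_norm hfs.norm hhs.summable.norm, hhs.tsum_eq, mul_one]

/-- the bracket sum is continuous in the amplitude for pointwise convergent series with a common compact support -/
theorem s4a_br_hasSum {X : Type*} (C : Matrix ι ι ℚ) (K : ℝ) (F : X → (ι → ℝ) → ℂ) (G : (ι → ℝ) → ℂ)
    (hF : ∀ v x, F v x ≠ 0 → ∀ i, |x i| ≤ K) (hG : ∀ x, HasSum (fun v => F v x) (G x)) (u : ι → ℝ) :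
    HasSum (fun v => s4a_br C (F v) u) (s4a_br C G u) := by
  have hGs : ∀ x, G x ≠ 0 → ∀ i, |x i| ≤ K := by
    intro x hx
    by_contra hcon
    apply hx
    have h0 : ∀ v, F v x = 0 := fun v => by
      by_contra hne
      exact hcon (hF v x hne)
    have h1 := hG x
    simp only [h0] at h1
    exact h1.unique hasSum_zero
  have hfin : ∀ (chi : (ι → ℝ) → ℂ), (∀ x, chi x ≠ 0 → ∀ i, |x i| ≤ K) →
      s4a_br C chi u = ∑ n ∈ s4a_lat_boxF K u,
        chi (fun i => u i - (n i : ℝ)) * ee (s4a_bil C u fun i => u i - (n i : ℝ)) := by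
    intro chi hchi
    unfold s4a_br
    refine tsum_eq_sum fun n hn => ?_
    have : chi (fun i => u i - (n i : ℝ)) = 0 := by
      by_contra hne
      exact hn ((s4a_lat_boxF_mem K u n).2 (hchi _ hne))
    rw [this, zero_mul]
  rw [hfin G hGs]
  simp only [hfin _ (hF _)]
  exact hasSum_sum fun n _ => (hG _).mul_right _

/-- tensor amplitudes factor -/
theorem s4a_br_tri (sa sb st : ℚ) (C : Matrix ι ι ℚ) {fa fb ft : (ι → ℝ) → ℂ} {K : ℝ}
    (ha : ∀ x, fa x ≠ 0 → ∀ i, |x i| ≤ K) (hb : ∀ x, fb x ≠ 0 → ∀ i, |x i| ≤ K) (ht : ∀ x, ft x ≠ 0 → ∀ i, |x i| ≤ K)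
    (ua ub ut : ι → ℝ) :
    s4a_br (s4a_C3 sa sb st C) (fun x => fa (s4a_pa x) * (fb (s4a_pb x) * ft (s4a_pt x))) (s4a_tri ua ub ut) =
      s4a_br (sa • C) fa ua * (s4a_br (sb • C) fb ub * s4a_br (st • C) ft ut) := by
  rw [s4a_br_mul (sb • C) (st • C) hb ht ub ut]
  rw [s4a_br_mul (K := K) (sa • C) (Matrix.fromBlocks (sb • C) 0 0 (st • C)) ha ?_ ua (Sum.elim ub ut)]
  · rfl
  · intro x hx j
    have h1 : fb (fun i => x (Sum.inl i)) ≠ 0 := fun h => hx (by rw [h, zero_mul])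
    have h2 : ft (fun i => x (Sum.inr i)) ≠ 0 := fun h => hx (by rw [h, mul_zero])
    rcases j with i | i
    · exact hb _ h1 i
    · exact ht _ h2 i

end Claimed.Agent.R258
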