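/-
Row 258, block [S4a] (architect helper78).  FILE SepAmp = leaf P-S4a-SEPAMP: the ANALYTIC part of Lemma 4.5 on `ℝ^ι` (charts.tex l.576-600): Gevrey bounds of the coupled amplitude, its Fourier series on a box, the
separated modes, and the one-atom separation theorem for bracket sums (`s4a_sep_br`).
Uses the STATEMENTS of SepAlg.lean, Cut.lean, Gev.lean, LatFourier.lean (`s4a_box_fourier`), Br.lean.

NOTATION.  `d = card ι`, `K₁ = K + 7`, `R : ℕ` with `2 K₁ + 1 < R`;  mode amplitude on `ℝ^ι`:  `s4a_mode S K₁ R v w = plat_{K₁}(w) e(v·w/R)`, `v ∈ ℤ^ι`.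

PLANS.
* `s4a_sAmp_amp`: three factors.  (i) `chi ∘ L₁`, `L₁ x = x_a + p x_t` (`‖L₁‖ ≤ 1 + |p| ≤ 4` in sup norms): `s4a_Gev.comp_affine` gives `(4 A₀, B₀)`;  (ii) `tens ρ ∘ pt` (`‖pt‖ ≤ 1`): `s4a_tens_gev`, `s4a_rho_gev`: `(d A, (2A)^d)`;
  (iii) `tens E ∘ L₂`, `L₂ x = x_b - x_a - q x_t`, `‖L₂‖ ≤ 2 + |q| ≤ 5`: `s4a_eqc_gev`: `(5 · d · 4A, (A²)^d)`.  `s4a_Gev.mul` twice, `s4a_Gev.mono`; support: `s4a_sAmp_supp`.
  (Build `L₁, L₂` from `ContinuousLinearMap.pi`, `ContinuousLinearMap.proj`; operator norm bounds by `ContinuousLinearMap.opNorm_le_bound` and `pi_norm_le_iff_of_nonneg`, `norm_le_pi_norm`.)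
* `s4a_mode_amp`: `s4a_tens_gev` + `s4a_plat_gev`: `(2 d A, (A²)^d)`; `s4a_gev_ee_lin` with `σ i = v i / R`, `∑|σ i| ≤ d ‖v‖ ≤ D := 1 + d ‖v‖` (`R ≥ 1`): `(2π D, 1)`; `s4a_Gev.mul`; support by `s4a_tens_supp`, `s4a_plat_supp`.
* `s4a_mode_tri`: `Fintype.prod_sum_type`, `Fintype.sum_sum_type`, `s4a_ee_add`.
* `s4a_sAmp_series`: `s4a_box_fourier` (index type `s4a_T3 ι`, `card = 3d`) for `ψ = s4a_sAmp ..`, radius `K₁`, gives `a`.  For `x` with all `|x j| < K₁ + 1 (< R - K₁)`: the series sums to `ψ x`, multiply by `plat(x)`: `plat(x) ψ(x) = ψ(x)`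
  (if `ψ x ≠ 0` then `|x j| ≤ K₁`, `plat = 1`).  For the other `x`: `plat(x) = 0 = ψ(x)` and all terms vanish.
* `s4a_sep_br`: `s4a_sep_identity`, then `s4a_br_hasSum` (on `s4a_T3 ι`, `F v = a v • (mode of v on T3)`, common support radius `K₁ + 1`), `s4a_br_const_mul`, `s4a_mode_tri` + `s4a_br_tri`.
-/
import Claimed.Agent.R258.S4a.SepAlg
import Claimed.Agent.R258.S4a.LatFourier

set_option autoImplicit false
open MeasureTheory
open scoped ENNReal ContDiff ComplexConjugate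

namespace Claimed.Agent.R258

variable {ι : Type} [Fintype ι]

/-- composition with a continuous linear map, global version -/
theorem s4a_Gev.comp_clm {E F : Type*} [NormedAddCommGroup E] [NormedSpace ℝ E] [NormedAddCommGroup F] [NormedSpace ℝ F]
    {A B : ℝ} {f : F → ℂ} (hA : 0 ≤ A) (hB : 0 ≤ B) (hf : s4a_Gev Set.univ A B f) (L : E →L[ℝ] F) (M : ℝ) (hM : ‖L‖ ≤ M) :
    s4a_Gev Set.univ (A * M) B (fun x => f (L x)) := by
  have h := hf.comp_affine hA hB L 0 M hM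
  simpa using h

/-- the linear map `x ↦ α x_a + β x_b + γ x_t` -/
noncomputable def s4a_lin3 (α β γ : ℝ) : (s4a_T3 ι → ℝ) →L[ℝ] (ι → ℝ) :=
  ContinuousLinearMap.pi fun i =>
    α • ContinuousLinearMap.proj (Sum.inl i) + β • ContinuousLinearMap.proj (Sum.inr (Sum.inl i)) +
      γ • ContinuousLinearMap.proj (Sum.inr (Sum.inr i))

omit [Fintype ι] in
theorem s4a_lin3_apply (α β γ : ℝ) (x : s4a_T3 ι → ℝ) (i : ι) :
    s4a_lin3 α β γ x i = α * s4a_pa x i + β * s4a_pb x i + γ * s4a_pt x i := by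
  simp [s4a_lin3, s4a_pa, s4a_pb, s4a_pt]

theorem s4a_lin3_norm (α β γ : ℝ) : ‖(s4a_lin3 α β γ : (s4a_T3 ι → ℝ) →L[ℝ] (ι → ℝ))‖ ≤ |α| + |β| + |γ| := by
  apply ContinuousLinearMap.opNorm_le_bound _ (by positivity)
  intro x
  rw [pi_norm_le_iff_of_nonneg (by positivity)]
  intro i
  rw [s4a_lin3_apply, Real.norm_eq_abs]
  have h1 : |s4a_pa x i| ≤ ‖x‖ := norm_le_pi_norm x (Sum.inl i)
  have h2 : |s4a_pb x i| ≤ ‖x‖ := norm_le_pi_norm x (Sum.inr (Sum.inl i))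
  have h3 : |s4a_pt x i| ≤ ‖x‖ := norm_le_pi_norm x (Sum.inr (Sum.inr i))
  calc |α * s4a_pa x i + β * s4a_pb x i + γ * s4a_pt x i|
      ≤ |α * s4a_pa x i| + |β * s4a_pb x i| + |γ * s4a_pt x i| := abs_add_three _ _ _
    _ = |α| * |s4a_pa x i| + |β| * |s4a_pb x i| + |γ| * |s4a_pt x i| := by simp only [abs_mul]
    _ ≤ |α| * ‖x‖ + |β| * ‖x‖ + |γ| * ‖x‖ := by gcongr
    _ = (|α| + |β| + |γ|) * ‖x‖ := by ring

theorem s4a_sAmp_amp {A : ℝ} {S : ℝ → ℝ} (hS : s4a_Step A S) (p q : ℤ) (hp3 : |p| ≤ 3) (hq3 : |q| ≤ 3)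
    {chi : (ι → ℝ) → ℂ} {K A₀ B₀ : ℝ} (hA₀ : 0 ≤ A₀) (hB₀ : 0 ≤ B₀) (hchi : s4a_Amp K A₀ B₀ chi) :
    s4a_Amp (K + 7) (4 * A₀ + 21 * (Fintype.card ι : ℝ) * A) (B₀ * (2 * A) ^ Fintype.card ι * (A ^ 2) ^ Fintype.card ι)
      (s4a_sAmp S p q chi) := by
  have hA1 := hS.A_ge
  have hA0 : 0 ≤ A := by linarith
  have hp3' : |(p : ℝ)| ≤ 3 := by exact_mod_cast hp3
  have hq3' : |(q : ℝ)| ≤ 3 := by exact_mod_cast hq3
  set d : ℝ := (Fintype.card ι : ℝ) with hd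
  have hd0 : 0 ≤ d := by positivity
  -- factor 1
  have h1 : s4a_Gev Set.univ (A₀ * 4) B₀ (fun x : s4a_T3 ι → ℝ => chi (s4a_lin3 1 0 (p : ℝ) x)) := by
    apply hchi.gev.comp_clm hA₀ hB₀
    refine le_trans (s4a_lin3_norm _ _ _) ?_
    simp only [abs_one, abs_zero]
    linarith
  -- factor 2
  have h2 : s4a_Gev Set.univ (d * A * 1) ((2 * A) ^ Fintype.card ι)
      (fun x : s4a_T3 ι → ℝ => s4a_tens (s4a_rho S) (s4a_lin3 0 0 1 x)) := by
    apply (s4a_tens_gev (ι := ι) hA0 (by positivity) (s4a_rho_gev hS)).comp_clm (by positivity) (by positivity)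
    refine le_trans (s4a_lin3_norm _ _ _) ?_
    simp
  -- factor 3
  have h3 : s4a_Gev Set.univ (d * (4 * A) * 5) ((A ^ 2) ^ Fintype.card ι)
      (fun x : s4a_T3 ι → ℝ => s4a_tens (s4a_eqc S) (s4a_lin3 (-1) 1 (-(q : ℝ)) x)) := by
    apply (s4a_tens_gev (ι := ι) (by positivity) (by positivity) (s4a_eqc_gev hS)).comp_clm (by positivity) (by positivity)
    refine le_trans (s4a_lin3_norm _ _ _) ?_
    simp only [abs_neg, abs_one]
    linarith
  have h12 := h1.mul (by positivity) (by positivity) hB₀ (by positivity) h2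
  have h123 := h12.mul (by positivity) (by positivity) (by positivity) (by positivity) h3
  have hfun : (fun x : s4a_T3 ι → ℝ => chi (s4a_lin3 1 0 (p : ℝ) x) * s4a_tens (s4a_rho S) (s4a_lin3 0 0 1 x) *
      s4a_tens (s4a_eqc S) (s4a_lin3 (-1) 1 (-(q : ℝ)) x)) = s4a_sAmp S p q chi := by
    funext x
    have e1 : s4a_lin3 1 0 (p : ℝ) x = fun i => s4a_pa x i + (p : ℝ) * s4a_pt x i := by
      funext i; rw [s4a_lin3_apply]; ring
    have e2 : s4a_lin3 0 0 1 x = s4a_pt x := by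
      funext i; rw [s4a_lin3_apply]; ring
    have e3 : s4a_lin3 (-1) 1 (-(q : ℝ)) x = fun i => s4a_pb x i - s4a_pa x i - (q : ℝ) * s4a_pt x i := by
      funext i; rw [s4a_lin3_apply]; ring
    unfold s4a_sAmp
    rw [e1, e2, e3]
  rw [hfun] at h123
  refine ⟨?_, fun x hx j => s4a_sAmp_supp hS p q hp3 hq3 hchi.supp x hx j⟩
  refine h123.mono (le_refl _) (by positivity) (by positivity) (le_of_eq (by ring)) (le_refl _)


/-- the separated mode amplitude `plat_K(w) e(v·w/R)` -/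
noncomputable def s4a_mode (S : ℝ → ℝ) (K : ℝ) (R : ℕ) (v : ι → ℤ) (w : ι → ℝ) : ℂ :=
  s4a_tens (s4a_plat S K) w * ee (∑ i, (v i : ℝ) * w i / (R : ℝ))

theorem s4a_mode_amp {A : ℝ} {S : ℝ → ℝ} (hS : s4a_Step A S) (K : ℝ) (R : ℕ) (hR : 1 ≤ R) (v : ι → ℤ) :
    s4a_Amp (K + 1) (2 * (Fintype.card ι : ℝ) * A + 2 * Real.pi * (1 + (Fintype.card ι : ℝ) * ‖v‖))
      ((A ^ 2) ^ Fintype.card ι) (s4a_mode S K R v) := by
  have hA1 := hS.A_ge
  have hA0 : 0 ≤ A := by linarith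
  have hR' : (1 : ℝ) ≤ (R : ℝ) := by exact_mod_cast hR
  have h1 := s4a_tens_gev (ι := ι) (by positivity : 0 ≤ 2 * A) (by positivity : 0 ≤ A ^ 2) (s4a_plat_gev hS K)
  have hσ : ∑ i, |(v i : ℝ) / (R : ℝ)| ≤ 1 + (Fintype.card ι : ℝ) * ‖v‖ := by
    have : ∀ i ∈ (Finset.univ : Finset ι), |(v i : ℝ) / (R : ℝ)| ≤ ‖v‖ := by
      intro i _
      have h2 : |(v i : ℝ)| ≤ ‖v‖ := by
        have := norm_le_pi_norm v i
        simpa [Int.norm_eq_abs] using this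
      rw [abs_div, abs_of_pos (by linarith : (0 : ℝ) < R)]
      calc |(v i : ℝ)| / R ≤ |(v i : ℝ)| / 1 := by gcongr
        _ = |(v i : ℝ)| := by simp
        _ ≤ ‖v‖ := h2
    have h3 := Finset.sum_le_sum this
    simp only [Finset.sum_const, Finset.card_univ, nsmul_eq_mul] at h3
    linarith
  have h2 := s4a_gev_ee_lin (ι := ι) (fun i => (v i : ℝ) / (R : ℝ)) 0 (1 + (Fintype.card ι : ℝ) * ‖v‖)
    (by have : 0 ≤ (Fintype.card ι : ℝ) * ‖v‖ := by positivity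
        linarith) hσ
  have h12 := h1.mul (by positivity) (by positivity) (by positivity) (by norm_num) h2
  have hfun : (fun x : ι → ℝ => s4a_tens (s4a_plat S K) x * ee (s4a_dot (fun i => (v i : ℝ) / (R : ℝ)) x + 0)) =
      s4a_mode S K R v := by
    funext x
    unfold s4a_mode s4a_dot
    congr 2
    rw [add_zero]
    apply Finset.sum_congr rfl
    intro i _
    ring
  rw [hfun] at h12
  refine ⟨h12.mono (le_refl _) (by positivity) (by positivity) (le_of_eq (by ring)) (le_of_eq (by ring)), ?_⟩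
  intro x hx i
  have hx' : s4a_tens (s4a_plat S K) x ≠ 0 := by
    intro h0
    apply hx
    unfold s4a_mode
    rw [h0, zero_mul]
  exact le_of_lt (s4a_tens_supp (fun t ht => s4a_plat_supp hS K t ht) x hx' i)

theorem s4a_mode_norm_le {A : ℝ} {S : ℝ → ℝ} (hS : s4a_Step A S) (K : ℝ) (R : ℕ) (v : ι → ℤ) (w : ι → ℝ) :
    ‖s4a_mode S K R v w‖ ≤ 1 := by
  unfold s4a_mode
  rw [norm_mul, s4a_ee_norm, mul_one]
  exact s4a_tens_norm_le (fun t => s4a_plat_range hS K t) w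

/-- a mode on three copies is the product of three modes -/
theorem s4a_mode_tri (S : ℝ → ℝ) (K : ℝ) (R : ℕ) (v : s4a_T3 ι → ℤ) (x : s4a_T3 ι → ℝ) :
    s4a_mode S K R v x =
      s4a_mode S K R (s4a_pa v) (s4a_pa x) * (s4a_mode S K R (s4a_pb v) (s4a_pb x) * s4a_mode S K R (s4a_pt v) (s4a_pt x)) := by
  unfold s4a_mode s4a_tens
  simp only [Fintype.prod_sum_type, Fintype.sum_sum_type, s4a_ee_add, s4a_pa, s4a_pb, s4a_pt]
  ring


theorem s4a_card_T3 : Fintype.card (s4a_T3 ι) = 3 * Fintype.card ι := by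
  simp only [s4a_T3, Fintype.card_sum]; ring

/-- Fourier series of the coupled amplitude, valid on the WHOLE space after multiplication by the plateau -/
theorem s4a_sAmp_series {A : ℝ} {S : ℝ → ℝ} (hS : s4a_Step A S) (p q : ℤ) (hp3 : |p| ≤ 3) (hq3 : |q| ≤ 3)
    {chi : (ι → ℝ) → ℂ} {K A₀ B₀ : ℝ} (hK : 0 ≤ K) (hA₀ : 0 ≤ A₀) (hB₀ : 0 ≤ B₀) (hchi : s4a_Amp K A₀ B₀ chi) (R : ℕ)
    (hR : 2 * (K + 7) + 1 < (R : ℝ)) (m : ℕ) (hm : 6 * Fintype.card ι ≤ m) :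
    ∃ a : (s4a_T3 ι → ℤ) → ℂ,
      (∀ v, ‖a v‖ * (1 + ‖v‖) ^ m ≤ (2 * (K + 7) + 3) ^ (3 * Fintype.card ι) *
          (B₀ * (2 * A) ^ Fintype.card ι * (A ^ 2) ^ Fintype.card ι * (1 + 4 * A₀ + 21 * (Fintype.card ι : ℝ) * A) ^ m * s4a_w m) *
          (R : ℝ) ^ m) ∧
      ∀ x, HasSum (fun v => a v * s4a_mode S (K + 7) R v x) (s4a_sAmp S p q chi x) := by
  have hA1 := hS.A_ge
  have hA0 : 0 ≤ A := by linarith
  have hamp := s4a_sAmp_amp hS p q hp3 hq3 hA₀ hB₀ hchi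
  set AA := 4 * A₀ + 21 * (Fintype.card ι : ℝ) * A with hAA
  set BA := B₀ * (2 * A) ^ Fintype.card ι * (A ^ 2) ^ Fintype.card ι with hBA
  have hAA0 : 0 ≤ AA := by positivity
  have hBA0 : 0 ≤ BA := by positivity
  have hR1 : 1 ≤ R := by
    have : (1 : ℝ) < R := by linarith
    exact_mod_cast this.le
  have hw1 := s4a_one_le_w m
  have hpow1 : (1 : ℝ) ≤ (1 + AA) ^ m := one_le_pow₀ (by linarith)
  have h0 : ∀ x, ‖s4a_sAmp S p q chi x‖ ≤ BA * (1 + AA) ^ m * s4a_w m := by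
    intro x
    calc ‖s4a_sAmp S p q chi x‖ ≤ BA := hamp.norm_le x
      _ = BA * 1 * 1 := by ring
      _ ≤ BA * (1 + AA) ^ m * s4a_w m := by gcongr
  have hX : ∀ x, ‖iteratedFDeriv ℝ m (s4a_sAmp S p q chi) x‖ ≤ BA * (1 + AA) ^ m * s4a_w m := by
    intro x
    calc ‖iteratedFDeriv ℝ m (s4a_sAmp S p q chi) x‖ ≤ BA * AA ^ m * s4a_w m := hamp.gev.bound m x (Set.mem_univ x)
      _ ≤ BA * (1 + AA) ^ m * s4a_w m := by
          have : AA ^ m ≤ (1 + AA) ^ m := pow_le_pow_left₀ hAA0 (by linarith) m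
          have hw0 : 0 ≤ s4a_w m := by linarith
          gcongr
  obtain ⟨a, ha1, ha2⟩ := s4a_box_fourier (κ := s4a_T3 ι) R hR1 (K + 7) (by linarith) (by linarith) (s4a_sAmp S p q chi)
    hamp.gev.smooth hamp.supp m (by rw [s4a_card_T3]; omega) (BA * (1 + AA) ^ m * s4a_w m) h0 hX
  refine ⟨a, ?_, ?_⟩
  · intro v
    have := ha1 v
    rw [s4a_card_T3] at this
    have e : (1 : ℝ) + 4 * A₀ + 21 * (Fintype.card ι : ℝ) * A = 1 + AA := by rw [hAA]; ring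
    rw [e]
    exact this
  · intro x
    by_cases hx : ∀ j, |x j| < K + 7 + 1
    · have h1 := ha2 x (fun j => by have := hx j; linarith)
      have h2 := h1.mul_left (s4a_tens (s4a_plat S (K + 7)) x)
      have h3 : s4a_tens (s4a_plat S (K + 7)) x * s4a_sAmp S p q chi x = s4a_sAmp S p q chi x := by
        by_cases h0 : s4a_sAmp S p q chi x = 0
        · rw [h0, mul_zero]
        · rw [s4a_tens_one (fun t ht => s4a_plat_one hS (K + 7) t ht) x (hamp.supp x h0), one_mul]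
      rw [h3] at h2
      have e : (fun v => a v * s4a_mode S (K + 7) R v x) = fun v =>
          s4a_tens (s4a_plat S (K + 7)) x * (a v * ee (∑ i, (v i : ℝ) * x i / (R : ℝ))) := by
        funext v
        unfold s4a_mode
        ring
      rw [e]
      exact h2
    · push Not at hx
      obtain ⟨j, hj⟩ := hx
      have h1 : s4a_tens (s4a_plat S (K + 7)) x = 0 := by
        by_contra h0
        have := s4a_tens_supp (fun t ht => s4a_plat_supp hS (K + 7) t ht) x h0 j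
        linarith
      have h2 : s4a_sAmp S p q chi x = 0 := by
        by_contra h0
        have := hamp.supp x h0 j
        linarith
      rw [h2]
      have : (fun v => a v * s4a_mode S (K + 7) R v x) = fun _ => 0 := by
        funext v
        unfold s4a_mode
        rw [h1, zero_mul, mul_zero]
      rw [this]
      exact hasSum_zero

/-- **Lemma 4.5 for one bracket sum.** -/
theorem s4a_sep_br {A : ℝ} {S : ℝ → ℝ} (hS : s4a_Step A S) (p q : ℤ) (hq : q ≠ 0) (hp3 : |p| ≤ 3) (hq3 : |q| ≤ 3)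
    (C : Matrix ι ι ℚ) {chi : (ι → ℝ) → ℂ} {K A₀ B₀ : ℝ} (hK : 0 ≤ K) (hA₀ : 0 ≤ A₀) (hB₀ : 0 ≤ B₀)
    (hchi : s4a_Amp K A₀ B₀ chi) (R : ℕ) (hR : 2 * (K + 7) + 1 < (R : ℝ)) (m : ℕ) (hm : 6 * Fintype.card ι ≤ m) :
    ∃ a : (s4a_T3 ι → ℤ) → ℂ,
      (∀ v, ‖a v‖ * (1 + ‖v‖) ^ m ≤ (2 * (K + 7) + 3) ^ (3 * Fintype.card ι) *
          (B₀ * (2 * A) ^ Fintype.card ι * (A ^ 2) ^ Fintype.card ι * (1 + 4 * A₀ + 21 * (Fintype.card ι : ℝ) * A) ^ m * s4a_w m) *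
          (R : ℝ) ^ m) ∧
      ∀ u τ : ι → ℝ, HasSum (fun v => a v *
          (s4a_br (s4a_sa p q • C) (s4a_mode S (K + 7) R (s4a_pa v)) u *
            (s4a_br (s4a_sb p q • C) (s4a_mode S (K + 7) R (s4a_pb v)) (fun i => u i + (q : ℝ) * τ i) *
              s4a_br (s4a_st p q • C) (s4a_mode S (K + 7) R (s4a_pt v)) τ)))
        (s4a_br C chi (fun i => u i + (p : ℝ) * τ i)) := by
  obtain ⟨a, ha1, ha2⟩ := s4a_sAmp_series hS p q hp3 hq3 hK hA₀ hB₀ hchi R hR m hm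
  have hR1 : 1 ≤ R := by
    have : (1 : ℝ) < R := by linarith
    exact_mod_cast this.le
  refine ⟨a, ha1, ?_⟩
  intro u τ
  rw [s4a_sep_identity hS p q hq hp3 hq3 C hchi.supp u τ]
  have hsupp : ∀ (v : s4a_T3 ι → ℤ) (x : s4a_T3 ι → ℝ), a v * s4a_mode S (K + 7) R v x ≠ 0 → ∀ j, |x j| ≤ K + 7 + 1 := by
    intro v x hx j
    exact (s4a_mode_amp hS (K + 7) R hR1 v).supp x (right_ne_zero_of_mul hx) j
  have h := s4a_br_hasSum (s4a_C3 (s4a_sa p q) (s4a_sb p q) (s4a_st p q) C) (K + 7 + 1)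
    (fun v x => a v * s4a_mode S (K + 7) R v x) (s4a_sAmp S p q chi) hsupp ha2
    (s4a_tri u (fun i => u i + (q : ℝ) * τ i) τ)
  have hs : ∀ (v' : ι → ℤ) (x : ι → ℝ), s4a_mode S (K + 7) R v' x ≠ 0 → ∀ i, |x i| ≤ K + 7 + 1 :=
    fun v' x hx i => (s4a_mode_amp hS (K + 7) R hR1 v').supp x hx i
  have e : (fun v => a v *
          (s4a_br (s4a_sa p q • C) (s4a_mode S (K + 7) R (s4a_pa v)) u *
            (s4a_br (s4a_sb p q • C) (s4a_mode S (K + 7) R (s4a_pb v)) (fun i => u i + (q : ℝ) * τ i) *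
              s4a_br (s4a_st p q • C) (s4a_mode S (K + 7) R (s4a_pt v)) τ))) = fun v =>
      s4a_br (s4a_C3 (s4a_sa p q) (s4a_sb p q) (s4a_st p q) C) (fun x => a v * s4a_mode S (K + 7) R v x)
        (s4a_tri u (fun i => u i + (q : ℝ) * τ i) τ) := by
    funext v
    rw [s4a_br_const_mul, ← s4a_br_tri (s4a_sa p q) (s4a_sb p q) (s4a_st p q) C (hs _) (hs _) (hs _)]
    congr 2
    funext x
    exact (s4a_mode_tri S (K + 7) R v x).symm
  rw [e]
  exact h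

end Claimed.Agent.R258
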